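import Vale.Agent.P106.U.H61.Mac

/-!
# P106 / U / H523 : LAB (TEXT S1, note 17579, (4)), `pLab : PLab`

Basic facts on `XX` (bounded, nonempty, change of the target shape, extension + conditioning).
-/

set_option autoImplicit false

namespace Vale.Agent.P106.U.H523

open Vale.Agent.P127 Vale.Agent.P127.Stk Vale.Agent.P127.U Vale.Agent.P106.W Vale.Agent.P106.K Vale.Agent.P106.U
open Vale.Agent.P122.C2 (fn)

theorem log2_nonneg : (0 : ℝ) ≤ Real.log 2 := Real.log_nonneg (by norm_num)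

theorem dsh_nonneg (B : Cbx) (e : ℕ × ℕ) : 0 ≤ dsh B e := by unfold dsh; positivity

theorem dsh_tri (B : Cbx) (e f : ℕ × ℕ) :
    dsh B f ≤ dsh B e + (|(e.1 : ℝ) - f.1| + |(e.2 : ℝ) - f.2|) * Real.log 2 := by
  unfold dsh
  have h2 := log2_nonneg
  have key : ∀ (x : ℝ) (m n : ℕ), |x + n * Real.log 2| ≤ |x + m * Real.log 2| + |(m : ℝ) - n| * Real.log 2 := by
    intro x m n
    have : x + n * Real.log 2 = (x + m * Real.log 2) + -(((m : ℝ) - n) * Real.log 2) := by ring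
    rw [this]
    refine (abs_add_le _ _).trans ?_
    rw [abs_neg, abs_mul, abs_of_nonneg h2]
  have a1 := key (Real.log B.u2) e.1 f.1
  have a2 := key (Real.log B.u1) e.2 f.2
  rw [add_mul]
  linarith

section finite

variable {Ω : Type} [Fintype Ω] {γ : Type}

theorem val_le {c lam : ℝ} (h0 : 0 ≤ lam) (h1 : lam ≤ 1) (P : Law Ω) (l : Ω → Ry) (t : Ω → ℝ) (C : Ω → γ) {L a : ℕ}
    {W : Ω → Cbx} (h : ∀ ω, 0 < P.w ω → LbOk c L a (W ω) (l ω) (t ω)) :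
    val lam P l t C a W ≤ P.H l + 3 * a * Real.log 2 + 4 * L * Real.log 2 := by
  unfold val
  have h2 := log2_nonneg
  have e1 := Stk.hc_le_H P l (fun ω => (W ω, fl1 a (t ω), C ω))
  have e2 : P.ex (fun _ => -(4 * L * Real.log 2)) ≤
      P.ex fun ω => (3 + lam) * Real.log (W ω).u2 + (1 - lam) * Real.log (W ω).u1 := by
    refine P.ex_mono fun ω hω => ?_
    obtain ⟨b, R, hb, hR, hbR, haR⟩ := (h ω hω).sh
    rw [hb, hR, Real.log_pow, Real.log_pow, one_div, Real.log_inv]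
    have i1 : (b : ℝ) ≤ R := by exact_mod_cast hbR
    have i2 : (R : ℝ) ≤ L := by exact_mod_cast (by omega : R ≤ L)
    have i3 : (3 + lam) * (b : ℝ) + (1 - lam) * R ≤ 4 * L := by nlinarith
    nlinarith
  rw [P.ex_const] at e2
  linarith

theorem valX_le {c lam k La : ℝ} (h0 : 0 ≤ lam) (h1 : lam ≤ 1) (hk : 0 ≤ k) (hLa : La = 0) (P : Law Ω) (l : Ω → Ry)
    (t : Ω → ℝ) (C : Ω → γ) {L a : ℕ} (e : Ω → ℕ × ℕ) {W : Ω → Cbx}
    (h : ∀ ω, 0 < P.w ω → LbOk c L a (W ω) (l ω) (t ω)) :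
    valX lam k La P l t C a e W ≤ P.H l + 3 * a * Real.log 2 + 4 * L * Real.log 2 := by
  unfold valX
  have e1 := val_le h0 h1 P l t C h
  have e2 : 0 ≤ P.ex fun ω => dsh (W ω) (e ω) := P.ex_nonneg fun ω _ => dsh_nonneg _ _
  have e3 := mul_nonneg hk e2
  rw [hLa, zero_mul]
  linarith

theorem bdd0 {c lam k : ℝ} (h0 : 0 ≤ lam) (h1 : lam ≤ 1) (hk : 0 ≤ k) (P : Law Ω) (l : Ω → Ry)
    (t : Ω → ℝ) (C : Ω → γ) (e : Ω → ℕ × ℕ) (L a : ℕ) : BddAbove (xSet c lam k 0 P l t C e L a) := by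
  refine ⟨P.H l + 3 * a * Real.log 2 + 4 * L * Real.log 2, ?_⟩
  rintro v ⟨Ω', _, P', π, W, g1, g2, rfl⟩
  have := valX_le h0 h1 hk rfl P' (fun ω => l (π ω)) (fun ω => t (π ω)) (fun ω => C (π ω)) (fun ω => e (π ω)) g2
  have h4 := Stk.H_law_aux P' P π g1 l
  have h5 : P'.H (fun ω => l (π ω)) = P.H l := h4
  rw [h5] at this
  exact this

/-- the trivial label -/
noncomputable def B0 (a : ℕ) (l : Ry) (t : ℝ) : Cbx := ⟨0, 1, 1, 0, 0, (bl a l t).y, (bl a l t).s, (bl a l t).z⟩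

theorem lbOk_B0 {c : ℝ} (hc : 1 ≤ c) {L a : ℕ} (ha : a ≤ L) (l : Ry) (t : ℝ) : LbOk c L a (B0 a l t) l t := by
  have hc0 : 0 ≤ c := by linarith
  refine ⟨⟨0, 0, by simp [B0], by simp [B0], le_refl _, by omega⟩, by simp [B0, hc0], by simp [B0, hc0], ?_⟩
  refine ⟨fun k => by simp [B0, hc0], fun k => by simp [B0, hc0], by simp [B0, hc0], by simp [B0, fn, hc0], by simp [B0, fn, hc0]⟩

theorem xSet_nonempty {c lam k La : ℝ} (hc : 1 ≤ c) (P : Law Ω) (l : Ω → Ry)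
    (t : Ω → ℝ) (C : Ω → γ) (e : Ω → ℕ × ℕ) {L a : ℕ} (ha : a ≤ L) : (xSet c lam k La P l t C e L a).Nonempty :=
  ⟨_, Ω, inferInstance, P, id, fun ω => B0 a (l ω) (t ω), Stk.pr_id P, fun ω _ => lbOk_B0 hc ha _ _, rfl⟩

/-- every label on an extension gives a lower bound -/
theorem valX_le_XX {c lam k : ℝ} (h0 : 0 ≤ lam) (h1 : lam ≤ 1) (hk : 0 ≤ k) {P : Law Ω} {l : Ω → Ry}
    {t : Ω → ℝ} {C : Ω → γ} {e : Ω → ℕ × ℕ} {L a : ℕ} {Ω' : Type} [Fintype Ω'] {P' : Law Ω'} {π : Ω' → Ω} {W : Ω' → Cbx}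
    (g1 : ∀ ω, P'.pr π ω = P.w ω) (g2 : ∀ ω, 0 < P'.w ω → LbOk c L a (W ω) (l (π ω)) (t (π ω))) :
    valX lam k 0 P' (fun ω => l (π ω)) (fun ω => t (π ω)) (fun ω => C (π ω)) a (fun ω => e (π ω)) W ≤
      XX c lam k 0 P l t C e L a :=
  le_csSup (bdd0 h0 h1 hk P l t C e L a) ⟨Ω', inferInstance, P', π, W, g1, g2, rfl⟩

/-- change of the prices and of the target, extension, more conditions -/
theorem XX_change {c lam k k' : ℝ} (h0 : 0 ≤ lam) (h1 : lam ≤ 1) (hk : 0 ≤ k) (hkk : k ≤ k') (hc : 1 ≤ c) {P : Law Ω}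
    {l : Ω → Ry} {t : Ω → ℝ} {C : Ω → γ} {L a : ℕ} (ha : a ≤ L) {Ω' : Type} [Fintype Ω'] {P' : Law Ω'} {π : Ω' → Ω}
    (g1 : ∀ ω, P'.pr π ω = P.w ω) {δ : Type} (G : Ω' → δ) (e f : ℕ × ℕ) :
    XX c lam k' 0 P' (fun ω => l (π ω)) (fun ω => t (π ω)) (fun ω => (C (π ω), G ω)) (fun _ => e) L a ≤
      XX c lam k 0 P l t C (fun _ => f) L a + k' * (|(e.1 : ℝ) - f.1| + |(e.2 : ℝ) - f.2|) * Real.log 2 := by
  unfold XX
  refine csSup_le (xSet_nonempty hc _ _ _ _ _ ha) ?_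
  rintro v ⟨Ω'', _, P'', π', W, i1, i2, rfl⟩
  have j1 : ∀ ω, P''.pr (fun ω => π (π' ω)) ω = P.w ω := by
    intro ω
    rw [← g1 ω]
    exact Stk.pr_law_aux P'' P' π' i1 π ω
  have key := valX_le_XX h0 h1 hk (C := C) (e := fun _ => f) (c := c) (L := L) (a := a) (W := W) j1 i2
  unfold XX at key
  refine le_trans ?_ (add_le_add_left key _ |>.trans_eq rfl)
  unfold valX val
  have m1 := Stk.hc_mono_right P'' (fun ω => l (π (π' ω))) (Y := fun ω => (W ω, fl1 a (t (π (π' ω))), C (π (π' ω))))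
    (Y' := fun ω => (W ω, fl1 a (t (π (π' ω))), (C (π (π' ω)), G (π' ω)))) (fun ω ω' _ _ e => by
      simp only [Prod.mk.injEq] at e ⊢
      exact ⟨e.1, e.2.1, e.2.2.1⟩)
  have m2 : P''.ex (fun ω => dsh (W ω) f) ≤ P''.ex (fun ω => dsh (W ω) e) +
      (|(e.1 : ℝ) - f.1| + |(e.2 : ℝ) - f.2|) * Real.log 2 := by
    have := P''.ex_mono (f := fun ω => dsh (W ω) f)
      (g := fun ω => dsh (W ω) e + (|(e.1 : ℝ) - f.1| + |(e.2 : ℝ) - f.2|) * Real.log 2) (fun ω _ => dsh_tri _ _ _)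
    rwa [P''.ex_add, P''.ex_const] at this
  have m3 : 0 ≤ P''.ex (fun ω => dsh (W ω) f) := P''.ex_nonneg fun ω _ => dsh_nonneg _ _
  have m4 : k * P''.ex (fun ω => dsh (W ω) f) ≤ k' * P''.ex (fun ω => dsh (W ω) f) :=
    mul_le_mul_of_nonneg_right hkk m3
  have m5 := mul_le_mul_of_nonneg_left m2 (hk.trans hkk)
  simp only [zero_mul] at *
  linarith

end finite

/-- **LAB** -/
theorem pLab : PLab := by
  intro lam N k k' β β' h0 h1 hk hkk hN hF c hc ε hε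
  obtain ⟨K, hK⟩ := hF c hc ε hε
  refine ⟨K, ?_⟩
  intro d Ω _ γ P l t C L h q W hne Ω' _ P' π g1 δ G a b R A haL hA
  have hpos : ∀ ω, 0 < P'.w ω → 0 < P.w (π ω) := fun ω hω => by
    rw [← g1]
    exact P'.pr_pos π hω
  have s1 := hK Ω' (γ × δ) P' (fun ω => l (π ω)) (fun ω => t (π ω)) (fun ω => (C (π ω), G ω)) L a (b, R) A haL
    (fun ω hω => hne.ok (π ω) (hpos ω hω)) hA
  have s2 := XX_change (c := c) h0 h1 hk hkk hc (l := l) (t := t) (C := C) (Nat.zero_le L) g1 G (b, R) (0, q)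
  have s3 := hne.ex
  have s4 : val lam P l t C h W = val lam P' (fun ω => l (π ω)) (fun ω => t (π ω)) (fun ω => C (π ω)) h (fun ω => W (π ω)) := by
    unfold val
    have e1 := Stk.hc_of_law P' P π g1 l (fun ω => (W ω, fl1 h (t ω), C ω))
    have e2 := Stk.ex_law_aux P' P π g1 (fun ω => (3 + lam) * Real.log (W ω).u2 + (1 - lam) * Real.log (W ω).u1)
    rw [← e1, ← e2]
    rfl
  have s5 : val lam P' (fun ω => l (π ω)) (fun ω => t (π ω)) (fun ω => C (π ω)) h (fun ω => W (π ω)) ≤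
      val lam P' (fun ω => l (π ω)) (fun ω => t (π ω)) (fun ω => (C (π ω), G ω)) h (fun ω => W (π ω)) +
        Stk.hc P' G (fun ω => (W (π ω), fl1 h (t (π ω)), C (π ω))) := by
    unfold val
    have e1 := Stk.hc_le_add' P' (fun ω => l (π ω)) G (fun ω => (W (π ω), fl1 h (t (π ω)), C (π ω)))
    have e2 := Stk.hc_mono_right P' (fun ω => l (π ω)) (Y := fun ω => (G ω, (W (π ω), fl1 h (t (π ω)), C (π ω))))
      (Y' := fun ω => (W (π ω), fl1 h (t (π ω)), (C (π ω), G ω))) (fun ω ω' _ _ e => by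
        simp only [Prod.mk.injEq] at e ⊢
        exact ⟨e.2.2.2, e.1, e.2.1, e.2.2.1⟩)
    have e3 := Stk.hc_mono_right P' (fun ω => l (π ω)) (Y := fun ω => (W (π ω), fl1 h (t (π ω)), (C (π ω), G ω)))
      (Y' := fun ω => (G ω, (W (π ω), fl1 h (t (π ω)), C (π ω)))) (fun ω ω' _ _ e => by
        simp only [Prod.mk.injEq] at e ⊢
        exact ⟨e.2.1, e.2.2.1, e.2.2.2, e.1⟩)
    linarith
  have s6 : Dd P' (fun ω => l (π ω)) (fun ω => t (π ω)) (fun ω => (C (π ω), G ω)) h ≤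
      Dd P l t C h + Stk.hc P' G (fun ω => (l (π ω), C (π ω))) := by
    unfold Dd
    have e0 := Stk.hc_of_law P' P π g1 (fun ω => fl1 h (t ω)) (fun ω => (l ω, C ω))
    have e1 := Stk.hc_le_add' P' (fun ω => fl1 h (t (π ω))) G (fun ω => (l (π ω), C (π ω)))
    have e2 := Stk.hc_mono_right P' (fun ω => fl1 h (t (π ω))) (Y := fun ω => (l (π ω), (C (π ω), G ω)))
      (Y' := fun ω => (G ω, (l (π ω), C (π ω)))) (fun ω ω' _ _ e => by
        simp only [Prod.mk.injEq] at e ⊢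
        exact ⟨e.2.1, e.2.2, e.1⟩)
    have e3 : Stk.hc P (fun ω => fl1 h (t ω)) (fun ω => (l ω, C ω)) =
      Stk.hc P' (fun ω => fl1 h (t (π ω))) (fun ω => (l (π ω), C (π ω))) := e0.symm
    rw [e3]
    linarith
  have s7 := mul_le_mul_of_nonneg_left s6 hN
  have s8 : XX c lam k' 0 P' (fun ω => l (π ω)) (fun ω => t (π ω)) (fun ω => (C (π ω), G ω)) (fun _ => (b, R)) L 0 ≤
      XX c lam k 0 P l t C (fun _ => (0, q)) L 0 + k' * ((b : ℝ) + |(R : ℝ) - q|) * Real.log 2 := by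
    refine s2.trans (le_of_eq ?_)
    simp
  linarith

end Vale.Agent.P106.U.H523
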