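import Vale.Agent.P106.U.H523.Lab

/-!
# P106 / U / H523 : best constant, `pBest : PExtX → PBest`
-/

set_option autoImplicit false

namespace Vale.Agent.P106.U.H523

open Vale.Agent.P127 Vale.Agent.P127.Stk Vale.Agent.P127.U Vale.Agent.P106.W Vale.Agent.P106.K Vale.Agent.P106.U

section finite

variable {Ω : Type} [Fintype Ω] {γ : Type}

/-- the functional decreases with the price of the shape -/
theorem XX_mono_k {c lam k k' : ℝ} (h0 : 0 ≤ lam) (h1 : lam ≤ 1) (hk : 0 ≤ k) (hkk : k ≤ k') (hc : 1 ≤ c) (P : Law Ω)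
    (l : Ω → Ry) (t : Ω → ℝ) (C : Ω → γ) (e : Ω → ℕ × ℕ) {L a : ℕ} (ha : a ≤ L) :
    XX c lam k' 0 P l t C e L a ≤ XX c lam k 0 P l t C e L a := by
  conv_lhs => unfold XX
  refine csSup_le (xSet_nonempty hc _ _ _ _ _ ha) ?_
  rintro v ⟨Ω', _, P', π, W, i1, i2, rfl⟩
  refine le_trans ?_ (valX_le_XX h0 h1 hk (C := C) (e := e) i1 i2)
  unfold valX
  have m3 : 0 ≤ P'.ex (fun ω => dsh (W ω) (e (π ω))) := P'.ex_nonneg fun ω _ => dsh_nonneg _ _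
  have m4 := mul_le_mul_of_nonneg_right hkk m3
  linarith

theorem fl1_bd {s : ℕ} {x : ℝ} (h0 : 0 ≤ x) (h1 : x ≤ 1) : fl1 s x ∈ Finset.Icc (0 : ℤ) (2 ^ s) := by
  unfold fl1
  rw [Finset.mem_Icc]
  constructor
  · exact Int.floor_nonneg.2 (by positivity)
  · have : (2 : ℝ) ^ s * x ≤ ((2 ^ s : ℤ) : ℝ) := by
      push_cast
      have : (0 : ℝ) < 2 ^ s := by positivity
      nlinarith
    exact Int.floor_le_iff.2 (by linarith)

/-- the deficit of the time is at least `- log 2` -/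
theorem Dd_ge {P : Law Ω} {l : Ω → Ry} {t : Ω → ℝ} {C : Ω → γ} (h : SyOk P l t) (s : ℕ) : - Real.log 2 ≤ Dd P l t C s := by
  unfold Dd
  have h2 := log2_nonneg
  have e1 : Stk.hc P (fun ω => fl1 s (t ω)) (fun ω => (l ω, C ω)) ≤ Real.log ((2 ^ (s + 1) : ℕ) : ℝ) := by
    refine Stk.hc_le_log P _ _ (2 ^ (s + 1)) fun ω _ => ⟨Finset.Icc (0 : ℤ) (2 ^ s), ?_, ?_⟩
    · rw [Int.card_Icc]
      have h3 : (1 : ℤ) ≤ 2 ^ s := one_le_pow₀ (by norm_num)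
      have h4 : (2 : ℤ) ^ (s + 1) = 2 ^ s + 2 ^ s := by ring
      have h5 : ((2 ^ (s + 1) : ℕ) : ℤ) = 2 ^ (s + 1) := by push_cast; rfl
      omega
    · intro ω' hω' _
      exact fl1_bd (h ω' hω').2.1 (h ω' hω').2.2
  have e2 : Real.log ((2 ^ (s + 1) : ℕ) : ℝ) = (s + 1) * Real.log 2 := by
    push_cast
    rw [Real.log_pow]
    push_cast
    ring
  rw [e2] at e1
  linarith

theorem val_le_XX {c lam k : ℝ} (h0 : 0 ≤ lam) (h1 : lam ≤ 1) (hk : 0 ≤ k) {P : Law Ω} {l : Ω → Ry}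
    {t : Ω → ℝ} {C : Ω → γ} {e0 : ℕ × ℕ} {L a : ℕ} {W : Ω → Cbx}
    (g : ∀ ω, 0 < P.w ω → LbOk c L a (W ω) (l ω) (t ω) ∧ (W ω).u2 = (1 / 2 : ℝ) ^ e0.1 ∧ (W ω).u1 = (1 / 2 : ℝ) ^ e0.2) :
    val lam P l t C a W ≤ XX c lam k 0 P l t C (fun _ => e0) L a := by
  refine le_trans ?_ (valX_le_XX (P' := P) (π := id) h0 h1 hk (C := C) (e := fun _ => e0) (Stk.pr_id P) (fun ω hω => (g ω hω).1))
  unfold valX
  have : P.ex (fun ω => dsh (W ω) e0) = 0 := by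
    rw [P.ex_congr (g := fun _ => 0) (fun ω hω => ?_), P.ex_const]
    obtain ⟨_, g2, g3⟩ := g ω hω
    unfold dsh
    rw [g2, g3, Real.log_pow, Real.log_pow, one_div, Real.log_inv]
    simp
  simp only [id, zero_mul, this, mul_zero]
  linarith

end finite

theorem FIXA_mono {lam N k k' β : ℝ} (h0 : 0 ≤ lam) (h1 : lam ≤ 1) (hk : 0 ≤ k) (hkk : k ≤ k') (h : FIXA lam N k' β) :
    FIXA lam N k β := by
  intro c hc ε hε
  obtain ⟨K, hK⟩ := h c hc ε hε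
  refine ⟨K, ?_⟩
  intro Ω _ γ P l t C L s e0 W hs ok hW
  have := hK Ω γ P l t C L s e0 W hs ok hW
  have h2 := XX_mono_k (c := c) h0 h1 hk hkk hc P l t C (fun _ => e0) (Nat.zero_le L)
  linarith

/-- a larger rate -/
theorem FIXA_closed {lam N k β : ℝ} (h : ∀ ε : ℝ, 0 < ε → ∃ β' ≤ β + ε, FIXA lam N k β') : FIXA lam N k β := by
  intro c hc ε hε
  obtain ⟨β', hb, hF⟩ := h (ε / 2) (by linarith)
  obtain ⟨K, hK⟩ := hF c hc (ε / 2) (by linarith)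
  refine ⟨K, ?_⟩
  intro Ω _ γ P l t C L s e0 W hs ok hW
  have := hK Ω γ P l t C L s e0 W hs ok hW
  have h3 : (β' + ε / 2) * s * Real.log 2 ≤ (β + ε) * s * Real.log 2 := by
    have : (0 : ℝ) ≤ s * Real.log 2 := mul_nonneg (Nat.cast_nonneg _) log2_nonneg
    nlinarith
  linarith

theorem FIXA_ext (hE : PExtX) {lam N k : ℝ} (h0 : 0 ≤ lam) (h1 : lam ≤ 1) (hk : 0 ≤ k) (hN : 0 ≤ N) :
    FIXA lam N k (2 + 2 * k) := by
  intro c hc ε hε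
  obtain ⟨K, hK0, hK⟩ := hE c lam hc h0 h1
  refine ⟨(1 + 0 + k) * K + N * Real.log 2, ?_⟩
  intro Ω _ γ P l t C L s e0 W hs ok hW
  have e1 := val_le_XX (k := k) h0 h1 hk (C := C) hW
  have e2 := hK Ω γ P l t C (fun _ => e0) L 0 s k 0 hk le_rfl (by omega) ok
  have e3 := mul_le_mul_of_nonneg_left (Dd_ge (C := C) ok s) hN
  rw [Nat.zero_add] at e2
  have h3 : (2 + 2 * k) * s * Real.log 2 ≤ (2 + 2 * k + ε) * s * Real.log 2 := by
    have : (0 : ℝ) ≤ s * Real.log 2 := mul_nonneg (Nat.cast_nonneg _) log2_nonneg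
    nlinarith
  linarith

/-- **best constant** -/
theorem pBest (hE : PExtX) : PBest := by
  intro lam N h0 h1 hN
  have hne : ∀ k : ℝ, 0 ≤ k → (2 + 2 * k) ∈ {β : ℝ | 0 ≤ β ∧ FIXA lam N k β} := fun k hk =>
    ⟨by linarith, FIXA_ext hE h0.le h1.le hk hN⟩
  have hbd : ∀ k : ℝ, BddBelow {β : ℝ | 0 ≤ β ∧ FIXA lam N k β} := fun k => ⟨0, fun β h => h.1⟩
  refine ⟨fun k hk => ⟨Real.sInf_nonneg fun β h => h.1, csInf_le (hbd k) (hne k hk), ?_, ?_⟩, ?_⟩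
  · refine FIXA_closed fun ε hε => ?_
    obtain ⟨β', h1, h2⟩ := exists_lt_of_csInf_lt ⟨_, hne k hk⟩ (lt_add_of_pos_right (sInf {β : ℝ | 0 ≤ β ∧ FIXA lam N k β}) hε)
    exact ⟨β', h2.le, h1.2⟩
  · intro d hd hdb hF
    have := csInf_le (hbd k) (show bst lam N k - d ∈ {β : ℝ | 0 ≤ β ∧ FIXA lam N k β} from ⟨by linarith, hF⟩)
    have h' : bst lam N k ≤ bst lam N k - d := this
    linarith
  · intro k k' hk hkk
    refine csInf_le_csInf (hbd k) ⟨_, hne k' (hk.trans hkk)⟩ ?_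
    rintro β ⟨b1, b2⟩
    exact ⟨b1, FIXA_mono h0.le h1.le hk hkk b2⟩

end Vale.Agent.P106.U.H523
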