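import Vale.Agent.P106.U.H523.Nums

/-!
# P106 / U / H523 : lower bound of the start precision of the path (helper523)

* `Inp.rs_ge` : `X + 3 m ≤ r0` gives `X ≤ rs`.
* `exists_good_rm` : `exists_good'` with `X ≤ rs` for all `X + 3 m ≤ Rm` (field `rm : 100 (m B) ≤ r0` of the record).
-/

set_option autoImplicit false

namespace Vale.Agent.P106.U.H523.Nums

open Vale.Agent.P106.U

theorem Inp.rs_ge (I : Inp) (hm : 1 ≤ I.m) {X : ℕ} (h : X + 3 * I.m ≤ I.r0) : X ≤ I.rs := by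
  have h1 := Nat.div_add_mod I.r0 I.m
  have h2 := Nat.mod_lt I.r0 hm
  have h3 : 3 ≤ I.r0 / I.m := by
    rw [Nat.le_div_iff_mul_le hm]
    omega
  obtain ⟨k, hk⟩ : ∃ k, I.r0 / I.m = k + 2 := ⟨I.r0 / I.m - 2, by omega⟩
  unfold Inp.rs Inp.kb
  rw [hk, Nat.add_sub_cancel]
  rw [hk] at h1
  have h4 : I.m * (k + 2) = I.m * k + 2 * I.m := by ring
  omega

/-- **the numbers, with a lower bound of the start precision** -/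
theorem exists_good_rm {K1 C1 δ1 : ℝ} (hC1 : 1 ≤ C1) (hδ : 0 < δ1) (hδ8 : 8 * δ1 ≤ 1 / 4) (hδC : 40 * C1 * δ1 ≤ 1)
    (m B J M N0 : ℕ) (hm : 1 ≤ m) (hM : 1 ≤ M) :
    ∀ Rm : ℕ, 4 * m ≤ Rm → ∃ h0 : ℕ, ∀ h q r0 : ℕ, h0 ≤ h → min Rm q ≤ r0 → r0 ≤ q → (q : ℝ) ≤ r0 + K1 * h →
      11 * C1 * δ1 * h ≤ q →
      (Inp.mk C1 δ1 m B J M h q (min r0 ⌊(q : ℝ) - 10 * C1 * δ1 * h⌋₊)).Good (K1 + 1 / 2) N0 ∧
      Rm ≤ min r0 ⌊(q : ℝ) - 10 * C1 * δ1 * h⌋₊ ∧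
      ∀ X : ℕ, X + 3 * m ≤ Rm → X ≤ (Inp.mk C1 δ1 m B J M h q (min r0 ⌊(q : ℝ) - 10 * C1 * δ1 * h⌋₊)).rs := by
  intro Rm hRm
  obtain ⟨h0, hh0⟩ := exists_good' (K1 := K1) hC1 hδ hδ8 hδC m B J M N0 hm hM Rm hRm
  obtain ⟨h1, hh1⟩ := exists_nat_gt (Rm / δ1 : ℝ)
  refine ⟨max h0 h1, ?_⟩
  intro h q r0 hh hmin hr0q hqK hq11
  obtain ⟨g1, g2⟩ := hh0 h q r0 ((le_max_left _ _).trans hh) hmin hr0q hqK hq11
  have hRq : Rm ≤ q := by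
    have a1 : ((h1 : ℕ) : ℝ) ≤ h := by exact_mod_cast (le_max_right _ _).trans hh
    have a2 := hh1.le.trans a1
    rw [div_le_iff₀ hδ] at a2
    have a3 : (0 : ℝ) ≤ δ1 * h := by positivity
    have a4 := mul_le_mul_of_nonneg_right hC1 a3
    have a5 : (Rm : ℝ) ≤ q := by nlinarith
    exact_mod_cast a5
  rw [min_eq_left hRq] at g2
  exact ⟨g1, g2, fun X hX => Inp.rs_ge _ hm (hX.trans g2)⟩

end Vale.Agent.P106.U.H523.Nums
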