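import Vale.Agent.P106.U.H425.SwF

/-!
# P106 / U / H523 : the two levels of the field `sw` of the record (helper523)

From 425's `SwA` at the levels `la (8 δ1) h` and `la √θ h` (`la x h = ⌊(1 - x) h⌋`) the fields `sw`, `sw'` of `RunOk` with the precisions
`pr C x j h q = ⌊q - j - C (h - la x h)⌋` (0 if `q` is small), `C = σ.C1`.

* `lev` : the inequalities;  `sw_run` : both levels.
-/

set_option autoImplicit false

namespace Vale.Agent.P106.U.H523.SwRec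

open Vale.Agent.P127 Vale.Agent.P127.Stk Vale.Agent.P127.U Vale.Agent.P106.W Vale.Agent.P106.K Vale.Agent.P106.U
open Vale.Agent.P127.U.CellD (q2)
open Vale.Agent.P106.U.S5 (Cst SwF)

/-- the level -/
noncomputable def la (x : ℝ) (h : ℕ) : ℕ := ⌊(1 - x) * h⌋₊

/-- the precision -/
noncomputable def pr (C x : ℝ) (j h q : ℕ) : ℕ := ⌊(q : ℝ) - j - C * ((h : ℝ) - la x h)⌋₊

theorem la_le {x : ℝ} (hx1 : x ≤ 1) (h : ℕ) : (la x h : ℝ) ≤ (1 - x) * h :=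
  Nat.floor_le (mul_nonneg (by linarith) (Nat.cast_nonneg _))

theorem la_lt (x : ℝ) (h : ℕ) : (1 - x) * h < la x h + 1 := Nat.lt_floor_add_one _

theorem la_h {x : ℝ} (hx : 0 ≤ x) (hx1 : x ≤ 1) (h : ℕ) : la x h ≤ h := by
  have h1 := la_le hx1 h
  have h2 : (0 : ℝ) ≤ x * h := by positivity
  have h3 : (la x h : ℝ) ≤ h := by linarith
  exact_mod_cast h3

/-- `x h ≤ h - a` -/
theorem la_gap {x : ℝ} (hx1 : x ≤ 1) (h : ℕ) : x * h ≤ (h : ℝ) - la x h := by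
  have h1 := la_le hx1 h
  linarith

theorem pr_le {C x : ℝ} (hC : 0 ≤ C) (hx : 0 ≤ x) (hx1 : x ≤ 1) (j h q : ℕ) : pr C x j h q ≤ q := by
  have h1 : (la x h : ℝ) ≤ h := by exact_mod_cast la_h hx hx1 h
  have h2 := mul_nonneg hC (by linarith : (0 : ℝ) ≤ (h : ℝ) - la x h)
  unfold pr
  refine Nat.floor_le_of_le ?_
  have : (0 : ℝ) ≤ j := Nat.cast_nonneg _
  linarith

/-- the precision is admissible if it is not `0` -/
theorem pr_ok {C x : ℝ} {j h q : ℕ} (hp : pr C x j h q ≠ 0) :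
    (pr C x j h q : ℝ) + j + C * ((h : ℝ) - la x h) ≤ q := by
  unfold pr at hp ⊢
  have h1 : (1 : ℝ) ≤ (q : ℝ) - j - C * ((h : ℝ) - la x h) := by
    rw [← not_lt]
    intro h2
    exact hp (Nat.floor_eq_zero.2 h2)
  have := Nat.floor_le (by linarith : (0 : ℝ) ≤ (q : ℝ) - j - C * ((h : ℝ) - la x h))
  linarith

/-- the precision is admissible if `q` is large -/
theorem pr_ok' {C x : ℝ} {j h q : ℕ} (hp : (j : ℝ) + C * ((h : ℝ) - la x h) ≤ q) :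
    (pr C x j h q : ℝ) + j + C * ((h : ℝ) - la x h) ≤ q := by
  unfold pr
  have := Nat.floor_le (by linarith : (0 : ℝ) ≤ (q : ℝ) - j - C * ((h : ℝ) - la x h))
  linarith

theorem pr_lt (C x : ℝ) (j h q : ℕ) : (q : ℝ) < pr C x j h q + 1 + j + C * ((h : ℝ) - la x h) := by
  have := Nat.lt_floor_add_one ((q : ℝ) - j - C * ((h : ℝ) - la x h))
  unfold pr
  linarith

/-- **the inequalities of a level** -/
theorem lev {C x : ℝ} (hC : 1 ≤ C) (hx1 : x ≤ 1) (j : ℕ) {y : ℝ} (hy : 0 < y) :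
    ∃ h0 : ℕ, ∀ h q : ℕ, h0 ≤ h → (q : ℝ) ≤ pr C x j h q + C * (x + y) * h ∧ (C * (x + y) * h ≤ q →
      (pr C x j h q : ℝ) + j + C * ((h : ℝ) - la x h) ≤ q) := by
  obtain ⟨h0, hh0⟩ := exists_nat_gt ((2 + j) / y : ℝ)
  refine ⟨h0, ?_⟩
  intro h q hh
  have g1 : (2 + j : ℝ) ≤ y * h := by
    have h1 : ((h0 : ℕ) : ℝ) ≤ h := by exact_mod_cast hh
    have h2 := hh0.le.trans h1
    rw [div_le_iff₀ hy] at h2
    linarith
  have g2 := la_lt x h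
  have g3 : C * ((h : ℝ) - la x h) ≤ C * (x * h + 1) := mul_le_mul_of_nonneg_left (by linarith) (by linarith)
  have g4 : C * (2 + j) ≤ C * (y * h) := mul_le_mul_of_nonneg_left g1 (by linarith)
  have hj : (0 : ℝ) ≤ j := Nat.cast_nonneg _
  have g5 : (j : ℝ) ≤ C * j := by nlinarith
  constructor
  · have g6 := pr_lt C x j h q
    nlinarith
  · intro hq
    refine pr_ok' ?_
    nlinarith

/-- **the two levels of the record** -/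
theorem sw_run (σ : Cst) (hσ : σ.Ok) (K D : ℝ) (hK : 1 ≤ K) (hD : 0 ≤ D) :
    ∃ j h0 : ℕ, ∀ {Ω : Type} [Fintype Ω] {τ υ : Type} {R : S3.Run Ω τ υ} {p : S3.Run.Num} {c' g' gU : ℝ},
      R.Ok p K c' g' gU → 2 * K ^ 2 * q2 (R.C.rk 0) ≤ 1 → (∀ ω, 0 < R.Q.w ω → |(R.W ω).κ| ≤ K) → h0 ≤ R.h →
      10 * σ.C1 * σ.δ1 * R.h ≤ R.q →
      H425.SwA D (H425.C1 σ.lam) (la (8 * σ.δ1) R.h) R.h R.q R.Q R.ry R.t R.W →
      H425.SwA D (H425.C1 σ.lam) (la (Real.sqrt σ.θ) R.h) R.h R.q R.Q R.ry R.t R.W → ∀ K' : ℝ, 1 ≤ K' →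
      SwF R K' (la (8 * σ.δ1) R.h) (pr σ.C1 (8 * σ.δ1) j R.h R.q) ∧
      (pr σ.C1 (Real.sqrt σ.θ) j R.h R.q = 0 ∨ SwF R K' (la (Real.sqrt σ.θ) R.h) (pr σ.C1 (Real.sqrt σ.θ) j R.h R.q)) ∧
      (la (8 * σ.δ1) R.h : ℝ) ≤ (1 - 8 * σ.δ1) * R.h ∧
      (R.q : ℝ) ≤ pr σ.C1 (8 * σ.δ1) j R.h R.q + 10 * σ.C1 * σ.δ1 * R.h ∧ pr σ.C1 (8 * σ.δ1) j R.h R.q ≤ R.q ∧
      (la (Real.sqrt σ.θ) R.h : ℝ) ≤ (1 - Real.sqrt σ.θ) * R.h ∧
      (R.q : ℝ) ≤ pr σ.C1 (Real.sqrt σ.θ) j R.h R.q + 2 * σ.C1 * Real.sqrt σ.θ * R.h ∧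
      pr σ.C1 (Real.sqrt σ.θ) j R.h R.q ≤ R.q := by
  have hl := hσ.bs.lam0
  have hC1 : 1 ≤ σ.C1 := by
    show 1 ≤ 1000 / σ.lam + 1
    have : 0 ≤ 1000 / σ.lam := by positivity
    linarith
  have hCC : H425.C1 σ.lam ≤ σ.C1 := by
    show 1 + 48 / σ.lam ≤ 1000 / σ.lam + 1
    have : 48 / σ.lam ≤ 1000 / σ.lam := div_le_div_of_nonneg_right (by norm_num) hl.le
    linarith
  have hθ := hσ.θ0
  have hθ4 := hσ.θ4
  have hδ := hσ.δ0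
  have hδθ := hσ.δθ
  obtain ⟨j, hj⟩ := pow_unbounded_of_one_lt (73 * K ^ 9 * (D + 1)) (one_lt_two : (1 : ℝ) < 2)
  obtain ⟨h1, H1⟩ := lev (x := 8 * σ.δ1) hC1 (by linarith) j (y := 2 * σ.δ1) (by linarith)
  have hs0 : 0 < Real.sqrt σ.θ := Real.sqrt_pos.2 hθ
  have hs1 : Real.sqrt σ.θ ≤ 1 / 2 := by
    rw [show (1 / 2 : ℝ) = Real.sqrt (1 / 4) from by
      rw [show (1 / 4 : ℝ) = (1 / 2) ^ 2 from by norm_num, Real.sqrt_sq (by norm_num)]]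
    exact Real.sqrt_le_sqrt hθ4
  obtain ⟨h2, H2⟩ := lev (x := Real.sqrt σ.θ) hC1 (by linarith) j (y := Real.sqrt σ.θ) hs0
  refine ⟨j, max h1 h2, ?_⟩
  intro Ω _ τ υ R p c' g' gU hR hsm hκ hh hq S1 S2 K' hK'
  obtain ⟨a1, a2⟩ := H1 R.h R.q ((le_max_left _ _).trans hh)
  obtain ⟨b1, b2⟩ := H2 R.h R.q ((le_max_right _ _).trans hh)
  have e1 : σ.C1 * (8 * σ.δ1 + 2 * σ.δ1) * R.h = 10 * σ.C1 * σ.δ1 * R.h := by ring
  have e2 : σ.C1 * (Real.sqrt σ.θ + Real.sqrt σ.θ) * R.h = 2 * σ.C1 * Real.sqrt σ.θ * R.h := by ring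
  rw [e1] at a1 a2
  rw [e2] at b1
  have c1 : ∀ {x : ℝ}, 0 ≤ x → x ≤ 1 → ∀ {r : ℕ}, (r : ℝ) + j + σ.C1 * ((R.h : ℝ) - la x R.h) ≤ R.q →
      (r : ℝ) + j + H425.C1 σ.lam * ((R.h : ℝ) - la x R.h) ≤ R.q := by
    intro x hx hx1 r hr
    have g1 : (la x R.h : ℝ) ≤ R.h := by exact_mod_cast la_h hx hx1 R.h
    have g2 := mul_le_mul_of_nonneg_right hCC (by linarith : (0 : ℝ) ≤ (R.h : ℝ) - la x R.h)
    linarith
  have hCp : 0 ≤ H425.C1 σ.lam := zero_le_one.trans (H425.C1_ge hl)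
  refine ⟨?_, ?_, la_le (by linarith) _, a1, pr_le (by linarith) (by linarith) (by linarith) _ _ _, la_le (by linarith) _, b1,
    pr_le (by linarith) (by linarith) (by linarith) _ _ _⟩
  · exact H425.swF_rec hR hK hsm hκ hD S1 hCp (la_h (by linarith) (by linarith) _) hj.le
      (c1 (by linarith) (by linarith) (a2 hq)) hK'
  · rcases eq_or_ne (pr σ.C1 (Real.sqrt σ.θ) j R.h R.q) 0 with e | e
    · exact Or.inl e
    · exact Or.inr (H425.swF_rec hR hK hsm hκ hD S2 hCp (la_h (by linarith) (by linarith) _) hj.le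
        (c1 (by linarith) (by linarith) (pr_ok e)) hK')

end Vale.Agent.P106.U.H523.SwRec
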