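import Vale.Agent.P106.U.S3.Props
import Vale.Agent.P106.U.H449.Wrd1

/-!
# P106 / U / H523 : the numbers of a run (helper523)

`Inp` : constants `C1`, `δ1`, block length `m`, window `B`, lookahead `J`, distance `M` of the forced steps, and the numbers
`h`, `q`, `r0` of the normal form (`r0` = digits of the start slab).  All numbers of the run are functions of `Inp`:

* in blocks: `kb` start slab, `ha` time blocks of word 1, `B1b` bound of the difference of the precisions, `Wn` window of a base,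
  `ny` number of the `y`-blocks (the base is below `ny`), `Ab` stop, `A'b` level of COMPAT, `QFb` number of `φ`-steps, `QKb`
  precision of the stop;
* `pm` : parameters of 449's rule of word 1;  `num` : 404's numbers (digits);  `rs = m (kb - 2)` : start precision of the path;
* `a1`, `r1` : 425's window of `sw`.
* `Good` : all inequalities;  `exists_good` : they hold for `h ≥ h0` if `r0 + 10 C1 δ1 h ≤ q`;  `exists_good'` : the same for the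
  truncated start slab `min r0 (q - 10 C1 δ1 h)` if `11 C1 δ1 h ≤ q`.
-/

set_option autoImplicit false

namespace Vale.Agent.P106.U.H523.Nums

open Vale.Agent.P106.U

/-- data from which the numbers of a run are computed -/
structure Inp where
  C1 : ℝ
  δ1 : ℝ
  m : ℕ
  B : ℕ
  J : ℕ
  M : ℕ
  h : ℕ
  q : ℕ
  r0 : ℕ

namespace Inp

variable (I : Inp)

/-- blocks of the start slab -/
def kb : ℕ := I.r0 / I.m

/-- start precision of the path (digits) -/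
def rs : ℕ := I.m * (I.kb - 2)

/-- number of the time blocks of word 1 -/
def ha : ℕ := I.h / I.m

/-- number of the `φ`-steps of word 1 -/
def QFb : ℕ := I.q / I.m - I.kb

/-- bound of the difference of the two precisions (blocks) -/
noncomputable def B1b : ℕ := ⌊I.δ1 * I.h / I.m⌋₊

/-- window of a base (blocks) -/
def Wn : ℕ := 2 * (4 + I.B) ^ I.B + I.B

/-- number of the `y`-blocks -/
noncomputable def ny : ℕ := I.B1b - I.Wn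

/-- stop of the time (blocks) -/
noncomputable def Ab : ℕ := ⌊(1 - 4 * I.δ1) * I.h / I.m⌋₊

/-- level of COMPAT (blocks) -/
noncomputable def A'b : ℕ := ⌊(1 - 3 * I.δ1) * I.h / I.m⌋₊

/-- precision of the stop (blocks) -/
noncomputable def QKb : ℕ := ⌊(I.q - 4 * I.C1 * I.δ1 * I.h) / I.m⌋₊

/-- window of `sw` -/
noncomputable def a1 : ℕ := ⌊(1 - 8 * I.δ1) * I.h⌋₊

/-- precision of `sw` -/
noncomputable def r1 : ℕ := I.q - ⌈I.C1 * (I.h - I.a1)⌉₊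

/-- parameters of word 1 -/
noncomputable def pm : H449.Pm where
  A := I.ha
  QF := I.QFb
  B₀ := 0
  B₁ := I.B1b
  M := I.M

/-- the numbers of the record (digits) -/
noncomputable def num : S3.Run.Num where
  A := I.m * I.Ab
  A' := I.m * I.A'b
  QF := I.m * (I.q / I.m)
  QK := I.m * I.QKb
  B₁ := I.m * I.B1b
  J := I.J
  s := 4

/-- **the inequalities** (`K1` : `q ≤ r0 + K1 h`; `N0` : arbitrary) -/
structure Good (K1 : ℝ) (N0 : ℕ) : Prop where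
  m1 : 1 ≤ I.m
  /-- start slab -/
  kb1 : I.m * I.kb ≤ I.r0
  kb2 : I.r0 < I.m * I.kb + I.m
  kb3 : 3 ≤ I.kb
  rs2 : I.rs + 2 * I.m = I.m * I.kb
  rsq : I.rs ≤ I.q
  /-- the parameters of word 1 -/
  pmG : I.pm.Good
  QFb1 : I.kb + I.QFb = I.q / I.m
  QFd : I.num.QF = I.m * (I.kb + I.QFb)
  /-- time -/
  hah : I.m * I.ha ≤ I.h
  Ab1 : I.Ab + I.J + N0 ≤ I.A'b
  Ab2 : I.A'b + I.J + N0 ≤ I.ha
  Ab0 : N0 ≤ I.Ab
  A1 : (I.num.A : ℝ) ≤ (1 - 4 * I.δ1) * I.h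
  A2 : (1 - 5 * I.δ1) * I.h ≤ I.num.A
  AA : I.num.A ≤ I.num.A'
  A'h : I.num.A' ≤ I.h
  AJ : I.num.A + I.m * I.J ≤ I.h
  /-- precisions -/
  QFq : I.num.QF ≤ I.q
  QF2 : I.q - I.C1 * I.δ1 * I.h ≤ I.num.QF
  QK1 : (I.num.QK : ℝ) ≤ I.q - 4 * I.C1 * I.δ1 * I.h
  QK2 : I.q - 5 * I.C1 * I.δ1 * I.h ≤ I.num.QK
  kQK : I.m * I.kb + I.m * N0 ≤ I.num.QK
  rsK : I.rs ≤ I.num.QK
  KF : I.num.QK + I.num.B₁ ≤ I.num.QF
  qr : (I.q : ℝ) ≤ I.rs + (K1 + 1 / 2) * I.h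
  /-- caps -/
  B1 : (I.num.B₁ : ℝ) ≤ I.δ1 * I.h
  B1n : N0 ≤ I.B1b
  nyW : I.ny + I.Wn = I.B1b
  ny1 : I.δ1 / 2 * (I.h / I.m) ≤ I.ny
  nyN : N0 ≤ I.ny
  top : ∀ b1 < I.ny, I.m * (b1 + 2 * (4 + I.B) ^ I.B + I.B) ≤ I.num.B₁
  room : ∀ b1 < I.ny, I.num.A' + 2 * (I.m * (b1 + 2 * (4 + I.B) ^ I.B)) + 8 * (I.m * I.B) ≤ I.h
  /-- numbers of letters -/
  n1 : (I.pm.n : ℝ) ≤ (2 + 2 * K1) * (I.h / I.m)
  n2 : (I.ha : ℝ) + I.QFb + N0 ≤ (2 + K1) * (I.h / I.m)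
  hm : (N0 : ℝ) ≤ I.h / I.m
  /-- window of `sw` -/
  sw1 : (I.a1 : ℝ) ≤ (1 - 8 * I.δ1) * I.h
  sw2 : (I.q : ℝ) ≤ I.r1 + 10 * I.C1 * I.δ1 * I.h
  sw3 : I.r1 ≤ I.q
  sw0 : I.a1 ≤ I.h
  sw4 : (I.r1 : ℝ) + I.C1 * (I.h - I.a1) ≤ I.q
  /-- the start precision is not too large -/
  r10 : (I.rs : ℝ) + 10 * I.C1 * I.δ1 * I.h ≤ I.q

end Inp

/-- the real inequalities behind `Good` -/
structure Fct (C1 δ1 K1 : ℝ) (m B J N0 X h q r0 b1 A4 A3 K4 : ℕ) : Prop where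
  m0 : (1 : ℝ) ≤ m
  x0 : 0 < δ1 * h
  x32 : δ1 * h ≤ 1 / 32 * h
  xy : δ1 * h ≤ C1 * δ1 * h
  bN : (m * (4 * N0 + 8) + 4 : ℝ) ≤ δ1 * h
  bJ : (m * (J + N0 + 4) : ℝ) ≤ δ1 * h
  bX : (m * (2 * X + 2 * N0 + 4) : ℝ) ≤ δ1 * h
  bB : (m * (8 * B + 4) : ℝ) ≤ δ1 * h
  B1 : (m : ℝ) * b1 ≤ δ1 * h
  B2 : δ1 * h < m * (b1 : ℝ) + m
  A1 : (m : ℝ) * A4 ≤ (1 - 4 * δ1) * h
  A2 : (1 - 4 * δ1) * h < m * (A4 : ℝ) + m
  A3' : (m : ℝ) * A3 ≤ (1 - 3 * δ1) * h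
  A4' : (1 - 3 * δ1) * h < m * (A3 : ℝ) + m
  K1' : (m : ℝ) * K4 ≤ q - 4 * C1 * δ1 * h
  K2' : q - 4 * C1 * δ1 * h < m * (K4 : ℝ) + m
  h1 : (m : ℝ) * ((h / m : ℕ) : ℝ) ≤ h
  h2 : (h : ℝ) < m * ((h / m : ℕ) : ℝ) + m
  q1 : (m : ℝ) * ((q / m : ℕ) : ℝ) ≤ q
  q2 : (q : ℝ) < m * ((q / m : ℕ) : ℝ) + m
  r1 : (m : ℝ) * ((r0 / m : ℕ) : ℝ) ≤ r0
  r2 : (r0 : ℝ) < m * ((r0 / m : ℕ) : ℝ) + m
  qK : (q : ℝ) ≤ r0 + K1 * h
  q6 : (r0 : ℝ) + 10 * C1 * δ1 * h ≤ q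

section fct

variable {C1 δ1 K1 : ℝ} {m B J N0 X h q r0 b1 A4 A3 K4 : ℕ}

theorem Fct.cmp (F : Fct C1 δ1 K1 m B J N0 X h q r0 b1 A4 A3 K4) {x y : ℕ} (h1 : (m : ℝ) * x ≤ m * y) : x ≤ y := by
  have := le_of_mul_le_mul_left h1 (lt_of_lt_of_le one_pos F.m0)
  exact_mod_cast this

theorem Fct.e0 (F : Fct C1 δ1 K1 m B J N0 X h q r0 b1 A4 A3 K4) : N0 + X + 1 ≤ b1 := by
  obtain ⟨m0, x0, x32, xy, bN, bJ, bX, bB, B1, B2, A1, A2, A3', A4', K1', K2', h1, h2, q1, q2, r1, r2, qK, q6⟩ := F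
  have hX : (0 : ℝ) ≤ m * (X : ℝ) := by positivity
  have hN : (0 : ℝ) ≤ m * (N0 : ℝ) := by positivity
  have h3 : (m : ℝ) * ((N0 + X + 1 : ℕ) : ℝ) ≤ m * b1 := by
    push_cast
    linarith
  have := le_of_mul_le_mul_left h3 (lt_of_lt_of_le one_pos m0)
  exact_mod_cast this

theorem Fct.e1 (F : Fct C1 δ1 K1 m B J N0 X h q r0 b1 A4 A3 K4) : A4 + J + N0 ≤ A3 := by
  refine F.cmp ?_
  obtain ⟨m0, x0, x32, xy, bN, bJ, bX, bB, B1, B2, A1, A2, A3', A4', K1', K2', h1, h2, q1, q2, r1, r2, qK, q6⟩ := F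
  push_cast
  linarith

theorem Fct.e2 (F : Fct C1 δ1 K1 m B J N0 X h q r0 b1 A4 A3 K4) : A3 + J + N0 ≤ h / m := by
  refine F.cmp ?_
  obtain ⟨m0, x0, x32, xy, bN, bJ, bX, bB, B1, B2, A1, A2, A3', A4', K1', K2', h1, h2, q1, q2, r1, r2, qK, q6⟩ := F
  push_cast
  linarith

theorem Fct.e3 (F : Fct C1 δ1 K1 m B J N0 X h q r0 b1 A4 A3 K4) : N0 ≤ A4 := by
  refine F.cmp ?_
  obtain ⟨m0, x0, x32, xy, bN, bJ, bX, bB, B1, B2, A1, A2, A3', A4', K1', K2', h1, h2, q1, q2, r1, r2, qK, q6⟩ := F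
  have hN : (0 : ℝ) ≤ m * (N0 : ℝ) := by positivity
  linarith

theorem Fct.e5 (F : Fct C1 δ1 K1 m B J N0 X h q r0 b1 A4 A3 K4) : m * A3 ≤ h := by
  obtain ⟨m0, x0, x32, xy, bN, bJ, bX, bB, B1, B2, A1, A2, A3', A4', K1', K2', h1, h2, q1, q2, r1, r2, qK, q6⟩ := F
  have : (m : ℝ) * A3 ≤ h := by linarith
  exact_mod_cast this

theorem Fct.e6 (F : Fct C1 δ1 K1 m B J N0 X h q r0 b1 A4 A3 K4) : m * K4 + m * b1 ≤ m * (q / m) := by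
  obtain ⟨m0, x0, x32, xy, bN, bJ, bX, bB, B1, B2, A1, A2, A3', A4', K1', K2', h1, h2, q1, q2, r1, r2, qK, q6⟩ := F
  have hN : (0 : ℝ) ≤ m * (N0 : ℝ) := by positivity
  have : (m : ℝ) * K4 + m * b1 ≤ m * ((q / m : ℕ) : ℝ) := by linarith
  exact_mod_cast this

theorem Fct.e7 (F : Fct C1 δ1 K1 m B J N0 X h q r0 b1 A4 A3 K4) : m * (r0 / m) + m * N0 ≤ m * K4 := by
  obtain ⟨m0, x0, x32, xy, bN, bJ, bX, bB, B1, B2, A1, A2, A3', A4', K1', K2', h1, h2, q1, q2, r1, r2, qK, q6⟩ := F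
  have hN : (0 : ℝ) ≤ m * (N0 : ℝ) := by positivity
  have : (m : ℝ) * ((r0 / m : ℕ) : ℝ) + m * N0 ≤ m * K4 := by linarith
  exact_mod_cast this

theorem Fct.e8 (F : Fct C1 δ1 K1 m B J N0 X h q r0 b1 A4 A3 K4) {b : ℕ} (hb : b < b1 - X)
    (hX : X = 2 * (4 + B) ^ B + B) : m * A3 + 2 * (m * (b + 2 * (4 + B) ^ B)) + 8 * (m * B) ≤ h := by
  have h1 : m * (b + 2 * (4 + B) ^ B) ≤ m * b1 := Nat.mul_le_mul_left _ (by omega)
  obtain ⟨m0, x0, x32, xy, bN, bJ, bX, bB, B1, B2, A1, A2, A3', A4', K1', K2', h1, h2, q1, q2, r1, r2, qK, q6⟩ := F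
  have h2 : m * A3 + 2 * (m * b1) + 8 * (m * B) ≤ h := by
    have : (m : ℝ) * A3 + 2 * (m * b1) + 8 * (m * B) ≤ h := by linarith
    exact_mod_cast this
  omega

end fct

theorem exists_fct {K1 C1 δ1 : ℝ} (hC1 : 1 ≤ C1) (hδ : 0 < δ1) (hδ8 : 8 * δ1 ≤ 1 / 4) (m B J N0 X : ℕ)
    (hm : 1 ≤ m) :
    ∃ h0 : ℕ, ∀ h q r0 : ℕ, h0 ≤ h → (q : ℝ) ≤ r0 + K1 * h →
      (r0 : ℝ) + 10 * C1 * δ1 * h ≤ q → Fct C1 δ1 K1 m B J N0 X h q r0 ⌊δ1 * h / m⌋₊ ⌊(1 - 4 * δ1) * h / m⌋₊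
        ⌊(1 - 3 * δ1) * h / m⌋₊ ⌊(q - 4 * C1 * δ1 * h) / m⌋₊ := by
  obtain ⟨h0, hh0⟩ := exists_nat_gt ((m * (2 * X + 8 * B + 2 * J + 4 * N0 + 8) + 4) / (δ1 : ℝ))
  refine ⟨max h0 1, ?_⟩
  intro h q r0 hh hqK hq6
  have hh1 : 1 ≤ h := (le_max_right _ _).trans hh
  have hhR : (1 : ℝ) ≤ h := by exact_mod_cast hh1
  have hbig : (m * (2 * X + 8 * B + 2 * J + 4 * N0 + 8) + 4 : ℝ) ≤ δ1 * h := by
    have h1 : ((h0 : ℕ) : ℝ) ≤ h := by exact_mod_cast (le_max_left _ _).trans hh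
    have h2 := hh0.le.trans h1
    rw [div_le_iff₀ hδ] at h2
    linarith
  have hmR : (1 : ℝ) ≤ m := by exact_mod_cast hm
  have hm0 : (0 : ℝ) < m := by linarith
  have hX0 : (0 : ℝ) ≤ X := Nat.cast_nonneg _
  have hB0 : (0 : ℝ) ≤ B := Nat.cast_nonneg _
  have hJ0 : (0 : ℝ) ≤ J := Nat.cast_nonneg _
  have hN0 : (0 : ℝ) ≤ N0 := Nat.cast_nonneg _
  have hδh : 0 < δ1 * h := by positivity
  have hCδ : δ1 * h ≤ C1 * δ1 * h := by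
    have := mul_le_mul_of_nonneg_right hC1 hδh.le
    linarith
  have fl : ∀ x : ℝ, 0 ≤ x → (m : ℝ) * (⌊x / m⌋₊ : ℝ) ≤ x ∧ x < m * (⌊x / m⌋₊ : ℝ) + m := by
    intro x hx
    have h1 := Nat.floor_le (div_nonneg hx hm0.le)
    have h2 := Nat.lt_floor_add_one (x / m)
    rw [le_div_iff₀ hm0] at h1
    rw [div_lt_iff₀ hm0] at h2
    constructor
    · linarith
    · linarith
  have fn : ∀ x : ℕ, m * (x / m) ≤ x ∧ x < m * (x / m) + m := by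
    intro x
    have h1 := Nat.div_add_mod x m
    have h2 := Nat.mod_lt x hm
    omega
  have hx32 : δ1 * h ≤ 1 / 32 * h := mul_le_mul_of_nonneg_right (by linarith) (by linarith)
  obtain ⟨fB1, fB2⟩ := fl (δ1 * h) hδh.le
  obtain ⟨fA1, fA2⟩ := fl ((1 - 4 * δ1) * h) (by linarith)
  obtain ⟨fA3, fA4⟩ := fl ((1 - 3 * δ1) * h) (by linarith)
  have hr0 : (0 : ℝ) ≤ r0 := Nat.cast_nonneg _
  obtain ⟨fK1, fK2⟩ := fl ((q : ℝ) - 4 * C1 * δ1 * h) (by linarith)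
  obtain ⟨fh1, fh2⟩ := fn h
  obtain ⟨fq1, fq2⟩ := fn q
  obtain ⟨fr1, fr2⟩ := fn r0
  have mX : (0 : ℝ) ≤ m * (X : ℝ) := by positivity
  have mB : (0 : ℝ) ≤ m * (B : ℝ) := by positivity
  have mJ : (0 : ℝ) ≤ m * (J : ℝ) := by positivity
  have mN : (0 : ℝ) ≤ m * (N0 : ℝ) := by positivity
  exact ⟨hmR, hδh, hx32, hCδ, by linarith, by linarith, by linarith, by linarith, fB1, fB2, fA1, fA2, fA3, fA4, fK1, fK2,
    by exact_mod_cast fh1, by exact_mod_cast fh2, by exact_mod_cast fq1, by exact_mod_cast fq2, by exact_mod_cast fr1,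
    by exact_mod_cast fr2, hqK, hq6⟩

theorem exists_good {K1 C1 δ1 : ℝ} (hC1 : 1 ≤ C1) (hδ : 0 < δ1) (hδ8 : 8 * δ1 ≤ 1 / 4) (m B J M N0 : ℕ)
    (hm : 1 ≤ m) (hM : 1 ≤ M) :
    ∃ h0 : ℕ, ∀ Rm h q r0 : ℕ, 4 * m ≤ Rm → h0 ≤ h → min Rm q ≤ r0 → r0 ≤ q → (q : ℝ) ≤ r0 + K1 * h →
      (r0 : ℝ) + 10 * C1 * δ1 * h ≤ q → (Inp.mk C1 δ1 m B J M h q r0).Good K1 N0 := by
  set X : ℕ := 2 * (4 + B) ^ B + B with hX
  obtain ⟨h0, hh0⟩ := exists_fct (K1 := K1) hC1 hδ hδ8 m B J N0 X hm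
  refine ⟨max h0 1, ?_⟩
  intro Rm h q r0 hRm hh hmin hr0q hqK hq6
  have F := hh0 h q r0 ((le_max_left _ _).trans hh) hqK hq6
  have hh1 : 1 ≤ h := (le_max_right _ _).trans hh
  have hhR : (1 : ℝ) ≤ h := by exact_mod_cast hh1
  have f0 := F.e0
  have f1 := F.e1
  have f2 := F.e2
  have f3 := F.e3
  have f5 := F.e5
  have f6 := F.e6
  have f7 := F.e7
  have f8 := fun b (hb : b < ⌊δ1 * h / m⌋₊ - X) => F.e8 hb hX
  set b1 : ℕ := ⌊δ1 * h / m⌋₊ with hb1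
  set A4 : ℕ := ⌊(1 - 4 * δ1) * h / m⌋₊ with hA4
  set A3 : ℕ := ⌊(1 - 3 * δ1) * h / m⌋₊ with hA3
  set K4 : ℕ := ⌊((q : ℝ) - 4 * C1 * δ1 * h) / m⌋₊ with hK4
  obtain ⟨m0, x0, x32, xy, bN, bJ, bX, bB, B1, B2, A1, A2, A3', A4', K1', K2', h1, h2, q1, q2, r1, r2, qK, q6⟩ := F
  have hm0 : (0 : ℝ) < m := by linarith
  have mN : (0 : ℝ) ≤ m * (N0 : ℝ) := by positivity
  have mX : (0 : ℝ) ≤ m * (X : ℝ) := by positivity
  have fn : ∀ x : ℕ, m * (x / m) ≤ x ∧ x < m * (x / m) + m := by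
    intro x
    have h1 := Nat.div_add_mod x m
    have h2 := Nat.mod_lt x hm
    omega
  obtain ⟨fh1, fh2⟩ := fn h
  obtain ⟨fq1, fq2⟩ := fn q
  obtain ⟨fr1, fr2⟩ := fn r0
  -- the start slab
  have hRm4 : 4 * m ≤ r0 := by
    rcases le_total Rm q with h1 | h1
    · rw [min_eq_left h1] at hmin
      omega
    · rw [min_eq_right h1] at hmin
      exfalso
      have h2 : (q : ℝ) ≤ r0 := by exact_mod_cast hmin
      linarith only [h2, q6, xy, x0]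
  have hkb : 4 ≤ r0 / m := by
    rw [Nat.le_div_iff_mul_le hm]
    omega
  have hrs : m * (r0 / m - 2) + 2 * m = m * (r0 / m) := by
    obtain ⟨k, hk⟩ : ∃ k, r0 / m = k + 2 := ⟨r0 / m - 2, by omega⟩
    rw [hk, Nat.add_sub_cancel]
    ring
  have hrsR : (m : ℝ) * ((r0 / m - 2 : ℕ) : ℝ) + 2 * m = m * ((r0 / m : ℕ) : ℝ) := by exact_mod_cast hrs
  have hkq : r0 / m ≤ q / m := Nat.div_le_div_right hr0q
  have e9 : ((q / m - r0 / m : ℕ) : ℝ) = ((q / m : ℕ) : ℝ) - ((r0 / m : ℕ) : ℝ) := Nat.cast_sub hkq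
  have e10 : ((b1 - X : ℕ) : ℝ) = b1 - X := Nat.cast_sub (by omega)
  have e11 : ((⌊(1 - 8 * δ1) * h⌋₊ : ℕ) : ℝ) ≤ (1 - 8 * δ1) * h := Nat.floor_le (by linarith only [x32, hhR])
  have e12 : (1 - 8 * δ1) * h < (⌊(1 - 8 * δ1) * h⌋₊ : ℝ) + 1 := Nat.lt_floor_add_one _
  -- the number `h / m`
  obtain ⟨t, ht⟩ : ∃ t : ℝ, t = (h : ℝ) / m := ⟨_, rfl⟩
  have hmt : (m : ℝ) * t = h := by
    rw [ht]
    field_simp
  have ht0 : 0 ≤ t := by rw [ht]; positivity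
  have cmp : ∀ x y : ℝ, (m : ℝ) * x ≤ m * y → x ≤ y := fun x y h1 => le_of_mul_le_mul_left h1 hm0
  have t1 : ((h / m : ℕ) : ℝ) ≤ t := cmp _ _ (by rw [hmt]; exact h1)
  have e13 : (m : ℝ) * (δ1 * t) = δ1 * h := by rw [← hmt]; ring
  have e14 : (m : ℝ) * (K1 * t) = K1 * h := by rw [← hmt]; ring
  have t2 : (4 * N0 + 8 : ℝ) ≤ δ1 * t := cmp _ _ (by rw [e13]; linarith only [bN])
  have t3 : δ1 * t ≤ 1 / 32 * t := mul_le_mul_of_nonneg_right (by linarith only [hδ8]) ht0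
  have t4 : ((q / m : ℕ) : ℝ) - ((r0 / m : ℕ) : ℝ) ≤ K1 * t + 1 := cmp _ _ (by rw [mul_add, e14]; linarith only [q1, r2, qK])
  have hN0 : (0 : ℝ) ≤ N0 := Nat.cast_nonneg _
  have t5 : δ1 / 2 * t ≤ (b1 : ℝ) - X := cmp _ _ (by
    have e : (m : ℝ) * (δ1 / 2 * t) = δ1 * h / 2 := by rw [← hmt]; ring
    rw [e]
    linarith only [B2, bX, mN, m0])
  refine
    { m1 := hm
      kb1 := fr1
      kb2 := fr2
      kb3 := by show 3 ≤ r0 / m; omega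
      rs2 := hrs
      rsq := ?_
      pmG := ⟨?_, Nat.zero_le _, hM⟩
      QFb1 := ?_
      QFd := ?_
      hah := fh1
      Ab1 := f1
      Ab2 := f2
      Ab0 := f3
      A1 := ?_
      A2 := ?_
      AA := ?_
      A'h := f5
      AJ := ?_
      QFq := fq1
      QF2 := ?_
      QK1 := ?_
      QK2 := ?_
      kQK := f7
      rsK := ?_
      KF := f6
      qr := ?_
      B1 := ?_
      B1n := by show N0 ≤ b1; omega
      nyW := by show b1 - X + X = b1; omega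
      ny1 := ?_
      nyN := by show N0 ≤ b1 - X; omega
      top := ?_
      room := fun b hb => f8 b hb
      n1 := ?_
      n2 := ?_
      hm := ?_
      sw1 := e11
      sw2 := ?_
      sw3 := Nat.sub_le _ _
      sw0 := ?_
      sw4 := ?_
      r10 := ?_ }
  · show m * (r0 / m - 2) ≤ q
    omega
  · show 0 < b1
    omega
  · show r0 / m + (q / m - r0 / m) = q / m
    omega
  · show m * (q / m) = m * (r0 / m + (q / m - r0 / m))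
    congr 1
    omega
  · show ((m * A4 : ℕ) : ℝ) ≤ (1 - 4 * δ1) * h
    push_cast
    exact A1
  · show (1 - 5 * δ1) * h ≤ ((m * A4 : ℕ) : ℝ)
    push_cast
    linarith only [A2, bN, mN, m0]
  · show m * A4 ≤ m * A3
    exact Nat.mul_le_mul_left _ (by omega)
  · show m * A4 + m * J ≤ h
    have h1 : m * (A4 + J) ≤ m * A3 := Nat.mul_le_mul_left _ (by omega)
    rw [Nat.mul_add] at h1
    omega
  · show (q : ℝ) - C1 * δ1 * h ≤ ((m * (q / m) : ℕ) : ℝ)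
    rw [Nat.cast_mul]
    linarith only [q2, bN, mN, m0, xy]
  · show ((m * K4 : ℕ) : ℝ) ≤ q - 4 * C1 * δ1 * h
    push_cast
    exact K1'
  · show (q : ℝ) - 5 * C1 * δ1 * h ≤ ((m * K4 : ℕ) : ℝ)
    push_cast
    linarith only [K2', bN, mN, m0, xy]
  · show m * (r0 / m - 2) ≤ m * K4
    omega
  · show (q : ℝ) ≤ ((m * (r0 / m - 2) : ℕ) : ℝ) + (K1 + 1 / 2) * h
    rw [Nat.cast_mul]
    linarith only [hrsR, r2, qK, bN, mN, x32, hhR, m0]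
  · show ((m * b1 : ℕ) : ℝ) ≤ δ1 * h
    push_cast
    exact B1
  · show δ1 / 2 * ((h : ℝ) / m) ≤ ((b1 - X : ℕ) : ℝ)
    rw [e10, ← ht]
    exact t5
  · intro b hb
    show m * (b + 2 * (4 + B) ^ B + B) ≤ m * b1
    refine Nat.mul_le_mul_left _ ?_
    have hb' : b < b1 - X := hb
    omega
  · show ((h / m + (q / m - r0 / m) + ((q / m - r0 / m) - 0) : ℕ) : ℝ) ≤ (2 + 2 * K1) * ((h : ℝ) / m)
    rw [Nat.sub_zero, Nat.cast_add, Nat.cast_add, e9, ← ht]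
    linarith only [t1, t4, t2, t3, hN0, ht0]
  · show ((h / m : ℕ) : ℝ) + ((q / m - r0 / m : ℕ) : ℝ) + N0 ≤ (2 + K1) * ((h : ℝ) / m)
    rw [e9, ← ht]
    linarith only [t1, t4, t2, t3, hN0, ht0]
  · show (N0 : ℝ) ≤ (h : ℝ) / m
    rw [← ht]
    linarith only [t2, t3, hN0, ht0]
  · show (q : ℝ) ≤ ((q - ⌈C1 * (h - (⌊(1 - 8 * δ1) * h⌋₊ : ℝ))⌉₊ : ℕ) : ℝ) + 10 * C1 * δ1 * h
    set a : ℕ := ⌊(1 - 8 * δ1) * h⌋₊ with ha
    have g0 : 0 ≤ (h : ℝ) - a := by linarith only [e11, x0]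
    have hC0 : (0 : ℝ) ≤ C1 := zero_le_one.trans hC1
    have g1 : C1 * (h - (a : ℝ)) ≤ C1 * (8 * δ1 * h + 1) := mul_le_mul_of_nonneg_left (by linarith only [e12]) hC0
    have g2 := Nat.ceil_lt_add_one (mul_nonneg hC0 g0)
    have h3 : q ≤ (q - ⌈C1 * (h - (a : ℝ))⌉₊) + ⌈C1 * (h - (a : ℝ))⌉₊ := by omega
    have h4 : ((q : ℕ) : ℝ) ≤ (((q - ⌈C1 * (h - (a : ℝ))⌉₊) + ⌈C1 * (h - (a : ℝ))⌉₊ : ℕ) : ℝ) := by exact_mod_cast h3
    rw [Nat.cast_add] at h4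
    have g3 : C1 * 4 ≤ C1 * (δ1 * h) := mul_le_mul_of_nonneg_left (by linarith only [bN, mN, m0]) hC0
    linarith only [h4, g2, g1, g3, hC1]
  · show ⌊(1 - 8 * δ1) * h⌋₊ ≤ h
    have : ((⌊(1 - 8 * δ1) * h⌋₊ : ℕ) : ℝ) ≤ h := by linarith only [e11, x0]
    exact_mod_cast this
  · show ((q - ⌈C1 * (h - (⌊(1 - 8 * δ1) * h⌋₊ : ℝ))⌉₊ : ℕ) : ℝ) + C1 * (h - (⌊(1 - 8 * δ1) * h⌋₊ : ℝ)) ≤ q
    set a : ℕ := ⌊(1 - 8 * δ1) * h⌋₊ with ha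
    have g0 : 0 ≤ (h : ℝ) - a := by linarith only [e11, x0]
    have hC0 : (0 : ℝ) ≤ C1 := zero_le_one.trans hC1
    have g1 : C1 * (h - (a : ℝ)) ≤ C1 * (8 * δ1 * h + 1) := mul_le_mul_of_nonneg_left (by linarith only [e12]) hC0
    have g2 := Nat.ceil_lt_add_one (mul_nonneg hC0 g0)
    have g3 : C1 * 4 ≤ C1 * (δ1 * h) := mul_le_mul_of_nonneg_left (by linarith only [bN, mN, m0]) hC0
    have g4 : (0 : ℝ) ≤ r0 := Nat.cast_nonneg _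
    have g5 : (⌈C1 * (h - (a : ℝ))⌉₊ : ℝ) ≤ q := by linarith only [g2, g1, g3, hC1, q6, g4]
    have g6 : ⌈C1 * (h - (a : ℝ))⌉₊ ≤ q := by exact_mod_cast g5
    rw [Nat.cast_sub g6]
    have g7 := Nat.le_ceil (C1 * (h - (a : ℝ)))
    linarith only [g7]
  · show ((m * (r0 / m - 2) : ℕ) : ℝ) + 10 * C1 * δ1 * h ≤ q
    rw [Nat.cast_mul]
    linarith only [hrsR, r1, q6, m0]

/-- **truncated start slab** : if `q` is not small the numbers are good for `r0' = min r0 (q - 10 C1 δ1 h)` -/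
theorem exists_good' {K1 C1 δ1 : ℝ} (hC1 : 1 ≤ C1) (hδ : 0 < δ1) (hδ8 : 8 * δ1 ≤ 1 / 4) (hδC : 40 * C1 * δ1 ≤ 1)
    (m B J M N0 : ℕ) (hm : 1 ≤ m) (hM : 1 ≤ M) :
    ∀ Rm : ℕ, 4 * m ≤ Rm → ∃ h0 : ℕ, ∀ h q r0 : ℕ, h0 ≤ h → min Rm q ≤ r0 → r0 ≤ q → (q : ℝ) ≤ r0 + K1 * h →
      11 * C1 * δ1 * h ≤ q →
      (Inp.mk C1 δ1 m B J M h q (min r0 ⌊(q : ℝ) - 10 * C1 * δ1 * h⌋₊)).Good (K1 + 1 / 2) N0 ∧
      min Rm q ≤ min r0 ⌊(q : ℝ) - 10 * C1 * δ1 * h⌋₊ := by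
  intro Rm hRm
  obtain ⟨h0, hh0⟩ := exists_good (K1 := K1 + 1 / 2) hC1 hδ hδ8 m B J M N0 hm hM
  obtain ⟨h1, hh1⟩ := exists_nat_gt ((Rm + 1) / δ1 : ℝ)
  refine ⟨max h0 (max h1 4), ?_⟩
  intro h q r0 hh hmin hr0q hqK hq11
  have hh4 : (4 : ℝ) ≤ h := by exact_mod_cast ((le_max_right _ _).trans (le_max_right _ _)).trans hh
  have hR : (Rm + 1 : ℝ) ≤ δ1 * h := by
    have g1 : ((h1 : ℕ) : ℝ) ≤ h := by exact_mod_cast ((le_max_left _ _).trans (le_max_right _ _)).trans hh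
    have g2 := hh1.le.trans g1
    rw [div_le_iff₀ hδ] at g2
    linarith
  have hx0 : 0 < δ1 * h := by positivity
  have hxy : δ1 * h ≤ C1 * δ1 * h := by
    have := mul_le_mul_of_nonneg_right hC1 hx0.le
    linarith
  have hy : 40 * C1 * δ1 * h ≤ 1 * h := mul_le_mul_of_nonneg_right hδC (by linarith)
  have f1 : ((⌊(q : ℝ) - 10 * C1 * δ1 * h⌋₊ : ℕ) : ℝ) ≤ q - 10 * C1 * δ1 * h := Nat.floor_le (by linarith)
  have f2 : (q : ℝ) - 10 * C1 * δ1 * h < (⌊(q : ℝ) - 10 * C1 * δ1 * h⌋₊ : ℝ) + 1 := Nat.lt_floor_add_one _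
  have hmin' : min Rm q ≤ min r0 ⌊(q : ℝ) - 10 * C1 * δ1 * h⌋₊ := by
    refine le_min hmin ?_
    refine (min_le_left _ _).trans ?_
    have : ((Rm : ℕ) : ℝ) ≤ (⌊(q : ℝ) - 10 * C1 * δ1 * h⌋₊ : ℝ) := by linarith
    exact_mod_cast this
  refine ⟨hh0 Rm h q _ hRm ((le_max_left _ _).trans hh) hmin' ((min_le_left _ _).trans hr0q) ?_ ?_, hmin'⟩
  · rcases min_choice r0 ⌊(q : ℝ) - 10 * C1 * δ1 * h⌋₊ with e | e
    · rw [e]
      linarith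
    · rw [e]
      have hK : (q : ℝ) - r0 ≤ K1 * h := by linarith
      have hr : (r0 : ℝ) ≤ q := by exact_mod_cast hr0q
      have hK0 : 0 ≤ K1 * h := by linarith
      linarith
  · have g : ((min r0 ⌊(q : ℝ) - 10 * C1 * δ1 * h⌋₊ : ℕ) : ℝ) ≤ (⌊(q : ℝ) - 10 * C1 * δ1 * h⌋₊ : ℝ) := by
      exact_mod_cast min_le_right _ _
    linarith

end Vale.Agent.P106.U.H523.Nums
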