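import Vale.Agent.P106.U.H61.Mac
import Vale.Agent.P106.W.Rec

/-!
# P106 / U / H523 : the end of the path, exact statement (adapter S1 → END7)

`PTail` : a near-extremal system has no slab `S` of level `a ≤ (1 - θ) h`, cap `1`, thickness `2^-q`, which is nearly a function
of the ray and nearly a function of the end, and which contains the slab of `W`.

* `gS S l t a h` : the functional of the box `S` (level `a`) on the ray at the time `t_h`, in units of the block of level `a`.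
* the constant `η` does not depend on the price `k`, the rate `β`, the class `c`.
-/

set_option autoImplicit false

namespace Vale.Agent.P106.U

open Vale.Agent.P127 Vale.Agent.P127.Stk Vale.Agent.P127.U Vale.Agent.P106.W Vale.Agent.P106.K

/-- the functional of the box `S` of level `a` on the ray `l` at the time `t_h` (position at the time `t_h` in the block of level
`a` which contains `t`) -/
noncomputable def gS (S : Cbx) (l : Ry) (t : ℝ) (a h : ℕ) : ℝ :=
  S.g0 (bl a l t).y (bl a l t).s (bl a l t).z +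
    2 ^ a * (qa h t - qa a t) * S.g1 (bl a l t).y (bl a l t).s (bl a l t).z

/-- **[TAIL]** -/
def PTail : Prop :=
  ∀ lam N β0 θ : ℝ, 0 < lam → lam < 1 → lam < β0 → β0 ≤ 2 → 2 ≤ N → 0 < θ → ∃ η : ℝ, 0 < η ∧
    ∀ k β b' c K0 : ℝ, 0 < k → k ≤ η → β0 ≤ β → β ≤ b' → b' ≤ β + η → FIXA lam N (8 * k) b' → 1 ≤ c → 0 ≤ K0 → ∃ h0 : ℕ,
      ∀ (Ω : Type) [Fintype Ω] (γ : Type) (P : Law Ω) (l : Ω → Ry) (t : Ω → ℝ) (C : Ω → γ) (L h q a : ℕ) (W S : Ω → Cbx),
        NEx c lam N k β η P l t C L h q W → h0 ≤ h → (a : ℝ) ≤ (1 - θ) * h →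
        (∀ ω, 0 < P.w ω → LbOk c L a (S ω) (l ω) (t ω) ∧ (S ω).u2 = 1 ∧ (S ω).u1 = (1 / 2 : ℝ) ^ q) →
        Stk.hc P S (fun ω => (l ω, fl1 a (t ω), C ω)) ≤ η * h →
        Stk.hc P S (fun ω => (W ω, fl1 h (t ω), C ω)) ≤ η * h →
        (∀ ω ω', 0 < P.w ω → 0 < P.w ω' → W ω = W ω' → fl1 h (t ω) = fl1 h (t ω') → C ω = C ω' → S ω = S ω' →
          |gS (S ω) (l ω) (t ω) a h - gS (S ω) (l ω') (t ω') a h| ≤ K0 * (1 / 2 : ℝ) ^ (h - a + q)) → False

end Vale.Agent.P106.U
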