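import Vale.Agent.P106.U.H523.Tail
import Vale.Agent.P106.U.H931.End7

/-! # P106 / U / H523 : `PTail`, unconditional (END7 = helper931, helper459, helper495, helper996 ...) -/

set_option autoImplicit false

namespace Vale.Agent.P106.U.H523

/-- **[TAIL]** -/
theorem pTail : PTail := pTail_of End7.pEnd7

end Vale.Agent.P106.U.H523
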