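import Mathlib

/-!
# P106 / U / H523 : the numbers of the ladder (helper523)

`age_num` : thresholds `K1` (age of an old level), `K3` (spacing of the young sums), number of caps `Tc`, such that the bounds of
helper470's `kap_fib` and `pos_fib` are at most `ε Tc` (`Λ` = logarithm of the number of values of the letters, `β`, `L` = lags).
-/

set_option autoImplicit false

namespace Vale.Agent.P106.U.H523

/-- **[AGE -> NUM]** -/
theorem age_num {Λ ε : ℝ} (hΛ : 0 ≤ Λ) (hε : 0 < ε) (β L X : ℕ) :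
    ∃ K1 K3 Tc : ℕ, 0 < K1 ∧ β ≤ K1 ∧ X ≤ K1 ∧ 0 < K3 ∧ K1 ≤ K3 ∧ 0 < Tc ∧ K3 ≤ Tc ∧ β ≤ Tc ∧ L * K3 ≤ Tc ∧
      (K1 : ℝ) ≤ ε * Tc ∧ (L * K3 : ℝ) ≤ ε * Tc ∧
      (β + 2 * (β * (Tc + β) : ℝ) / K1) * Λ ≤ ε * Tc ∧
      (L * K3 + L * K1 * (Tc + L * K3) / K3 : ℝ) * Λ ≤ ε * Tc := by
  obtain ⟨k1, hk1⟩ := exists_nat_ge (8 * β * Λ / ε)
  set K1 : ℕ := max k1 (max (β + 1) X) with hK1
  have hK1p : 0 < K1 := by omega
  have hK1r : (0 : ℝ) < K1 := by exact_mod_cast hK1p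
  have a1 : 8 * β * Λ ≤ ε * K1 := by
    rw [div_le_iff₀ hε] at hk1
    have h1 : (k1 : ℝ) ≤ K1 := by exact_mod_cast le_max_left _ _
    nlinarith
  obtain ⟨k3, hk3⟩ := exists_nat_ge (4 * L * K1 * Λ / ε)
  set K3 : ℕ := max k3 K1 with hK3
  have hK3p : 0 < K3 := by omega
  have hK3r : (0 : ℝ) < K3 := by exact_mod_cast hK3p
  have a3 : 4 * L * K1 * Λ ≤ ε * K3 := by
    rw [div_le_iff₀ hε] at hk3
    have h1 : (k3 : ℝ) ≤ K3 := by exact_mod_cast le_max_left _ _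
    nlinarith
  obtain ⟨t, ht⟩ := exists_nat_ge ((K1 + L * K3 + 2 * β * Λ + 2 * L * K3 * Λ) / ε)
  set Tc : ℕ := max t (max (max K3 β) (L * K3)) with hTc
  have hT1 : K3 ≤ Tc := ((le_max_left _ _).trans (le_max_left _ _)).trans (le_max_right _ _)
  have hT2 : β ≤ Tc := ((le_max_right _ _).trans (le_max_left _ _)).trans (le_max_right _ _)
  have hT3 : L * K3 ≤ Tc := (le_max_right _ _).trans (le_max_right _ _)
  have hT2r : (β : ℝ) ≤ Tc := by exact_mod_cast hT2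
  have hT3r : (L * K3 : ℝ) ≤ Tc := by exact_mod_cast hT3
  have a5 : K1 + L * K3 + 2 * β * Λ + 2 * L * K3 * Λ ≤ ε * Tc := by
    rw [div_le_iff₀ hε] at ht
    have h1 : (t : ℝ) ≤ Tc := by exact_mod_cast le_max_left _ _
    nlinarith
  have hβ0 : (0 : ℝ) ≤ β := Nat.cast_nonneg _
  have hL0 : (0 : ℝ) ≤ L := Nat.cast_nonneg _
  have p1 : 0 ≤ β * Λ := by positivity
  have p2 : 0 ≤ (L : ℝ) * K3 := by positivity
  have p3 : 0 ≤ L * K3 * Λ := by positivity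
  have hTr : (0 : ℝ) ≤ Tc := Nat.cast_nonneg _
  refine ⟨K1, K3, Tc, hK1p, by omega, by omega, hK3p, le_max_right _ _, by omega, hT1, hT2, hT3, by linarith, by linarith,
    ?_, ?_⟩
  · have h1 : 2 * (β * (Tc + β) : ℝ) / K1 * Λ ≤ ε / 2 * Tc := by
      rw [div_mul_eq_mul_div, div_le_iff₀ hK1r]
      have h2 : 2 * (β * (Tc + β) : ℝ) * Λ ≤ 4 * β * Λ * Tc := by
        have h3 : (β * Λ) * (Tc + β) ≤ (β * Λ) * (2 * Tc) := mul_le_mul_of_nonneg_left (by linarith) p1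
        linarith
      have h4 : 4 * β * Λ * Tc ≤ ε * K1 / 2 * Tc := mul_le_mul_of_nonneg_right (by linarith) hTr
      linarith
    rw [add_mul]
    linarith
  · have h1 : (L * K1 * (Tc + L * K3) / K3 : ℝ) * Λ ≤ ε / 2 * Tc := by
      rw [div_mul_eq_mul_div, div_le_iff₀ hK3r]
      have h2 : (L * K1 * (Tc + L * K3) : ℝ) * Λ ≤ 2 * L * K1 * Λ * Tc := by
        have h3 : (L * K1 * Λ : ℝ) * (Tc + L * K3) ≤ (L * K1 * Λ) * (2 * Tc) :=
          mul_le_mul_of_nonneg_left (by linarith) (by positivity)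
        linarith
      have h4 : 2 * L * K1 * Λ * Tc ≤ ε * K3 / 2 * Tc := mul_le_mul_of_nonneg_right (by linarith) hTr
      linarith
    rw [add_mul]
    linarith

end Vale.Agent.P106.U.H523
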