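import Vale.Agent.P106.U.H425.LightC
import Vale.Agent.P106.U.H449.PruC
import Vale.Agent.P106.U.H459.ExitF
import Vale.Agent.P106.U.H652.RunNum

/-!
# P106 / U / H523 : the constants of `PRun` chosen before the price `g` (helper523)

Order: `σ`, `ε` → class `K = 10^13` → `c' ≤ min cS ε` (`cS` = threshold of the selection) → `T = ε² c' δ1 / (1000 K^8)` →
`ct`, `dT`, `ηR` (425's `light_run`) → `cr`, `M`, `Md` (449's `prU_num`) → `J`.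

* `Cc` : the constants;  `Cc.Ok` : their properties;  `Cc.ρ` : the thresholds of the record;  `exists_cc`.
* `le_num`, `pr_num`, `lg_num` : the prices.
-/

set_option autoImplicit false

namespace Vale.Agent.P106.U.H523.Cs

open Finset Vale.Agent.P127 Vale.Agent.P127.Stk Vale.Agent.P106.U Vale.Agent.P106.U.H449
open Vale.Agent.P106.U.H565 (C2)
open Vale.Agent.P106.U.H823.NumW (A1 A3)
open Vale.Agent.P106.U.H425 (kL kL_pos)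
open Vale.Agent.P106.U.S5 (Cst Thr Gv)

/-- the constants -/
structure Cc where
  /-- class -/
  K : ℝ
  /-- threshold of the closure -/
  c' : ℝ
  /-- light blocks: `e = T h / m` -/
  T : ℝ
  /-- constant of the price of the time, accuracy of the near-extremal laws, price of the letters of the ray side -/
  ct : ℝ
  dT : ℝ
  ηR : ℝ
  /-- threshold of word 1 is `2^(-cr m)` -/
  cr : ℝ
  M : ℕ
  Md : ℕ
  J : ℕ
  /-- `m ≥ mA` -/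
  mA : ℕ

/-- the thresholds of the record -/
def Cc.ρ (C : Cc) : Thr := ⟨C.cr, C.c', C.K, C.J⟩

/-- **the properties** -/
structure Cc.Ok (C : Cc) (σ : Cst) (ε cS η₀ : ℝ) : Prop where
  K1 : 1 ≤ C.K
  K648 : 648 ≤ C.K
  KM : H459.cM 100 648 ≤ C.K
  K15 : C.K ≤ 10 ^ 15
  c'0 : 0 < C.c'
  c'1 : C.c' ≤ 1 / 4
  c'S : C.c' ≤ cS
  c'e : C.c' ≤ ε
  T0 : 0 < C.T
  T1 : C.T ≤ 1
  Te : C.T ≤ ε ^ 2 * C.c' * σ.δ1 / (1000 * C.K ^ 8)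
  ct0 : 0 < C.ct
  dT0 : 0 < C.dT
  ηR0 : 0 < C.ηR
  cr0 : 0 < C.cr
  cr1 : C.cr ≤ 1
  M1 : 1 ≤ C.M
  Md2 : C.M + 2 ≤ C.Md
  J0 : 1 ≤ C.J
  J1 : A1 C.M + 1 ≤ C.J
  J3 : A3 0 C.M 0 + 1 ≤ C.J
  JM : (3 + 0) * (C.Md + 1) ≤ C.J
  /-- **light blocks** (425) -/
  light : ∀ k β β' : ℝ, 0 < k → k ≤ C.dT → σ.β0 ≤ β → β ≤ β' → β' ≤ β + C.dT → FIXA σ.lam σ.N (8 * k) β' →
    ∀ CA : ℝ, 0 ≤ CA → ∃ m0 : ℕ,
      ∀ (Ω : Type) [Fintype Ω] (c : C2 Ω) (Rm : ℕ) (cc : ℝ) (Ac rc : ℕ), c.Hyp Rm cc Ac rc → m0 ≤ c.I.m →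
        c.Md = C.Md → c.thr = Ray.thrc C.cr c.I.m → c.I.m ≤ c.I.h → ∀ d : ℝ, d ≤ C.dT →
        NEx 100 σ.lam σ.N k β d c.Q c.l c.t (fun _ => ()) c.L c.I.h c.I.q c.W →
        Stk.hc c.run.Q (c.run.U 0) c.run.ry + ∑ i ∈ range (c.run.n + c.num.J), Stk.hc c.run.Q (c.run.U (i + 1))
          (fun ω => (c.run.Z i ω, fl1 (c.run.C.a (i + 1)) (c.run.t ω))) ≤ C.ηR * c.I.h →
        Real.log (1 / (c.x1 * c.x2)) ≤ CA * (c.I.h / c.I.m) →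
        c.run.Light c.num (C.T * (c.I.h / c.I.m)) (kL C.ct C.cr C.T / c.I.m)
  /-- the same price as a number -/
  gU : ∀ m : ℕ, C.mA ≤ m → ∃ h0 : ℕ, ∀ h : ℕ, h0 ≤ h → ∀ (p : Pm) (E : List (Lt 2)) (A' : ℕ), p.M = C.M →
    (p.n : ℝ) ≤ (2 + 2 * (σ.K1 + 1 / 2)) * (h / m) → Rw p.n E 0 A' + Rw p.n E 1 A' ≤ p.n →
    Ray.HasU.gU m p E C.Md (Ray.thrc C.cr m) 3 A' ≤ min η₀ (min C.ηR (ε / 2)) * h
  /-- **price of the letters of the ray side** (449) -/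
  prU : ∀ m : ℕ, C.mA ≤ m → ∃ h0 : ℕ, ∀ (Ω : Type) [Fintype Ω] (c : C2 Ω) (Rm : ℕ) (cc : ℝ) (Ac rc : ℕ),
    c.Hyp Rm cc Ac rc → c.K1 = σ.K1 + 1 / 2 → c.I.M = C.M → c.Md = C.Md → c.I.m = m → c.thr = Ray.thrc C.cr m → h0 ≤ c.I.h →
    Stk.hc c.run.Q (c.run.U 0) c.run.ry + ∑ i ∈ range (c.run.n + c.num.J), Stk.hc c.run.Q (c.run.U (i + 1))
      (fun ω => (c.run.Z i ω, fl1 (c.run.C.a (i + 1)) (c.run.t ω))) ≤ min η₀ (min C.ηR (ε / 2)) * c.I.h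

theorem Cc.Ok.ρ {C : Cc} {σ : Cst} {ε cS η₀ : ℝ} (h : C.Ok σ ε cS η₀) : C.ρ.Ok :=
  ⟨h.cr0, h.cr1, h.c'0, h.c'1, h.K1, h.K15, h.J0⟩

/-- **the constants exist** -/
theorem exists_cc {σ : Cst} (hσ : σ.Ok) {ε cS η₀ : ℝ} (hε : 0 < ε) (hc0 : 0 < cS) (hη₀ : 0 < η₀) :
    ∃ C : Cc, C.Ok σ ε cS η₀ := by
  have hδ := hσ.δ0
  have hβ : 0 < σ.β0 := hσ.bs.lam0.trans hσ.bs.lamβ
  have hK10 := hσ.bs.K10
  set K : ℝ := 10 ^ 13 with hK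
  set c' : ℝ := min cS (min ε (1 / 4)) with hc'
  have hc'0 : 0 < c' := lt_min hc0 (lt_min hε (by norm_num))
  set T : ℝ := min 1 (ε ^ 2 * c' * σ.δ1 / (1000 * K ^ 8)) with hT
  have hT0 : 0 < T := lt_min one_pos (by positivity)
  have hT1 : T ≤ 1 := min_le_left _ _
  obtain ⟨ct, dT, ηR, hct, hdT, hηR, hL⟩ := H425.light_run hσ.bs.lam0.le hσ.bs.lam1.le hβ hσ.bs.β2 hσ.bs.N2 hT0 hT1
  obtain ⟨cr, hcr0, hcr1, M, Md, hM, hMd, mA, hgU⟩ := Ray.gU_le (K1 := σ.K1 + 1 / 2) (by linarith)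
    (lt_min hη₀ (lt_min hηR (half_pos hε)) : 0 < min η₀ (min ηR (ε / 2)))
  set J : ℕ := max (max (A1 M + 1) (A3 0 M 0 + 1)) ((3 + 0) * (Md + 1)) with hJ
  have hgU' : ∀ m : ℕ, max mA 1 ≤ m → ∃ h0 : ℕ, ∀ h : ℕ, h0 ≤ h → ∀ (p : Pm) (E : List (Lt 2)) (A' : ℕ), p.M = M →
      (p.n : ℝ) ≤ (2 + 2 * (σ.K1 + 1 / 2)) * (h / m) → Rw p.n E 0 A' + Rw p.n E 1 A' ≤ p.n →
      Ray.HasU.gU m p E Md (Ray.thrc cr m) 3 A' ≤ min η₀ (min ηR (ε / 2)) * h :=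
    fun m hm => hgU m ((le_max_left _ _).trans hm)
  refine ⟨⟨K, c', T, ct, dT, ηR, cr, M, Md, J, max mA 1⟩,
    { K1 := ?_, K648 := ?_, KM := ?_, K15 := ?_
      c'0 := hc'0, c'1 := (min_le_right _ _).trans (min_le_right _ _), c'S := min_le_left _ _
      c'e := (min_le_right _ _).trans (min_le_left _ _)
      T0 := hT0, T1 := hT1, Te := min_le_right _ _
      ct0 := hct, dT0 := hdT, ηR0 := hηR
      cr0 := hcr0, cr1 := hcr1, M1 := hM, Md2 := hMd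
      J0 := ?_, J1 := (le_max_left _ _).trans (le_max_left _ _), J3 := (le_max_right _ _).trans (le_max_left _ _)
      JM := le_max_right _ _
      light := fun k β β' h1 h2 h3 h4 h5 h6 CA hCA => hL k β β' h1 h2 h3 h4 h5 h6 cr CA Md hcr0 hCA
      gU := hgU'
      prU := fun m hm => ?_ }⟩
  · show (1 : ℝ) ≤ K
    rw [hK]
    norm_num
  · show (648 : ℝ) ≤ K
    rw [hK]
    norm_num
  · show H459.cM 100 648 ≤ K
    unfold H459.cM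
    rw [hK]
    norm_num
  · show K ≤ 10 ^ 15
    rw [hK]
    norm_num
  · show 1 ≤ J
    have : (3 + 0) * (Md + 1) ≤ J := le_max_right _ _
    omega
  · obtain ⟨h0, key⟩ := hgU' m hm
    have hm1 : 1 ≤ m := (le_max_right _ _).trans hm
    refine ⟨h0, fun Ω _ c Rm cc Ac rc H eK eM eMd em et hh => ?_⟩
    have h1 := PruC.prU_c H (by rw [et]; exact Ray.thrc_pos cr m) (by rw [et]; exact (Ray.thrc_lt hcr0 hm1).le)
    rw [et, eMd, em] at h1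
    refine h1.trans (key c.I.h hh c.I.pm c.E1 (c.I.pm.A - 1) eM ?_ ((C2.rhy H).Rw_le _))
    have h2 := c.good.n1
    rw [eK, em] at h2
    exact h2

/-! ### the prices -/

/-- `RunOk.le` -/
theorem le_num {T ε c' δ1 K : ℝ} (hT : T ≤ ε ^ 2 * c' * δ1 / (1000 * K ^ 8)) {m h : ℕ} :
    T * ((h : ℝ) / m) ≤ ε ^ 2 * c' * δ1 * h / (1000 * K ^ 8 * m) := by
  have h1 := mul_le_mul_of_nonneg_right hT (by positivity : (0 : ℝ) ≤ (h : ℝ) / m)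
  refine h1.trans (le_of_eq ?_)
  rw [div_mul_div_comm]

/-- prices of the form `C (n + J + 1)`, `n + J + 1 ≤ Cn h / m` -/
theorem pr_num {C Cn κ : ℝ} (hC : 0 ≤ C) (hκ : 0 < κ) : ∃ m0 : ℕ, 1 ≤ m0 ∧ ∀ m h : ℕ, m0 ≤ m → ∀ x : ℝ,
    x ≤ Cn * (h / m) → C * x ≤ κ * h := by
  obtain ⟨m0, h1, h2⟩ := H652.lin_num (C * Cn) hκ
  refine ⟨m0, h1, fun m h hm x hx => ?_⟩
  have h3 := h2 m h hm
  have h4 := mul_le_mul_of_nonneg_left hx hC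
  have h5 : C * (Cn * ((h : ℝ) / m)) = C * Cn * h / m := by ring
  linarith

/-- **`RunOk.lg`** -/
theorem lg_num {ct cr T ε c' δ1 K Cg : ℝ} (hct : 0 < ct) (hcr : 0 < cr) (hT : 0 < T) (hε : 0 < ε) (hc' : 0 < c') (hδ : 0 < δ1)
    (hK : 1 ≤ K) (J : ℕ) : ∃ m0 : ℕ, 1 ≤ m0 ∧ ∀ m h : ℕ, m0 ≤ m → ∀ g' : ℝ, g' ≤ Cg * (h / m) →
      kL ct cr T / m * ((4 * (J : ℝ) + 1) * g') ≤ ε ^ 2 * c' * δ1 * h / (1000 * K ^ 8 * m) := by
  have hk := kL_pos hct hcr hT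
  have hK0 : 0 < K := by linarith
  obtain ⟨m0, h1, h2⟩ := H652.lin_num (kL ct cr T * ((4 * (J : ℝ) + 1) * Cg)) (κ := ε ^ 2 * c' * δ1 / (1000 * K ^ 8))
    (by positivity)
  refine ⟨m0, h1, fun m h hm g' hg => ?_⟩
  have hm0 : (0 : ℝ) < m := by exact_mod_cast h1.trans hm
  have h3 := h2 m h hm
  have h4 : (4 * (J : ℝ) + 1) * g' ≤ (4 * (J : ℝ) + 1) * (Cg * (h / m)) := mul_le_mul_of_nonneg_left hg (by positivity)
  have h5 := mul_le_mul_of_nonneg_left h4 (by positivity : 0 ≤ kL ct cr T / m)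
  refine h5.trans ?_
  have h6 : kL ct cr T / m * ((4 * (J : ℝ) + 1) * (Cg * (h / m))) = kL ct cr T * ((4 * (J : ℝ) + 1) * Cg) * h / m / m := by
    field_simp
  have h7 : ε ^ 2 * c' * δ1 * h / (1000 * K ^ 8 * m) = ε ^ 2 * c' * δ1 / (1000 * K ^ 8) * h / m := by
    field_simp
  rw [h6, h7]
  exact div_le_div_of_nonneg_right h3 hm0.le

end Vale.Agent.P106.U.H523.Cs
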