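import Vale.Agent.P106.U.S5.Exr

/-!
# P106 / U / H523 : the case of small `q` (helper523)

`rr_small` : in normal form, if `q ≤ C2 δ1 h`, the record `RR` of a run with exit by the precision holds at the level `a = 0` and
the precision `0`.
-/

set_option autoImplicit false

namespace Vale.Agent.P106.U.H523

open Vale.Agent.P127 Vale.Agent.P127.Stk Vale.Agent.P127.U Vale.Agent.P106.W Vale.Agent.P106.K Vale.Agent.P106.U
open Vale.Agent.P106.U.H428 Vale.Agent.P106.U.H459 Vale.Agent.P106.U.S5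
open Vale.Agent.P106.U.H513 (dn dnB tau)
open Vale.Agent.P122.C2 (fn)

/-- the label without curvature, of thickness `1` -/
noncomputable def flat0 (W : Cbx) : Cbx := { W with u1 := 1, α := 0 }

/-- the reference box of a ray -/
noncomputable def refB (m : Ry) : Cbx := ⟨0, 1, 1, 0, 0, m.y, m.s, m.z⟩

theorem nv_refB (m : Ry) (k : Fin 2) : |nv (refB m) m k| ≤ 1 := by
  fin_cases k <;> simp [nv, Cbx.nn, refB]

theorem G0_refB (m : Ry) : G0 (refB m) m = 0 := by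
  simp [G0, Cbx.g0, refB, fn]

theorem G1_refB (m : Ry) : G1 (refB m) m = 0 := by
  simp [G1, Cbx.g1, refB, fn]

/-- the label is flat near the ray `m` -/
structure Flt (W : Cbx) (m : Ry) : Prop where
  α : |W.α| ≤ 1 / 1000
  κ : |W.κ| ≤ 1 / 1000
  y : ∀ k, |m.y k - W.p k| ≤ 1 / 1000
  s : ∀ k, |m.s k - W.v k| ≤ 1 / 1000
  z : |m.z + ∑ k, m.y k * (m.s k - W.v k) - W.ω| ≤ 1 / 1000
  g0 : |fn W.θ (m.y - W.p) + W.κ * (m.z + ∑ k, m.y k * (m.s k - W.v k) - W.ω) - W.α * ∑ k, (m.y k - W.p k) ^ 2| ≤ 1 / 1000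
  g1 : |fn W.θ (m.s - W.v) + W.κ * (∑ k, (m.s k - W.v k) ^ 2) / 2 +
    2 * W.α * (m.z + ∑ k, W.p k * (m.s k - W.v k) - W.ω)| ≤ 1 / 1000

theorem Flt.of {L h q : ℕ} {W : Cbx} {l : Ry} {t : ℝ} (hb : LbOk (1 / 1000) L h W l t) (h2 : W.u2 = 1)
    (h1 : W.u1 = (1 / 2 : ℝ) ^ q) : Flt W (bl h l t) := by
  obtain ⟨-, a2, a3, b1, b2, b3, b4, b5⟩ := hb
  rw [h2, mul_one] at a2 a3
  rw [h2] at b1 b2 b3
  rw [h1] at b4 b5
  have hq : (1 / 2 : ℝ) ^ q ≤ 1 := pow_le_one₀ (by norm_num) (by norm_num)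
  have e : (1 / 1000 : ℝ) * max ((1 : ℝ) ^ 2) 0 = 1 / 1000 := by norm_num
  rw [e] at b3
  exact ⟨a2, a3, fun k => (b1 k).trans (by norm_num), fun k => (b2 k).trans (by norm_num), b3, b4.trans (by linarith),
    b5.trans (by linarith)⟩

section geo

variable {W : Cbx} {m : Ry}

theorem nv_diff (H : Flt W m) (k : Fin 2) : |nv W m k - 1 * nv (flat0 W) m k| ≤ 1 := by
  have e : nv W m k - 1 * nv (flat0 W) m k = -(2 * W.α * (m.y k - W.p k)) := by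
    fin_cases k <;> simp [nv, Cbx.nn, flat0]
  rw [e, abs_neg, abs_mul, abs_mul, abs_two]
  have := mul_le_mul H.α (H.y k) (abs_nonneg _) (by norm_num : (0 : ℝ) ≤ 1 / 1000)
  linarith

theorem nv_flat (H : Flt W m) (k : Fin 2) : |nv (flat0 W) m k| ≤ 2 := by
  have h1 := mul_le_mul H.κ (H.s k) (abs_nonneg _) (by norm_num : (0 : ℝ) ≤ 1 / 1000)
  fin_cases k
  · have e : nv (flat0 W) m 0 = -Real.sin W.θ + W.κ * (m.s 0 - W.v 0) := by simp [nv, Cbx.nn, flat0]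
    show |nv (flat0 W) m 0| ≤ 2
    rw [e]
    have h2 := abs_add_le (-Real.sin W.θ) (W.κ * (m.s 0 - W.v 0))
    rw [abs_neg, abs_mul] at h2
    have h3 := Real.abs_sin_le_one W.θ
    have h1' : |W.κ| * |m.s 0 - W.v 0| ≤ 1 / 1000 * (1 / 1000) := h1
    linarith
  · have e : nv (flat0 W) m 1 = Real.cos W.θ + W.κ * (m.s 1 - W.v 1) := by simp [nv, Cbx.nn, flat0]
    show |nv (flat0 W) m 1| ≤ 2
    rw [e]
    have h2 := abs_add_le (Real.cos W.θ) (W.κ * (m.s 1 - W.v 1))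
    rw [abs_mul] at h2
    have h3 := Real.abs_cos_le_one W.θ
    have h1' : |W.κ| * |m.s 1 - W.v 1| ≤ 1 / 1000 * (1 / 1000) := h1
    linarith

theorem sq_sum (H : Flt W m) : |W.α * ∑ k, (m.y k - W.p k) ^ 2| ≤ 1 / 1000 := by
  have hk : ∀ k, (m.y k - W.p k) ^ 2 ≤ 1 / 1000 * (1 / 1000) := fun k => by
    rw [← sq_abs, pow_two]
    exact mul_le_mul (H.y k) (H.y k) (abs_nonneg _) (by norm_num)
  rw [abs_mul, Fin.sum_univ_two]
  have h0 : 0 ≤ (m.y 0 - W.p 0) ^ 2 + (m.y 1 - W.p 1) ^ 2 := by positivity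
  rw [abs_of_nonneg h0]
  have := mul_le_mul H.α (show (m.y 0 - W.p 0) ^ 2 + (m.y 1 - W.p 1) ^ 2 ≤ 1 by linarith [hk 0, hk 1]) h0
    (by norm_num : (0 : ℝ) ≤ 1 / 1000)
  linarith

theorem z_sum (H : Flt W m) : |2 * W.α * (m.z + ∑ k, W.p k * (m.s k - W.v k) - W.ω)| ≤ 1 / 100 := by
  have hk : ∀ k, |(m.y k - W.p k) * (m.s k - W.v k)| ≤ 1 / 1000 * (1 / 1000) := fun k => by
    rw [abs_mul]
    exact mul_le_mul (H.y k) (H.s k) (abs_nonneg _) (by norm_num)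
  have e : m.z + ∑ k, W.p k * (m.s k - W.v k) - W.ω = (m.z + ∑ k, m.y k * (m.s k - W.v k) - W.ω) +
      -((m.y 0 - W.p 0) * (m.s 0 - W.v 0)) + -((m.y 1 - W.p 1) * (m.s 1 - W.v 1)) := by
    simp only [Fin.sum_univ_two]
    ring
  have h1 : |m.z + ∑ k, W.p k * (m.s k - W.v k) - W.ω| ≤ 1 := by
    rw [e]
    have h2 := abs_add_le ((m.z + ∑ k, m.y k * (m.s k - W.v k) - W.ω) + -((m.y 0 - W.p 0) * (m.s 0 - W.v 0)))
      (-((m.y 1 - W.p 1) * (m.s 1 - W.v 1)))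
    have h3 := abs_add_le (m.z + ∑ k, m.y k * (m.s k - W.v k) - W.ω) (-((m.y 0 - W.p 0) * (m.s 0 - W.v 0)))
    rw [abs_neg] at h2 h3
    linarith [hk 0, hk 1, H.z]
  rw [abs_mul, abs_mul, abs_two]
  have := mul_le_mul H.α h1 (abs_nonneg _) (by norm_num : (0 : ℝ) ≤ 1 / 1000)
  linarith

theorem G0_flat (H : Flt W m) : |G0 W m - 1 * G0 (flat0 W) m| ≤ 1 / 1000 ∧ |G0 (flat0 W) m| ≤ 1 / 100 := by
  have e : G0 (flat0 W) m = G0 W m + W.α * ∑ k, (m.y k - W.p k) ^ 2 := by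
    simp only [G0, Cbx.g0, flat0]
    ring
  have h1 := sq_sum H
  have h2 : |G0 W m| ≤ 1 / 1000 := H.g0
  constructor
  · rw [e]
    have e2 : G0 W m - 1 * (G0 W m + W.α * ∑ k, (m.y k - W.p k) ^ 2) = -(W.α * ∑ k, (m.y k - W.p k) ^ 2) := by ring
    rw [e2, abs_neg]
    exact h1
  · rw [e]
    have := abs_add_le (G0 W m) (W.α * ∑ k, (m.y k - W.p k) ^ 2)
    linarith

theorem G1_flat (H : Flt W m) : |G1 W m - 1 * G1 (flat0 W) m| ≤ 1 / 100 ∧ |G1 (flat0 W) m| ≤ 1 / 10 := by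
  have e : G1 (flat0 W) m = G1 W m - 2 * W.α * (m.z + ∑ k, W.p k * (m.s k - W.v k) - W.ω) := by
    simp only [G1, Cbx.g1, flat0]
    ring
  have h1 := z_sum H
  have h2 : |G1 W m| ≤ 1 / 1000 := H.g1
  constructor
  · rw [e]
    have e2 : G1 W m - 1 * (G1 W m - 2 * W.α * (m.z + ∑ k, W.p k * (m.s k - W.v k) - W.ω)) =
        2 * W.α * (m.z + ∑ k, W.p k * (m.s k - W.v k) - W.ω) := by ring
    rw [e2]
    exact h1
  · rw [e]
    have := abs_sub (G1 W m) (2 * W.α * (m.z + ∑ k, W.p k * (m.s k - W.v k) - W.ω))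
    linarith

theorem cl_flat (H : Flt W m) {K : ℝ} (hK : 1 ≤ K) : Cl K 0 0 1 W (flat0 W) m := by
  refine ⟨fun k => ?_, ?_, ?_, ?_, ?_⟩
  · rw [pow_zero, pow_zero, mul_one, mul_one]
    exact (nv_diff H k).trans hK
  · have e : W.κ - 1 * (flat0 W).κ = 0 := by simp [flat0]
    rw [e, abs_zero]
    positivity
  · have e : W.α - 1 * (flat0 W).α = W.α := by simp [flat0]
    rw [e]
    simp only [Nat.mul_zero, pow_zero, mul_one]
    linarith [H.α]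
  · rw [pow_zero, mul_one]
    linarith [(G0_flat H).1]
  · rw [pow_zero, mul_one]
    linarith [(G1_flat H).1]

end geo

/-- the functional in the block of level `0` -/
theorem cl_ref {h : ℕ} {W : Cbx} {l : Ry} {t : ℝ} (H : Flt W (bl h l t)) :
    Cl 3 0 0 1 (Fl 0 h (flat0 W) t) (refB (bl 0 l t)) (bl 0 l t) := by
  have hbl : bl 0 l t = dn h (tau 0 h t) (bl h l t) := bl_zero h l t
  have t0 := H513.tau_nonneg 0 h t
  have t1 := H513.tau_le 0 h t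
  have f0 := (G0_flat H).2
  have f1 := (G1_flat H).2
  refine ⟨fun k => ?_, ?_, ?_, ?_, ?_⟩
  · rw [pow_zero, pow_zero, mul_one, mul_one, one_mul]
    have h1 := nv_refB (bl 0 l t) k
    have h2 : |nv (Fl 0 h (flat0 W) t) (bl 0 l t) k| ≤ 2 := by
      have e : nv (Fl 0 h (flat0 W) t) (bl 0 l t) k = nv (flat0 W) (bl h l t) k := by
        rw [hbl]
        unfold Fl
        rw [nv_dn]
      rw [e]
      exact nv_flat H k
    have := abs_sub (nv (Fl 0 h (flat0 W) t) (bl 0 l t) k) (nv (refB (bl 0 l t)) (bl 0 l t) k)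
    linarith
  · have e : (Fl 0 h (flat0 W) t).κ - 1 * (refB (bl 0 l t)).κ = W.κ := by simp [Fl, dnB, flat0, refB]
    rw [e]
    simp only [Nat.mul_zero, pow_zero, mul_one]
    linarith [H.κ]
  · have e : (Fl 0 h (flat0 W) t).α - 1 * (refB (bl 0 l t)).α = 0 := by simp [Fl, dnB, flat0, refB]
    rw [e, abs_zero]
    positivity
  · rw [G0_refB, mul_zero, sub_zero, pow_zero, mul_one]
    have e : G0 (Fl 0 h (flat0 W) t) (bl 0 l t) = G0 (flat0 W) (bl h l t) / 2 ^ h - tau 0 h t * G1 (flat0 W) (bl h l t) := by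
      rw [hbl]
      unfold Fl
      rw [G0_dn]
    rw [e]
    have h2 : (1 : ℝ) ≤ 2 ^ h := one_le_pow₀ (by norm_num)
    have h3 : |G0 (flat0 W) (bl h l t) / 2 ^ h| ≤ 1 / 100 := by
      rw [abs_div, abs_of_pos (by positivity : (0 : ℝ) < 2 ^ h), div_le_iff₀ (by positivity)]
      linarith
    have h4 : |tau 0 h t * G1 (flat0 W) (bl h l t)| ≤ 1 * (1 / 10) := by
      rw [abs_mul, abs_of_nonneg t0]
      exact mul_le_mul t1 f1 (abs_nonneg _) zero_le_one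
    have := abs_sub (G0 (flat0 W) (bl h l t) / 2 ^ h) (tau 0 h t * G1 (flat0 W) (bl h l t))
    linarith
  · rw [G1_refB, mul_zero, sub_zero, pow_zero, mul_one]
    have e : G1 (Fl 0 h (flat0 W) t) (bl 0 l t) = G1 (flat0 W) (bl h l t) := by
      rw [hbl]
      unfold Fl
      rw [G1_dn]
    rw [e]
    linarith

theorem w0_flat {h : ℕ} {W : Cbx} {l : Ry} {t : ℝ} (hl : RyOk l) (h0 : 0 ≤ t) (h1 : t ≤ 1) (H : Flt W (bl h l t))
    (h2 : W.u2 = 1) {K : ℝ} (hK : 1 ≤ K) : W0 K h 0 (flat0 W) l t := by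
  refine ⟨hl, h0, h1, h2, by simp [flat0], ?_, ?_, fun k => ?_, fun k => ?_, ?_, ?_, ?_⟩
  · show |(0 : ℝ)| ≤ K
    rw [abs_zero]
    linarith
  · exact (H.κ).trans (by linarith)
  · show |(bl h l t).y k - W.p k| ≤ K * W.u2
    rw [h2]
    linarith [H.y k]
  · show |(bl h l t).s k - W.v k| ≤ K * W.u2
    rw [h2]
    linarith [H.s k]
  · show |(bl h l t).z + ∑ k, (bl h l t).y k * ((bl h l t).s k - W.v k) - W.ω| ≤ K * max (W.u2 ^ 2) 0
    rw [h2]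
    have e : max ((1 : ℝ) ^ 2) 0 = 1 := by norm_num
    rw [e]
    linarith [H.z]
  · show |G0 (flat0 W) (bl h l t)| ≤ K * 1
    linarith [(G0_flat H).2]
  · show |G1 (flat0 W) (bl h l t)| ≤ K * 1
    linarith [(G1_flat H).2]

/-- **small `q`** : the record `RR` at the level `0` -/
theorem rr_small (σ : Cst) (hθ : σ.θ ≤ 1) (hC : 0 ≤ σ.C2 * σ.δ1) (ε : ℝ) (hε : 0 < ε) (ρ : Thr) (hK : 1 ≤ ρ.K) :
    ∃ h0 : ℕ, ∀ (g : Gv) (m B : ℕ) (Ω : Type) [Fintype Ω] (P : Law Ω) (l : Ω → Ry) (t : Ω → ℝ) (L h q r0 Rn : ℕ) (W : Ω → Cbx)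
      (S : Cbx), h0 ≤ h → SyOk P l t →
      (∀ ω, 0 < P.w ω → LbOk (1 / 1000) L h (W ω) (l ω) (t ω) ∧ (W ω).u2 = 1 ∧ (W ω).u1 = (1 / 2 : ℝ) ^ q) →
      (q : ℝ) ≤ σ.C2 * σ.δ1 * h → RR σ ε ρ g m B P l t L h q r0 Rn W S := by
  obtain ⟨M, hM⟩ := cf_mem (3 * (1 + 4 * 3 + 5 * 3 ^ 2))
  obtain ⟨h0, hh0⟩ := exists_nat_gt (Real.log M / ε)
  refine ⟨h0, ?_⟩
  intro g m B Ω _ P l t L h q r0 Rn W S hh hsy hb hq
  have hhR : ((h0 : ℕ) : ℝ) ≤ h := by exact_mod_cast hh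
  have hlog : Real.log M ≤ ε * h := by
    have := hh0.le.trans hhR
    rw [div_le_iff₀ hε] at this
    linarith
  have hpos : 0 ≤ σ.C2 * σ.δ1 * h := mul_nonneg hC (Nat.cast_nonneg _)
  have hεh : 0 ≤ ε * h := mul_nonneg hε.le (Nat.cast_nonneg _)
  refine ⟨0, h, q, fun ω => flat0 (W ω), Nat.zero_add h, ?_, le_rfl, hq, ?_, ?_, ?_⟩
  · rw [Nat.cast_zero]
    exact mul_nonneg (by linarith) (Nat.cast_nonneg _)
  · intro ω hω
    obtain ⟨b1, b2, b3⟩ := hb ω hω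
    have H := Flt.of b1 b2 b3
    rw [Nat.sub_self, Nat.zero_add]
    refine ⟨?_, ?_, cl_flat H hK⟩
    · exact w0_flat (hsy ω hω).1 (hsy ω hω).2.1 (hsy ω hω).2.2 H b2 hK
    · have e : (Fa h (flat0 (W ω)) (t ω)).α = 0 := by simp [Fa, dnB, flat0]
      rw [e, abs_zero]
      positivity
  · rw [hc_zero P (X := fun ω => flat0 (W ω)) (fun ω ω' _ _ e => by
      simp only [Prod.mk.injEq] at e
      show flat0 (W ω) = flat0 (W ω')
      rw [e.1])]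
    linarith
  · refine (hc_le_log P _ _ M ?_).trans (by linarith)
    intro ω hω
    obtain ⟨F, hF, hF2⟩ := hM 0 0 le_rfl (refB (bl 0 (l ω) (t ω))) (H428.ctr 0 (pl 0 (bl 0 (l ω) (t ω)))) 1
    refine ⟨F, hF, fun ω' hω' e => ?_⟩
    simp only [Prod.mk.injEq] at e
    obtain ⟨b1, b2, b3⟩ := hb ω' hω'
    have H := cl_ref (Flt.of b1 b2 b3)
    have ebl : bl 0 (l ω') (t ω') = bl 0 (l ω) (t ω) := by
      rw [e.1]
      exact bl_eq e.2.1
    rw [ebl] at H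
    have hn := (nr_ctr 0 (bl 0 (l ω) (t ω))).symm' zero_le_one
    have hn3 : Nr 3 0 (H428.ctr 0 (pl 0 (bl 0 (l ω) (t ω)))) (bl 0 (l ω) (t ω)) := hn.mono (by norm_num)
    have H2 := H.move (by norm_num) (by norm_num) hn3
    have H3 := hF2 _ H2
    show sk 0 h (q - q) (flat0 (W ω')) (l ω') (t ω') ∈ F
    rw [Nat.sub_self]
    unfold sk
    rw [ebl]
    exact H3

end Vale.Agent.P106.U.H523
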