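import Vale.Agent.P106.U.H465.PfD
import Vale.Agent.P106.U.H661.FewX

/-!
# P106 / U / H523 : number of values of the later letter over the run (row [S5], helper523)

* `nFew m B μ` : the number.
* **`few_c2`** : for `c : C2` with `Hyp`, `HX`, steps `k ≤ i ≤ k + B`, `i` at the end of its level (`RC (li i) ≤ L.k (ix i)`):
  the letter `LTh` of the step `i` has at most `nFew` values given the cell (with digits of the slope) of the step `k`.
* `few_c2_a` : for an `a`-step `i`; `lev_of` : the hypothesis `Lev`.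
-/

set_option autoImplicit false

namespace Vale.Agent.P106.U.H523.FewS

open Finset Vale.Agent.P127 Vale.Agent.P127.Stk
open Vale.Agent.P127.U.CellD (q2 rd Nb q2_pos q2_le q2_add rd_err fl1_fl1)
open Vale.Agent.P106.U Vale.Agent.P106.U.H565
open Vale.Agent.P106.U.Cell (Pth Ray Fu near_of_fl)
open Vale.Agent.P106.U.H101 (lc)
open Vale.Agent.P106.U.S3 (LTh LDk)
open Vale.Agent.P106.U.S3.PthW
open Vale.Agent.P106.U.H661.Ext
open Vale.Agent.P106.U.H661.FewX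
open Vale.Agent.P106.U.H823.PathNum
open Vale.Agent.P106.U.H428.Cls (Dt)
open Vale.Agent.P106.U.InpC (gAc)

/-- base of the counts -/
def nM (m B μ : ℕ) : ℕ := 43 * 648 ^ 5 * 2 ^ (2 * (m * B) + 3 * μ)

/-- number of the prefix letters -/
def nA (m B : ℕ) : ℕ := ((2 * (4 * 2 ^ (m * (B + 1)) + 2) + 1) ^ (B + 1)) ^ B

/-- **the number of values** -/
def nFew (m B μ : ℕ) : ℕ := nLTh (nM m B μ) (nA m B) B

theorem nLTh_mono {M NX t t' : ℕ} (h : t ≤ t') : nLTh M NX t ≤ nLTh M NX t' := by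
  unfold nLTh
  gcongr
  exact Nat.one_le_pow _ _ (by omega)

/-- the digits grow by at most one block per step -/
theorem add_le (D : PN) (k t : ℕ) : D.li (k + t) ≤ D.li k + t ∧ D.L.f (D.ix (k + t)) ≤ D.L.f (D.ix k) + t ∧
    D.L.k (D.ix (k + t)) ≤ D.L.k (D.ix k) + t := by
  induction t with
  | zero => exact ⟨le_rfl, le_rfl, le_rfl⟩
  | succ t ih =>
    have h1 : D.li (k + (t + 1)) ≤ D.li (k + t) + 1 ∧ D.L.f (D.ix (k + (t + 1))) ≤ D.L.f (D.ix (k + t)) + 1 ∧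
        D.L.k (D.ix (k + (t + 1))) ≤ D.L.k (D.ix (k + t)) + 1 := by
      rcases Nat.lt_or_ge (k + t) D.N with h | h
      · have e1 : D.ix (k + (t + 1)) = k + t + 1 := D.ix_eq h
        have e2 : D.ix (k + t) = k + t := D.ix_eq h.le
        unfold PN.li
        rw [e1, e2]
        rcases D.L.kd_cases (k + t) with h1 | h1 | h1
        · obtain ⟨_, _, _, h2, h3, h4⟩ := D.L.step_a h1
          rw [h2, h3, h4]
          omega
        · obtain ⟨_, _, h2, h3, h4⟩ := D.L.step_f h1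
          rw [h2, h3, h4]
          omega
        · obtain ⟨_, _, h2, h3, h4⟩ := D.L.step_k h1
          rw [h2, h3, h4]
          omega
      · have e1 : D.ix (k + (t + 1)) = D.ix (k + t) := by unfold PN.ix; omega
        unfold PN.li
        rw [e1]
        omega
    omega

variable {Ω : Type} [Fintype Ω] {c : C2 Ω} {hm : 3 ≤ c.I.m} {Rm : ℕ} {cc : ℝ} {Ac rc : ℕ}

/-- the prefix letter of a later step -/
theorem few_pX (H : c.Hyp Rm cc Ac rc) {k i B : ℕ} (hki : k ≤ i) (hB : i ≤ k + B)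
    (hR : c.RC (c.D.li i) ≤ c.D.L.k (c.D.ix i)) : Few c.Q (c.pX hm i) (c.pX hm k) (nA c.I.m B) := by
  have hs := C2.dsu (c := c) (hm := hm) H.st.in0
  have hadd := add_le c.D k (i - k)
  rw [Nat.add_sub_cancel' hki] at hadd
  have hli : c.D.li k ≤ c.D.li i := c.D.li_mono hki
  have hRm : Monotone c.RC := c.D.nm.Rm
  have hB2 : (c.dt hm).B = ((2 ^ c.I.m : ℕ) : ℝ) := by
    rw [C2.dt_B]
    push_cast
    rfl
  have h := few_A (P := c.Q) (d := c.dt hm) hs hB2 c.RC (a := c.D.li k) (g := B)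
    (M := 4 * 2 ^ (c.I.m * (B + 1)) + 2) (c.D.li i - c.D.li k)
    (by
      rw [Nat.add_sub_cancel' hli]
      exact C2.li_ha H i)
    (fun j hj => by
      show c.RC (c.D.li k + j) + 0 ≤ _
      exact H.gc.le _ (by
        have := C2.li_ha H i
        omega))
    (fun j hj => by
      have h1 : c.RC (c.D.li k + (j + 1)) ≤ c.RC (c.D.li i) := hRm (by omega)
      have h2 : c.D.L.k (c.D.ix k) ≤ c.RC (c.D.li k) := C2.kk_le H k
      have h3 : c.RC (c.D.li k) ≤ c.RC (c.D.li k + j) := hRm (by omega)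
      omega)
    (fun j hj => hRm (by omega))
    (by
      rw [C2.dt_B]
      push_cast
      rw [pow_mul])
  rw [Nat.add_sub_cancel' hli] at h
  refine h.le ?_
  unfold nA
  exact Nat.pow_le_pow_right (Nat.one_le_pow _ _ (by omega)) (by omega)

/-- the slope is a number of the letter -/
theorem gA_fn (HX : c.HX hm) (H : c.Hyp Rm cc Ac rc) (k : ℕ) : Fn c.Q (c.inp.gA k) (c.pX hm k) := by
  intro ω ω' hω hω' e
  have h1 : c.g (c.D.li k) ω = c.g (c.D.li k) ω' := by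
    rw [HX.gx _ (C2.li_ha H k) ω hω, HX.gx _ (C2.li_ha H k) ω' hω']
    have h2 : (c.dt hm).pfR c.RC (c.D.li k) ω = (c.dt hm).pfR c.RC (c.D.li k) ω' := Dt.pfA_R le_rfl e
    rw [h2]
  show - gAc c.I.m c.d0 c.g (c.D.li k) ω = - gAc c.I.m c.d0 c.g (c.D.li k) ω'
  unfold gAc
  rw [h1]

/-- the position is known from the cell -/
theorem Nc_near (H : c.Hyp Rm cc Ac rc) {μ : ℕ} {o : Fin 7 → ℝ} {b k : ℕ} (hb : μ ≤ b) {ω ω' : Ω}
    (hω : 0 < c.Q.w ω) (hω' : 0 < c.Q.w ω') (e : (lc c.inp.pth μ o).dg k b ω = (lc c.inp.pth μ o).dg k b ω') :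
    |c.inp.Nc ω - c.inp.Nc ω'| ≤ 6 * q2 (c.inp.a k) := by
  have hw := C2.hw H
  have q := q2_pos (c.inp.a k)
  have hAh : c.inp.a k ≤ c.I.h := (hw.la_le k).trans hw.A'h
  have h1 : ∀ w, 0 < c.Q.w w → |(c.inp.l w).N (rd (c.inp.a k) (c.t w)) - c.inp.Nc w| ≤ (2 + 1 / 500) * q2 (c.inp.a k) := by
    intro w hw'
    have f := hw.fw w hw'
    have n1 : |(c.inp.l w).N (rd c.I.h (c.t w)) - c.inp.Nc w| ≤ 1 / 500 * q2 c.I.h := f.N
    have w2 : |(c.inp.l w).w| ≤ 2 := f.w2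
    have q1 : q2 c.I.h ≤ q2 (c.inp.a k) := q2_le hAh
    have r1 : |rd (c.inp.a k) (c.t w) - rd c.I.h (c.t w)| ≤ q2 (c.inp.a k) := by
      rw [abs_sub_comm]
      exact Vale.Agent.P127.U.CellD.rd_sub hAh _
    have e1 : (c.inp.l w).N (rd (c.inp.a k) (c.t w)) - c.inp.Nc w =
        ((c.inp.l w).N (rd c.I.h (c.t w)) - c.inp.Nc w) +
          (rd (c.inp.a k) (c.t w) - rd c.I.h (c.t w)) * (c.inp.l w).w := by
      unfold Ray.N
      ring
    rw [e1]
    have t1 := abs_add_le ((c.inp.l w).N (rd c.I.h (c.t w)) - c.inp.Nc w)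
      ((rd (c.inp.a k) (c.t w) - rd c.I.h (c.t w)) * (c.inp.l w).w)
    rw [abs_mul] at t1
    have t2 := mul_le_mul r1 w2 (abs_nonneg _) q.le
    linarith
  have h2 : |(c.inp.l ω).N (rd (c.inp.a k) (c.t ω)) - (c.inp.l ω').N (rd (c.inp.a k) (c.t ω'))| ≤ q2 (c.inp.a k) := by
    have e2 := congrFun (congrArg Prod.snd e) 2
    have e3 : fl1 (c.inp.a k + b - μ) ((c.inp.l ω).N (rd (c.inp.a k) (c.t ω)) + o 2) =
        fl1 (c.inp.a k + b - μ) ((c.inp.l ω').N (rd (c.inp.a k) (c.t ω')) + o 2) := e2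
    have := near_of_fl e3
    rw [add_sub_add_right_eq_sub, abs_sub_comm] at this
    exact this.trans (q2_le (by omega))
  have a1 := h1 ω hω
  have a2 := h1 ω' hω'
  have e4 : c.inp.Nc ω - c.inp.Nc ω' = -((c.inp.l ω).N (rd (c.inp.a k) (c.t ω)) - c.inp.Nc ω) +
      ((c.inp.l ω).N (rd (c.inp.a k) (c.t ω)) - (c.inp.l ω').N (rd (c.inp.a k) (c.t ω'))) +
      ((c.inp.l ω').N (rd (c.inp.a k) (c.t ω')) - c.inp.Nc ω') := by ring
  rw [e4]
  have t1 := abs_add_le (-((c.inp.l ω).N (rd (c.inp.a k) (c.t ω)) - c.inp.Nc ω) +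
      ((c.inp.l ω).N (rd (c.inp.a k) (c.t ω)) - (c.inp.l ω').N (rd (c.inp.a k) (c.t ω'))))
      ((c.inp.l ω').N (rd (c.inp.a k) (c.t ω')) - c.inp.Nc ω')
  have t2 := abs_add_le (-((c.inp.l ω).N (rd (c.inp.a k) (c.t ω)) - c.inp.Nc ω))
      ((c.inp.l ω).N (rd (c.inp.a k) (c.t ω)) - (c.inp.l ω').N (rd (c.inp.a k) (c.t ω')))
  rw [abs_neg] at t2
  linarith

/-- **[S5]** : the later letter given the cell -/
theorem few_c2 (H : c.Hyp Rm cc Ac rc) (HX : c.HX hm) {μ : ℕ} {o : Fin 7 → ℝ} {b k i B : ℕ} (hki : k ≤ i)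
    (hB : i ≤ k + B) (hR : c.RC (c.D.li i) ≤ c.D.L.k (c.D.ix i)) (hμ : μ ≤ c.I.m * c.I.B)
    (hl : (lc (ext c.inp.pth (c.pX hm) (c.pX_nest hm)) μ o).Lev k b) :
    Few c.Q (LTh (lc (ext c.inp.pth (c.pX hm) (c.pX_nest hm)) μ o) b i)
      (LDk (lc (ext c.inp.pth (c.pX hm) (c.pX_nest hm)) μ o) b k) (nFew c.I.m B μ) := by
  have hw := C2.hw H
  have hadd := add_le c.D k (i - k)
  rw [Nat.add_sub_cancel' hki] at hadd
  have hX : Fn c.Q (c.pX hm k) (LDk (lc (ext c.inp.pth (c.pX hm) (c.pX_nest hm)) μ o) b k) := fun ω ω' _ _ e =>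
    congrArg (fun x : ((List (ℤ × ℤ × ℤ × ℤ) × (ℕ → ℤ → Option ℤ)) × Pth.Dg) × ℤ => x.1.1.2) e
  have hDm : c.D.m = c.I.m := hw.Dm
  have h := few_LTh (P := c.Q) (D := c.inp) (K := 6) (h := c.I.num.A') (k := k) (i := i) (g := c.I.m * B)
    (M := nM c.I.m B μ) (X := c.pX hm) (hX := c.pX_nest hm) (μ := μ) (o := o) (b := b) (NX := nA c.I.m B) (K2 := 648)
    (fun ω hω => hw.hy hω) (by norm_num)
    (fun ω hω => H101.lc_Ok o hμ (ext_Ok _ _ _ (hw.ok hω))) hki hl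
    (fun ω ω' hω hω' e => gA_fn HX H k ω ω' hω hω' (hX ω ω' hω hω' e))
    (fun ω ω' hω hω' e => by
      have hd : (lc c.inp.pth μ o).dg k b ω = (lc c.inp.pth μ o).dg k b ω' :=
        congrArg (fun x : ((List (ℤ × ℤ × ℤ × ℤ) × (ℕ → ℤ → Option ℤ)) × Pth.Dg) × ℤ => x.1.2) e
      refine Nc_near H (by have := hl.1; show μ ≤ b; have h8 : 8 * μ ≤ b := this; omega) hω hω' hd)
    ((few_pX H hki hB hR).right hX)
    (by
      show c.D.m * c.D.li i ≤ c.D.m * c.D.li k + c.I.m * B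
      rw [hDm, ← Nat.mul_add]
      exact Nat.mul_le_mul_left _ (by omega))
    (by
      show c.D.r0 + c.D.m * c.D.L.f (c.D.ix i) ≤ c.D.r0 + c.D.m * c.D.L.f (c.D.ix k) + c.I.m * B
      rw [hDm, Nat.add_assoc, ← Nat.mul_add]
      exact Nat.add_le_add_left (Nat.mul_le_mul_left _ (by omega)) _)
    (by
      show c.D.r0 + c.D.m * c.D.L.k (c.D.ix i) ≤ c.D.r0 + c.D.m * c.D.L.k (c.D.ix k) + c.I.m * B
      rw [hDm, Nat.add_assoc, ← Nat.mul_add]
      exact Nat.add_le_add_left (Nat.mul_le_mul_left _ (by omega)) _)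
    (by
      unfold nM
      push_cast
      have h1 : (2 : ℝ) ^ (c.I.m * B) ≤ 2 ^ (2 * (c.I.m * B) + 3 * μ) := pow_le_pow_right₀ (by norm_num) (by omega)
      have h2 : (0 : ℝ) < 2 ^ (c.I.m * B) := by positivity
      nlinarith)
    (by
      unfold nM
      push_cast
      norm_num)
  exact h.le (nLTh_mono (by omega))

/-- at the end of its level -/
theorem RC_of_kd {i : ℕ} (hi : i ≤ c.D.N) (h : c.D.L.kd i = 0) : c.RC (c.D.li i) ≤ c.D.L.k (c.D.ix i) := by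
  rw [c.D.ix_eq hi, c.D.li_eq hi, (c.D.at_a h).2]
  exact le_rfl

/-- the levels of the cell -/
theorem lev_of (H : c.Hyp Rm cc Ac rc) {μ : ℕ} {o : Fin 7 → ℝ} {b k : ℕ} (hb : 8 * μ ≤ b)
    (hr : 8 * μ ≤ c.I.m * (c.I.kb - 2)) : (lc (ext c.inp.pth (c.pX hm) (c.pX_nest hm)) μ o).Lev k b := by
  have h1 : 8 * μ ≤ c.inp.rk k := hr.trans ((C2.hw H).lk_ge k)
  refine ⟨hb, ?_⟩
  show 8 * μ ≤ c.inp.rk k + min b (c.inp.rf k - c.inp.rk k)
  omega

/-- **[S5]** for an `a`-step `i`, at the cap `b`, numbers only -/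
theorem few_c2_a (H : c.Hyp Rm cc Ac rc) (HX : c.HX hm) {μ : ℕ} {o : Fin 7 → ℝ} {b k i B : ℕ} (hki : k ≤ i)
    (hB : i ≤ k + B) (hi : i ≤ c.D.N) (hkd : c.D.L.kd i = 0) (hμ : μ ≤ c.I.m * c.I.B) (hb : 8 * μ ≤ b)
    (hr : 8 * μ ≤ c.I.rs) :
    Few c.Q (LTh (lc (ext c.inp.pth (c.pX hm) (c.pX_nest hm)) μ o) b i)
      (LDk (lc (ext c.inp.pth (c.pX hm) (c.pX_nest hm)) μ o) b k) (nFew c.I.m B μ) :=
  few_c2 H HX hki hB (RC_of_kd hi hkd) hμ (lev_of H hb hr)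

end Vale.Agent.P106.U.H523.FewS
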