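import Vale.Agent.P106.U.H523.NumR
import Vale.Agent.P106.U.H523.SwRec
import Vale.Agent.P106.U.H523.ExitS
import Vale.Agent.P106.U.H449.Start

/-!
# P106 / U / H523 : the front end of `PRun` (helper523)

* `exists_inp` : the numbers `Nums.Inp` with a start precision `r' ≤ r0 - c0`, `r' + 10 C1 δ1 h ≤ q`.
* `St` : all data of the start (`q ≥ 11 C1 δ1 h`): normal form, numbers, word 1's start strip and own slope at EVERY point (449's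
  `Start.start`), 425's `SwA` at two levels.
* `PBig` : `PRun` for such starts.
* `pRun_front` : `PBig → PRun` (small `q`: `RR` at the level `0`).
-/

set_option autoImplicit false

namespace Vale.Agent.P106.U.H523.Front

open Vale.Agent.P127 Vale.Agent.P127.Stk Vale.Agent.P127.U Vale.Agent.P106.W
open Vale.Agent.P106.K (Ry RyOk bl Bin)
open Vale.Agent.P106.U Vale.Agent.P106.U.H61 Vale.Agent.P106.U.H786.Adp Vale.Agent.P106.U.H465.FWn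
open Vale.Agent.P106.U.H523.Nums Vale.Agent.P106.U.H523.SwRec Vale.Agent.P106.U.H449.Start
open Vale.Agent.P106.U.H823 (Few)
open Vale.Agent.P106.U.StripL
open Vale.Agent.P106.U.S5 (Bs Cst Thr Gv RunP)

/-- **the numbers, start precision lowered by `c0`** -/
theorem exists_inp {K1 C1 δ1 : ℝ} (hK1 : 0 ≤ K1) (hC1 : 1 ≤ C1) (hδ : 0 < δ1) (hδ8 : 8 * δ1 ≤ 1 / 4) (hδC : 40 * C1 * δ1 ≤ 1)
    (m B J M N0 c0 : ℕ) (hm : 1 ≤ m) (hM : 1 ≤ M) :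
    ∀ Rm : ℕ, 4 * m + c0 ≤ Rm → ∃ h0 : ℕ, ∀ h q r0 : ℕ, h0 ≤ h → min Rm q ≤ r0 → r0 ≤ q → (q : ℝ) ≤ r0 + K1 * h →
      11 * C1 * δ1 * h ≤ q → ∃ r' : ℕ, (Inp.mk C1 δ1 m B J M h q r').Good (K1 + 1 / 2) N0 ∧ r' + c0 ≤ r0 ∧ Rm ≤ r' + c0 ∧
        Rm ≤ q ∧ ∀ X : ℕ, X + 3 * m + c0 ≤ Rm → X ≤ (Inp.mk C1 δ1 m B J M h q r').rs := by
  intro Rm hRm
  obtain ⟨h0, hh0⟩ := Nums.exists_good (K1 := K1 + 1 / 2) hC1 hδ hδ8 m B J M N0 hm hM
  obtain ⟨h1, hh1⟩ := exists_nat_gt ((Rm + 1) / δ1 : ℝ)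
  refine ⟨max h0 (max h1 (max 4 (2 * c0))), ?_⟩
  intro h q r0 hh hmin hr0q hqK hq11
  have hh4 : (4 : ℝ) ≤ h := by
    exact_mod_cast (((le_max_left _ _).trans (le_max_right _ _)).trans (le_max_right _ _)).trans hh
  have hhc : (2 * c0 : ℝ) ≤ h := by
    exact_mod_cast (((le_max_right _ _).trans (le_max_right _ _)).trans (le_max_right _ _)).trans hh
  have hR : (Rm + 1 : ℝ) ≤ δ1 * h := by
    have g1 : ((h1 : ℕ) : ℝ) ≤ h := by exact_mod_cast ((le_max_left _ _).trans (le_max_right _ _)).trans hh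
    have g2 := hh1.le.trans g1
    rw [div_le_iff₀ hδ] at g2
    linarith
  have hx0 : 0 < δ1 * h := by positivity
  have hxy : δ1 * h ≤ C1 * δ1 * h := by
    have := mul_le_mul_of_nonneg_right hC1 hx0.le
    linarith
  have hy : 40 * C1 * δ1 * h ≤ 1 * h := mul_le_mul_of_nonneg_right hδC (by linarith)
  have hRq : Rm ≤ q := by
    have : (Rm : ℝ) ≤ q := by linarith
    exact_mod_cast this
  have hRr : Rm ≤ r0 := by rwa [min_eq_left hRq] at hmin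
  have f1 : ((⌊(q : ℝ) - 10 * C1 * δ1 * h⌋₊ : ℕ) : ℝ) ≤ q - 10 * C1 * δ1 * h := Nat.floor_le (by linarith)
  have f2 : (q : ℝ) - 10 * C1 * δ1 * h < (⌊(q : ℝ) - 10 * C1 * δ1 * h⌋₊ : ℝ) + 1 := Nat.lt_floor_add_one _
  set fl : ℕ := ⌊(q : ℝ) - 10 * C1 * δ1 * h⌋₊ with hfl
  have hRf : Rm ≤ fl := by
    have : ((Rm : ℕ) : ℝ) ≤ (fl : ℝ) := by linarith
    exact_mod_cast this
  have hc0 : c0 ≤ r0 := by omega
  have e0 : ((r0 - c0 : ℕ) : ℝ) = r0 - c0 := Nat.cast_sub hc0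
  have hle : ((min (r0 - c0) fl : ℕ) : ℝ) ≤ (fl : ℝ) := by exact_mod_cast min_le_right _ _
  refine ⟨min (r0 - c0) fl, hh0 (Rm - c0) h q _ (by omega) ((le_max_left _ _).trans hh) ?_ ?_ ?_ ?_, by omega, by omega, hRq,
    fun X hX => Inp.rs_ge _ hm ?_⟩
  · refine (min_le_left _ _).trans (le_min (by omega) (by omega))
  · omega
  · rcases min_choice (r0 - c0) fl with e | e
    · rw [e, e0]
      linarith
    · rw [e]
      have : 0 ≤ K1 * h := mul_nonneg hK1 (by linarith)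
      linarith
  · linarith
  · show X + 3 * m ≤ min (r0 - c0) fl
    omega

/-- the normal form for a larger defect and a smaller `Rm` -/
theorem nrm_mono {K0 K1 lam N k β d d' : ℝ} {Rm Rm' : ℕ} {Ω : Type} [Fintype Ω] {P : Law Ω} {l : Ω → Ry} {t : Ω → ℝ}
    {L h q r0 : ℕ} {W : Ω → Cbx} {S : Cbx} (hR : Rm' ≤ Rm) (hd : d ≤ d') (H : Nrm K0 K1 Rm lam N k β d P l t L h q r0 W S) :
    Nrm K0 K1 Rm' lam N k β d' P l t L h q r0 W S where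
  nex := by
    refine ⟨H.nex.ok, H.nex.hL, H.nex.lb, le_trans ?_ H.nex.ex⟩
    have f1 : (β - d') * h * Real.log 2 ≤ (β - d) * h * Real.log 2 := by
      have := Real.log_nonneg (show (1 : ℝ) ≤ 2 by norm_num)
      gcongr
    linarith
  str := H.str
  t1 := H.t1
  slb := H.slb
  nu := by
    obtain ⟨ν, ρ, h1, h2, h3⟩ := H.nu
    exact ⟨ν, ρ, h1, h2, fun ω hω k => (h3 ω hω k).trans (pow_le_pow_of_le_one (by norm_num) (by norm_num) hR)⟩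
  rm := (min_le_min_right q hR).trans H.rm
  r0q := H.r0q
  qr0 := H.qr0

/-- `SwA` depends on the support only -/
theorem swA_supp {D C : ℝ} {a h q : ℕ} {Ω : Type} [Fintype Ω] {P : Law Ω} {l l' : Ω → Ry} {t t' : Ω → ℝ} {W W' : Ω → Cbx}
    (hl : ∀ ω, 0 < P.w ω → l ω = l' ω) (ht : ∀ ω, 0 < P.w ω → t ω = t' ω) (hW : ∀ ω, 0 < P.w ω → W ω = W' ω)
    (H : H425.SwA D C a h q P l t W) : H425.SwA D C a h q P l' t' W' := by
  intro r hr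
  obtain ⟨h1, h2⟩ := H r hr
  refine ⟨h1, fun ω ω' hω hω' e1 e2 => ?_⟩
  rw [← hl ω hω, ← hl ω' hω'] at e1
  rw [← ht ω hω, ← ht ω' hω'] at e2
  have := h2 ω ω' hω hω' e1 e2
  rw [← hl ω hω, ← hl ω' hω', ← ht ω hω, ← ht ω' hω', ← hW ω hω, ← hW ω' hω']
  exact this

/-- **data of the start** (`q ≥ 11 C1 δ1 h`), every field holds at EVERY point -/
structure St (σ : Cst) (d1 : ℝ) (g : Gv) (D : ℝ) (m B J M N0 Rm X : ℕ) {Ω : Type} [Fintype Ω] (P : Law Ω) (l : Ω → Ry)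
    (t : Ω → ℝ) (L h q r0 : ℕ) (W : Ω → Cbx) (S : Cbx) (r' : ℕ) (θ sg : ℝ) : Prop where
  nf : Nrm σ.K0 σ.K1 Rm σ.lam σ.N g.k g.β d1 P l t L h q r0 W S
  q11 : 11 * σ.C1 * σ.δ1 * h ≤ q
  /-- the numbers -/
  good : (Inp.mk σ.C1 σ.δ1 m B J M h q r').Good (σ.K1 + 1 / 2) N0
  rle : r' ≤ r0
  rm : Rm ≤ r'
  rmq : Rm ≤ q
  rs : X ≤ (Inp.mk σ.C1 σ.δ1 m B J M h q r').rs
  /-- values in the support -/
  full : ∀ ω, ∃ ω', 0 < P.w ω' ∧ l ω' = l ω ∧ t ω' = t ω ∧ W ω' = W ω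
  /-- start slab and start strip -/
  sl : 8 * σ.K0 * 2 ^ r' ≤ (2 : ℝ) ^ r0
  sg1 : sg = 1 ∨ sg = -1
  ry : ∀ ω, RyOk (l ω)
  t0 : ∀ ω, 0 ≤ t ω
  t1 : ∀ ω, t ω < 1
  fw : ∀ ω, FWok θ h q (Rm - 1) (W ω) (l ω) (t ω)
  w0 : ∀ ω, Vale.Agent.P106.U.H428.W0 (1 / 1000) h q (W ω) (l ω) (t ω)
  slb : ∀ ω, SlbOk σ.K0 r0 S h (W ω) (l ω) (t ω)
  nS : ∀ ω k, |nrm (W ω) (bl h (l ω) (t ω)) k - sg * nrm S (l ω) k| ≤ σ.K0 * (1 / 2 : ℝ) ^ r0
  kS : ∀ ω, |(W ω).κ - sg * (S.κ + 2 * qa h (t ω) * S.α)| ≤ σ.K0 * (1 / 2 : ℝ) ^ r0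
  ins : ∀ R : ℕ, R ≤ r' → ∀ ω, (dS sg S R).In (qa h (t ω)) (FW θ h (W ω) (t ω)).ka
  al : ∀ R : ℕ, |(dS sg S R).al| ≤ 1 / 4
  few : ∀ R : ℕ, R ≤ r' → ∀ Q : Law Ω, (∀ ω, 0 < Q.w ω → 0 < P.w ω) →
    Few Q (fun ω => fl1 R (pW θ h (W ω) (l ω) (t ω))) l 3
  /-- 425's `SwA` at two levels -/
  sw1 : H425.SwA D (H425.C1 σ.lam) (la (8 * σ.δ1) h) h q P l t W
  sw2 : H425.SwA D (H425.C1 σ.lam) (la (Real.sqrt σ.θ) h) h q P l t W

/-- **`PRun` for a start with data** -/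
def PBig (RA RR : RunP) : Prop :=
  ∀ σ : Cst, σ.Ok → ∀ ε : ℝ, 0 < ε → ∃ ρ : Thr, ρ.Ok ∧ ∃ d1 : ℝ, 0 < d1 ∧ ∀ g : Gv, g.Ok σ d1 →
    ∀ D : ℝ, 0 ≤ D → ∃ m0 : ℕ, ∀ m : ℕ, m0 ≤ m → ∃ B0 : ℕ, ∀ B : ℕ, B0 ≤ B → ∃ J M N0 Rm X : ℕ, 1 ≤ M ∧ ∀ h1 : ℕ, ∃ h0 : ℕ,
      ∀ (Ω : Type) [Fintype Ω] (P : Law Ω) (l : Ω → Ry) (t : Ω → ℝ) (L h q r0 : ℕ) (W : Ω → Cbx) (S : Cbx) (r' : ℕ) (θ sg : ℝ),
      h0 ≤ h → St σ d1 g D m B J M N0 Rm X P l t L h q r0 W S r' θ sg →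
      ∃ (Ω' : Type) (_ : Fintype Ω') (Q : Law Ω') (l' : Ω' → Ry) (t' : Ω' → ℝ) (L' h' q' r0' Rn : ℕ) (W' : Ω' → Cbx) (S' : Cbx),
        h1 ≤ h' ∧ NEx 100 σ.lam σ.N g.k g.β ε Q l' t' (fun _ => ()) L' h' q' W' ∧
        (RA σ ε ρ g m B Q l' t' L' h' q' r0' Rn W' S' ∨ RR σ ε ρ g m B Q l' t' L' h' q' r0' Rn W' S')

theorem C1_ge {σ : Cst} (hσ : σ.Ok) : 1 ≤ σ.C1 := by
  have hl := hσ.bs.lam0
  show 1 ≤ 1000 / σ.lam + 1
  have : 0 ≤ 1000 / σ.lam := by positivity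
  linarith

/-- **the front end** -/
theorem pRun_front {RA : RunP} (H : PBig RA S5.RR) : S5.PRun RA S5.RR := by
  intro σ hσ ε hε
  have hδC := hσ.δC
  have hl0 := hσ.bs.lam0
  have hl1 := hσ.bs.lam1
  have hδ := hσ.δ0
  have hθ := hσ.θ0
  have hθ4 := hσ.θ4
  have hδθ := hσ.δθ
  have hC1 := C1_ge hσ
  obtain ⟨ρ, hρ, dB, hdB, H⟩ := H σ hσ ε hε
  set d2 : ℝ := min dB ε with hd2
  have hd20 : 0 < d2 := lt_min hdB hε
  have hs0 : 0 < Real.sqrt σ.θ := Real.sqrt_pos.2 hθ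
  have hs1 : Real.sqrt σ.θ ≤ 1 := by
    rw [← Real.sqrt_one]
    exact Real.sqrt_le_sqrt (by linarith)
  have hη : 0 < min (8 * σ.δ1) (Real.sqrt σ.θ) := lt_min (by linarith) hs0
  obtain ⟨dS', hdS, hSw⟩ := H425.pSw hl0 hl1 hσ.bs.lamβ hσ.bs.N2 hη hd20
  set d1 : ℝ := min dS' d2 with hd1
  have hd10 : 0 < d1 := lt_min hdS hd20
  refine ⟨ρ, hρ, d1, hd10, ?_⟩
  intro g hg
  have h12 : d1 ≤ dB := (min_le_right _ _).trans (min_le_left _ _)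
  have hgB : g.Ok σ dB := ⟨hg.k0, hg.kε.trans h12, hg.β0, hg.βb, hg.bε.trans (by linarith), hg.b3, hg.fix⟩
  obtain ⟨D, hD, hSw⟩ := hSw g.k g.β g.b' hg.k0 (hg.kε.trans (min_le_left _ _)) hg.β0 hg.βb
    (hg.bε.trans (by have : d1 ≤ dS' := min_le_left _ _; linarith))
    (H523.FIXA_mono hl0.le hl1.le (by have := hg.k0; positivity) (by have := hg.k0; linarith) hg.fix)
  obtain ⟨m0, H⟩ := H g hgB D hD
  refine ⟨max m0 1, fun m hm => ?_⟩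
  have hm1 : 1 ≤ m := (le_max_right _ _).trans hm
  obtain ⟨B0, H⟩ := H m ((le_max_left _ _).trans hm)
  refine ⟨B0, fun B hB => ?_⟩
  obtain ⟨J, M, N0, Rm, X, hM, H⟩ := H B hB
  -- the constant `c0`
  obtain ⟨c0, hc0⟩ := pow_unbounded_of_one_lt (16 * σ.K0 + 1) (one_lt_two : (1 : ℝ) < 2)
  set Rm2 : ℕ := max Rm (X + 4 * m) + c0 + 6 with hRm2
  refine ⟨Rm2, fun h1 => ?_⟩
  obtain ⟨n1, H⟩ := H h1
  obtain ⟨n2, hN⟩ := exists_inp (K1 := σ.K1) hσ.bs.K10.le hC1 hδ (by linarith) hδC m B J M N0 c0 hm1 hM Rm2 (by omega)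
  obtain ⟨n3, hRR⟩ := rr_small σ (by linarith) (mul_nonneg (by show 0 ≤ 100 * σ.C1; positivity) hδ.le) ε hε ρ hρ.K1
  obtain ⟨n4, hSw⟩ := hSw σ.K0 σ.K1 Rm2
  refine ⟨max (max n1 n2) (max (max n3 n4) h1), ?_⟩
  intro Ω _ P l t L h q r0 W S hh hNr
  have hh1 : n1 ≤ h := ((le_max_left _ _).trans (le_max_left _ _)).trans hh
  have hh2 : n2 ≤ h := ((le_max_right _ _).trans (le_max_left _ _)).trans hh
  have hh3 : n3 ≤ h := (((le_max_left _ _).trans (le_max_left _ _)).trans (le_max_right _ _)).trans hh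
  have hh4 : n4 ≤ h := (((le_max_right _ _).trans (le_max_left _ _)).trans (le_max_right _ _)).trans hh
  have hh5 : h1 ≤ h := ((le_max_right _ _).trans (le_max_right _ _)).trans hh
  have hhR : (0 : ℝ) ≤ h := Nat.cast_nonneg _
  rcases lt_or_ge (q : ℝ) (11 * σ.C1 * σ.δ1 * h) with hq | hq
  · -- small `q`
    refine ⟨Ω, inferInstance, P, l, t, L, h, q, r0, 0, W, S, hh5, (nrm_mono le_rfl ?_ hNr).nex, Or.inr ?_⟩
    · exact (min_le_right _ _).trans (min_le_right _ _)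
    · refine hRR g m B Ω P l t L h q r0 0 W S hh3 hNr.nex.ok (fun ω hω => ⟨hNr.str ω hω, (hNr.nex.lb ω hω).2⟩) (hq.le.trans ?_)
      show 11 * σ.C1 * σ.δ1 * h ≤ 100 * σ.C1 * σ.δ1 * h
      have : 0 ≤ σ.C1 * σ.δ1 * h := by positivity
      linarith
  · -- large `q`
    have hC1' : (la (8 * σ.δ1) h : ℕ) ≤ h := la_h (by linarith) (by linarith) h
    have hC2' : (la (Real.sqrt σ.θ) h : ℕ) ≤ h := la_h (by linarith) (by linarith) h
    obtain ⟨P', hP', hN', sA, sB⟩ := hSw Ω P l t L h q r0 W S hh4 (nrm_mono le_rfl (min_le_left _ _) hNr)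
      (la (8 * σ.δ1) h) (la (Real.sqrt σ.θ) h) hC1' hC2'
      ((mul_le_mul_of_nonneg_right (min_le_left _ _) hhR).trans (la_gap (by linarith) h))
      ((mul_le_mul_of_nonneg_right (min_le_right _ _) hhR).trans (la_gap (by linarith) h))
    obtain ⟨r', a1, a2, a3, a4, a5⟩ := hN h q r0 hh2 hN'.rm hN'.r0q hN'.qr0 hq
    have hK0 := hσ.bs.K00
    have h2r : (2 : ℝ) ^ r' * 2 ^ c0 ≤ 2 ^ r0 := by
      rw [← pow_add]
      exact pow_le_pow_right₀ (by norm_num) a2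
    have h2p : (1 : ℝ) ≤ 2 ^ r' := one_le_pow₀ (by norm_num)
    have hsl : 8 * σ.K0 * 2 ^ r' ≤ (2 : ℝ) ^ r0 := by
      refine le_trans ?_ h2r
      rw [mul_comm]
      exact mul_le_mul_of_nonneg_left (by linarith) (by linarith)
    have hK16 : σ.K0 * (1 / 2 : ℝ) ^ r0 ≤ 1 / 16 := by
      have h3 : 16 * σ.K0 ≤ (2 : ℝ) ^ r0 := by
        refine le_trans ?_ h2r
        have := mul_le_mul h2p hc0.le (by linarith) (by linarith)
        linarith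
      rw [one_div, inv_pow, ← div_eq_mul_inv, div_le_iff₀ (by positivity)]
      linarith
    obtain ⟨r, θ, sg, b1, b2, b3, b4, b5, b6, b7, b8⟩ := Vale.Agent.P106.U.H449.Start.start hN' (by omega) a4 hK0 hK16
    have hmon : ∀ R : ℕ, R ≤ r' → 8 * σ.K0 * 2 ^ R ≤ (2 : ℝ) ^ r0 := fun R hR =>
      (mul_le_mul_of_nonneg_left (pow_le_pow_right₀ (by norm_num) hR) (by linarith)).trans hsl
    have hsl' : ∀ ω, 0 < P'.w ω → l ω = l (r ω) := fun ω hω => by rw [b2 ω hω]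
    have hst' : ∀ ω, 0 < P'.w ω → t ω = t (r ω) := fun ω hω => by rw [b2 ω hω]
    have hsW' : ∀ ω, 0 < P'.w ω → W ω = W (r ω) := fun ω hω => by rw [b2 ω hω]
    refine H Ω P' (fun ω => l (r ω)) (fun ω => t (r ω)) L h q r0 (fun ω => W (r ω)) S r' θ sg hh1 ?_
    have hRmle : Rm ≤ Rm2 := by omega
    refine
      { nf := nrm_mono hRmle (min_le_left _ _) b4
        q11 := hq
        good := a1
        rle := by omega
        rm := by omega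
        rmq := by omega
        rs := a5 X (by omega)
        full := fun ω => ⟨r ω, b1 ω, by simp only [b2 _ (b1 ω)], by simp only [b2 _ (b1 ω)], by simp only [b2 _ (b1 ω)]⟩
        sl := hsl
        sg1 := b3
        ry := fun ω => (b5 ω).1
        t0 := fun ω => (b5 ω).2.1
        t1 := fun ω => (b5 ω).2.2.1
        fw := fun ω => ?_
        w0 := fun ω => (b5 ω).2.2.2.2.1
        slb := fun ω => (b5 ω).2.2.2.2.2.1
        nS := fun ω => (b5 ω).2.2.2.2.2.2.1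
        kS := fun ω => (b5 ω).2.2.2.2.2.2.2
        ins := fun R hR ω => b6 R ?_ ω
        al := b7
        few := fun R hR Q hQ => b8 R Q (hmon R hR) hQ
        sw1 := swA_supp hsl' hst' hsW' sA
        sw2 := swA_supp hsl' hst' hsW' sB }
    · obtain ⟨c1, c2, c3, c4, c5, c6, c7, c8, c9, c10, c11, c12⟩ := (b5 ω).2.2.2.1
      refine ⟨c1, c2, c3, c4, c5, c6, c7, c8.trans ?_, c9, c10, c11, c12⟩
      exact mul_le_mul_of_nonneg_left (CellD.q2_le (by omega)) (by norm_num)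
    · have h3 := hmon R hR
      have h4 : 0 ≤ σ.K0 * 2 ^ R := by positivity
      linarith

end Vale.Agent.P106.U.H523.Front
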