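import Vale.Agent.P106.U.H565.RunF

/-!
# P106 / U / H523 : lower bound of the number of steps of a run (helper523)

* `run_n` : at the stop `A ≤ m n` or `QK ≤ r0 + m n`.
* `n_ge` : `5 C1 δ1 h ≤ m n` for the concrete run;  `n_ge'` : `5 C1 δ1 (h / m) ≤ n`.
-/

set_option autoImplicit false

namespace Vale.Agent.P106.U.H523.NLow

open Finset Vale.Agent.P127 Vale.Agent.P127.Stk Vale.Agent.P106.U Vale.Agent.P106.U.H565

/-- every step advances one of the three numbers by one block -/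
theorem run_n {Ω : Type} [Fintype Ω] {τ υ : Type} {R : S3.Run Ω τ υ} {p : S3.Run.Num} (h : R.Path p) :
    p.A ≤ R.m * R.n ∨ p.QK ≤ R.r0 + R.m * R.n := by
  have key : ∀ i ≤ R.n + p.J, R.C.a i ≤ R.m * i ∧ R.C.rk i ≤ R.r0 + R.m * i := by
    intro i
    induction i with
    | zero =>
      intro _
      rw [h.a0, h.k0]
      exact ⟨Nat.zero_le _, Nat.le_add_right _ _⟩
    | succ i ih =>
      intro hi
      obtain ⟨h1, h2⟩ := ih (by omega)
      have e : R.m * (i + 1) = R.m * i + R.m := by ring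
      rcases h.stp i (by omega) with ⟨s1, s2, s3⟩ | ⟨s1, s2, s3⟩ | ⟨s1, s2, s3⟩
      · exact ⟨by omega, by omega⟩
      · exact ⟨by omega, by omega⟩
      · exact ⟨by omega, by omega⟩
  obtain ⟨h1, h2⟩ := key R.n (by omega)
  rcases h.fin with h3 | h3
  · exact Or.inl (by omega)
  · exact Or.inr (by omega)

variable {Ω : Type} [Fintype Ω] {c : C2 Ω} {Rm : ℕ} {cc : ℝ} {Ac rc : ℕ}

/-- **the number of steps** -/
theorem n_ge (H : c.Hyp Rm cc Ac rc) (hC : 0 ≤ c.I.C1) (hδ : 0 ≤ c.I.δ1) (hδC : 40 * c.I.C1 * c.I.δ1 ≤ 1)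
    (hδ1 : 8 * c.I.δ1 ≤ 1 / 4) : 5 * c.I.C1 * c.I.δ1 * c.I.h ≤ (c.I.m : ℝ) * c.run.n := by
  have hh : (0 : ℝ) ≤ c.I.h := Nat.cast_nonneg _
  rcases run_n (C2.path H) with h1 | h1
  · have h2 : c.I.num.A ≤ c.I.m * c.run.n := h1
    have h3 : (c.I.num.A : ℝ) ≤ (c.I.m : ℝ) * c.run.n := by exact_mod_cast h2
    have h4 := c.good.A2
    have h5 : 5 * c.I.C1 * c.I.δ1 * c.I.h ≤ 1 / 8 * c.I.h := mul_le_mul_of_nonneg_right (by linarith) hh
    have h6 : 5 * c.I.δ1 * c.I.h ≤ 5 / 32 * c.I.h := mul_le_mul_of_nonneg_right (by linarith) hh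
    linarith
  · have h2 : c.I.num.QK ≤ c.I.rs + c.I.m * c.run.n := h1
    have h3 : (c.I.num.QK : ℝ) ≤ c.I.rs + (c.I.m : ℝ) * c.run.n := by exact_mod_cast h2
    have h4 := c.good.QK2
    have h5 := c.good.r10
    linarith

theorem n_ge' (H : c.Hyp Rm cc Ac rc) (hC : 0 ≤ c.I.C1) (hδ : 0 ≤ c.I.δ1) (hδC : 40 * c.I.C1 * c.I.δ1 ≤ 1)
    (hδ1 : 8 * c.I.δ1 ≤ 1 / 4) : 5 * c.I.C1 * c.I.δ1 * (c.I.h / c.I.m) ≤ (c.run.n : ℝ) := by
  have h1 := n_ge H hC hδ hδC hδ1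
  have hm : (0 : ℝ) < c.I.m := by
    have : 0 < c.I.m := c.good.m1
    exact_mod_cast this
  rw [← mul_div_assoc, div_le_iff₀ hm]
  linarith

end Vale.Agent.P106.U.H523.NLow
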