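import Vale.Agent.P106.U.H523.TailSum
import Vale.Agent.P106.U.H864.AxMono
import Vale.Agent.P106.U.H404.ActX

/-!
# P106 / U / H523 : the end of the path

`pTail_of : PEnd7 → PTail`.
-/

set_option autoImplicit false
set_option linter.unusedSectionVars false

namespace Vale.Agent.P106.U.H523

open Finset Vale.Agent.P127 Vale.Agent.P127.Stk Vale.Agent.P127.U Vale.Agent.P106.W Vale.Agent.P106.K Vale.Agent.P106.U
open Vale.Agent.P106.U.End7 Vale.Agent.P127.U.CellD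
open Vale.Agent.P106.U.H416 (wR wt wo wh wC trB trR cM cM_le)
open Vale.Agent.P106.U.H864 (dfX parX)

section sys

variable {Ω : Type} [Fintype Ω] {γ : Type} {p a : ℕ} {l : Ω → Ry} {t : Ω → ℝ} {C : Ω → γ} {S W : Ω → Cbx}
  {P : Law Ω} {c : ℝ} {L q c1 w h2 L2 : ℕ}

/-- the value of a label `(h; 0; q)` -/
theorem val_W {lam : ℝ} {h : ℕ} (hW : ∀ ω, 0 < P.w ω → (W ω).u2 = 1 ∧ (W ω).u1 = (1 / 2 : ℝ) ^ q) :
    val lam P l t C h W = Stk.hc P l (fun ω => (W ω, fl1 h (t ω), C ω)) + (3 * h + (1 - lam) * q) * Real.log 2 := by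
  have e : P.ex (fun ω => (3 + lam) * Real.log (W ω).u2 + (1 - lam) * Real.log (W ω).u1) =
      P.ex (fun _ => -((1 - lam) * q * Real.log 2)) := by
    refine P.ex_congr fun ω hω => ?_
    rw [(hW ω hω).1, (hW ω hω).2, H416.log_half, Real.log_one]
    ring
  unfold val
  rw [e, P.ex_const]
  ring

/-- the constant of `df_sum` -/
noncomputable def kS (c K0 k : ℝ) (p c1 : ℕ) : ℝ :=
  (3 * Real.log (2 * cM c + 3) + kC p + kD) + 3 * Real.log (2 * cD c K0 p + 3) + k * (c1 + 2 * p) * Real.log 2 +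
    (3 * p + c1) * Real.log 2

/-- **the average of the defect** -/
theorem df_sum {lam k N β K0 : ℝ} (hl : 0 ≤ lam ∧ lam ≤ 1) (hk : 0 ≤ k) (hN : 0 ≤ N) (hc : 0 ≤ c) (hK0 : 0 ≤ K0)
    (hpw : p ≤ w) (hL : a + p ≤ L) (hsy : SyOk P l t)
    (hW : ∀ ω, 0 < P.w ω → LbOk c L (a + w) (W ω) (l ω) (t ω) ∧ (W ω).u2 = 1 ∧ (W ω).u1 = (1 / 2 : ℝ) ^ q)
    {B0 : ((γ × ℤ × (Fin 2 → ℤ) × ℤ) × Ry) × Cbx × (Fin 2 → ℤ) × (Fin 2 → ℤ) × ℤ → Cbx}
    (hB : ∀ z, (∃ ω, 0 < P.w ω ∧ k3 p a l t C S ω = z) → Good P p a q c1 l t C S z (B0 z))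
    (hg : ∀ ω ω', 0 < P.w ω → 0 < P.w ω' → W ω = W ω' → fl1 (a + w) (t ω) = fl1 (a + w) (t ω') → C ω = C ω' → S ω = S ω' →
      |gS (S ω) (l ω) (t ω) a (a + w) - gS (S ω) (l ω') (t ω') a (a + w)| ≤ K0 * (1 / 2 : ℝ) ^ (w + q)) :
    ∑ z ∈ img (k3 p a l t C S), P.pr (k3 p a l t C S) z *
      dfX c lam k N β (ev p a l t (q - c1) (w - p) (L - a - p) (B0 z)) (P.cond (k3 p a l t C S) z) ≤
      XX c lam k 0 P l t C (fun _ => (0, q)) L a - val lam P l t C (a + w) W + β * (w - p : ℕ) * Real.log 2 +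
        N * (Dd P l t C (a + w) - Dd P l t C a) + N * Stk.hc P S (fun ω => (l ω, fl1 a (t ω), C ω)) +
        Stk.hc P S (fun ω => (W ω, fl1 (a + w) (t ω), C ω)) + kS c K0 k p c1 := by
  have hl2 : 0 < Real.log 2 := Real.log_pos (by norm_num)
  have h1 := hc_sum (L2 := L - a - p) (q := q) (c1 := c1) hc hK0 (Nat.sub_le w p) hsy
    (fun ω hω => ⟨(hW ω hω).1, (hW ω hω).2.1⟩) hB hg
  have h2 := XX_sum (P := P) (l := l) (t := t) (C := C) (S := S) (q := q) (c1 := c1) hl hk hc hL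
  have h3 := Dd_sum (P := P) (l := l) (t := t) (C := C) (S := S) (p := p) (a := a) (Nat.sub_le w p)
  have h4 := val_W (P := P) (l := l) (t := t) (C := C) (lam := lam) (h := a + w) (q := q) (W := W)
    fun ω hω => (hW ω hω).2
  set K3 := k3 p a l t C S with hK3
  have e : ∀ z, P.pr K3 z * dfX c lam k N β (ev p a l t (q - c1) (w - p) (L - a - p) (B0 z)) (P.cond K3 z) =
      P.pr K3 z * XX c lam k 0 (P.cond K3 z) (r2 p a l t) (fun ω => wt a (t ω)) (fun _ => ()) (fun _ => (0, q - c1))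
        (L - a - p) 0 + P.pr K3 z * (β * (w - p : ℕ) * Real.log 2 - (3 * (w - p : ℕ) + (1 - lam) * (q - c1 : ℕ)) * Real.log 2) +
      N * (P.pr K3 z * Dd (P.cond K3 z) (r2 p a l t) (fun ω => wt a (t ω)) (fun _ => ()) (w - p)) -
      P.pr K3 z * Stk.hc (P.cond K3 z) (r2 p a l t) ((ev p a l t (q - c1) (w - p) (L - a - p) (B0 z)).Zh (w - p)) := by
    intro z
    unfold dfX Env.vh
    show P.pr K3 z * (XX c lam k 0 (P.cond K3 z) (r2 p a l t) (fun ω => wt a (t ω)) (fun _ => ()) (fun _ => (0, q - c1))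
        (L - a - p) 0 + β * (w - p : ℕ) * Real.log 2 +
        N * Dd (P.cond K3 z) (r2 p a l t) (fun ω => wt a (t ω)) (fun _ => ()) (w - p) -
        (Stk.hc (P.cond K3 z) (r2 p a l t) ((ev p a l t (q - c1) (w - p) (L - a - p) (B0 z)).Zh (w - p)) +
          (3 * (w - p : ℕ) + (1 - lam) * (q - c1 : ℕ)) * Real.log 2)) = _
    ring
  simp only [e]
  rw [Finset.sum_sub_distrib, Finset.sum_add_distrib, Finset.sum_add_distrib, ← Finset.sum_mul, sum_pr, one_mul,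
    ← Finset.mul_sum]
  have g1 := mul_le_mul_of_nonneg_left h3 hN
  have g2 : ((w - p : ℕ) : ℝ) = w - p := Nat.cast_sub hpw
  have g3 : (q : ℝ) ≤ (q - c1 : ℕ) + (c1 : ℝ) := by exact_mod_cast (by omega : q ≤ (q - c1) + c1)
  have g4 : (1 - lam) * q ≤ (1 - lam) * (q - c1 : ℕ) + c1 := by
    have := mul_le_mul_of_nonneg_left g3 (by linarith [hl.2] : 0 ≤ 1 - lam)
    have h5 : 0 ≤ lam * c1 := mul_nonneg hl.1 (Nat.cast_nonneg c1)
    nlinarith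
  have g5 := mul_le_mul_of_nonneg_right g4 hl2.le
  rw [h4]
  unfold kS
  push_cast at h2 ⊢
  rw [g2]
  nlinarith

end sys

theorem exists_le_avg {V : Type*} {Ω : Type} [Fintype Ω] (P : Law Ω) (Z : Ω → V) (f : V → ℝ) {v : ℝ}
    (h : ∑ z ∈ img Z, P.pr Z z * f z ≤ v) : ∃ z, 0 < P.pr Z z ∧ f z ≤ v := by
  by_contra hcon
  push Not at hcon
  have h1 : ∑ z ∈ img Z, P.pr Z z * (f z - v) ≤ 0 := by
    have e : ∀ z, P.pr Z z * (f z - v) = P.pr Z z * f z - P.pr Z z * v := fun z => by ring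
    simp only [e]
    rw [Finset.sum_sub_distrib, ← Finset.sum_mul, sum_pr]
    linarith
  have h2 : ∀ z ∈ img Z, 0 ≤ P.pr Z z * (f z - v) := by
    intro z _
    rcases (P.pr_nonneg Z z).eq_or_lt with h0 | h0
    · rw [← h0, zero_mul]
    · exact mul_nonneg h0.le (by linarith [hcon z h0])
  have h3 : ∀ z ∈ img Z, P.pr Z z * (f z - v) = 0 := (Finset.sum_eq_zero_iff_of_nonneg h2).1
    (le_antisymm h1 (Finset.sum_nonneg h2))
  have h4 : ∀ z ∈ img Z, P.pr Z z = 0 := by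
    intro z hz
    rcases (P.pr_nonneg Z z).eq_or_lt with h0 | h0
    · exact h0.symm
    · have := h3 z hz
      have h5 : 0 < P.pr Z z * (f z - v) := mul_pos h0 (by linarith [hcon z h0])
      linarith
  have h5 := sum_pr P Z
  rw [Finset.sum_eq_zero h4] at h5
  norm_num at h5

theorem arith1 {X2 XN X0N X0k X0 V β b' η a w p D0 Da Dh N S1 S2 K1 K2 K3 KS g : ℝ} (hg0 : 0 < g) (hg1 : g ≤ 1)
    (ha : 0 ≤ a) (hw : 0 ≤ w) (hp : 0 ≤ p) (hN : 0 ≤ N) (hη : 0 ≤ η) (hβ : 0 ≤ β) (hb : b' ≤ β + η) (h1 : X2 ≤ XN)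
    (h2 : XN ≤ X0N + (b' + η) * a * g + N * (Da - D0) + K1) (h3 : X0N ≤ X0k + K2) (h4 : X0k ≤ X0 + K3)
    (h5 : X0 + (β - η) * (a + w) * g + N * Dh ≤ V) (h6 : -g ≤ D0) (h7 : S1 ≤ η * (a + w)) (h8 : S2 ≤ η * (a + w)) :
    X2 - V + β * (w - p) * g + N * (Dh - Da) + N * S1 + S2 + KS ≤ (N + 4) * η * (a + w) + (K1 + K2 + K3 + N * g + KS) := by
  have f1 : N * S1 ≤ N * (η * (a + w)) := mul_le_mul_of_nonneg_left h7 hN
  have f2 : N * (-g) ≤ N * D0 := mul_le_mul_of_nonneg_left h6 hN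
  have f3 : 0 ≤ β * p * g := by positivity
  have f4 : b' * a * g ≤ (β + η) * a * g := mul_le_mul_of_nonneg_right (mul_le_mul_of_nonneg_right hb ha) hg0.le
  have f5 : η * a * g ≤ η * a := by
    have := mul_le_mul_of_nonneg_left hg1 (mul_nonneg hη ha)
    linarith
  have f6 : η * w * g ≤ η * w := by
    have := mul_le_mul_of_nonneg_left hg1 (mul_nonneg hη hw)
    linarith
  have f7 : 0 ≤ η * w := mul_nonneg hη hw
  nlinarith

theorem arith2 {N η ηs θ a w p h0s Ka KT : ℝ} (hηs : 0 < ηs) (hK : 0 ≤ Ka) (ha : 0 ≤ a) (_hw : 0 ≤ w) (hs : 0 ≤ h0s)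
    (hη : (N + 4) * η ≤ ηs * θ / 2) (h1 : 2 * p + h0s + 2 * Ka / ηs + 2 * |KT| / ηs + 1 ≤ θ * (a + w))
    (h2 : θ * (a + w) ≤ w) (hp : 0 ≤ p) :
    (N + 4) * η * (a + w) + KT ≤ ηs * (w - p) ∧ h0s ≤ w - p ∧ Ka ≤ ηs / 2 * (w - p) ∧ p ≤ w := by
  have hs1 : 0 ≤ 2 * Ka / ηs := by positivity
  have hs2 : 0 ≤ 2 * |KT| / ηs := by positivity
  have f6 : (N + 4) * η * (a + w) ≤ ηs * θ / 2 * (a + w) := mul_le_mul_of_nonneg_right hη (by linarith)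
  have f7 : KT + ηs * p ≤ ηs * (θ * (a + w)) / 2 := by
    have g1 : p + |KT| / ηs ≤ θ * (a + w) / 2 := by
      have : 2 * |KT| / ηs = 2 * (|KT| / ηs) := by ring
      linarith
    have g2 := mul_le_mul_of_nonneg_left g1 hηs.le
    have g3 : ηs * (p + |KT| / ηs) = ηs * p + |KT| := by field_simp
    have g4 := le_abs_self KT
    linarith
  have f8 : ηs * (θ * (a + w)) ≤ ηs * w := mul_le_mul_of_nonneg_left h2 hηs.le
  refine ⟨by linarith, by linarith, ?_, by linarith⟩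
  have g6 : 2 * Ka / ηs ≤ w - p := by linarith
  rw [div_le_iff₀ hηs] at g6
  linarith

/-- the choice of the constants -/
theorem exists_par {lam N β0 θ : ℝ} (h7 : PEnd7) (hl0 : 0 < lam) (hlβ : lam < β0) (hβ2 : β0 ≤ 2)
    (hN : 2 ≤ N) (hθ : 0 < θ) : ∃ (ks ct ηs η : ℝ), 0 < ks ∧ 0 < ct ∧ N * ct = β0 / 4 ∧ 0 < ηs ∧ 0 < η ∧ η ≤ ks / 2 ∧
      η ≤ β0 / 32 ∧ η ≤ ηs / 4 ∧ (N + 4) * η ≤ ηs * θ / 2 ∧
      ∀ Ka : ℝ, 0 ≤ Ka → ∃ h0 : ℕ, ∀ {Ω : Type} [Fintype Ω] (E : Env Ω) (P : Law Ω) (df : Law Ω → ℝ) (ν : ℝ), E.Supp P →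
        E.Ax ⟨lam, β0, ks, 100, 1 + N, ct, β0 / 4 * Real.log 2, Ka⟩ P df ν → h0 ≤ E.h → df P ≤ ηs * E.h → ν ≤ ηs * E.h →
        False := by
  have hlog : 0 < Real.log 2 := Real.log_pos (by norm_num)
  have hβ0 : 0 < β0 := by linarith
  have hN0 : 0 < N := by linarith
  set ks : ℝ := min lam (β0 - lam) / 100 with hks
  have hks0 : 0 < ks := by
    rw [hks]
    exact div_pos (lt_min hl0 (by linarith)) (by norm_num)
  have hks1 : 100 * ks ≤ lam := by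
    rw [hks]
    have := min_le_left lam (β0 - lam)
    linarith
  have hks2 : 100 * ks ≤ β0 - lam := by
    rw [hks]
    have := min_le_right lam (β0 - lam)
    linarith
  set ct : ℝ := β0 / (4 * N) with hct
  have hct0 : 0 < ct := by positivity
  have hNct : N * ct = β0 / 4 := by
    rw [hct]
    field_simp
  have hok : Par.Ok ⟨lam, β0, ks, 100, 1 + N, ct, β0 / 4 * Real.log 2, 0⟩ :=
    ⟨hl0, hlβ, hβ2, hks0.le, hks1, hks2, le_rfl, by show 0 ≤ 1 + N; linarith, hct0,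
      by show 0 < β0 / 4 * Real.log 2; positivity, le_rfl⟩
  obtain ⟨ηs, hηs, H⟩ := h7 _ hok
  refine ⟨ks, ct, ηs, min (min (ks / 2) (β0 / 32)) (min (ηs / 4) (ηs * θ / (2 * (N + 4)))), hks0, hct0, hNct, hηs, ?_,
    (min_le_left _ _).trans (min_le_left _ _), (min_le_left _ _).trans (min_le_right _ _),
    (min_le_right _ _).trans (min_le_left _ _), ?_, H⟩
  · refine lt_min (lt_min ?_ ?_) (lt_min ?_ ?_) <;> positivity
  · have h1 : min (min (ks / 2) (β0 / 32)) (min (ηs / 4) (ηs * θ / (2 * (N + 4)))) ≤ ηs * θ / (2 * (N + 4)) :=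
      (min_le_right _ _).trans (min_le_right _ _)
    have h2 := mul_le_mul_of_nonneg_left h1 (by linarith : 0 ≤ N + 4)
    have h3 : (N + 4) * (ηs * θ / (2 * (N + 4))) = ηs * θ / 2 := by
      have : N + 4 ≠ 0 := by linarith
      field_simp
    linarith

/-- the state of a value of the letter contradicts END7 -/
theorem one_state {Ω γ : Type} [Fintype Ω] {p a : ℕ} {l : Ω → Ry} {t : Ω → ℝ} {C : Ω → γ} {S : Ω → Cbx} {P : Law Ω}
    {L q c1 w : ℕ} {lam N β0 ks ct ηs η k β b' c Ka : ℝ} {h0s : ℕ}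
    (Hs : ∀ {Ω : Type} [Fintype Ω] (E : Env Ω) (P : Law Ω) (df : Law Ω → ℝ) (ν : ℝ), E.Supp P →
        E.Ax ⟨lam, β0, ks, 100, 1 + N, ct, β0 / 4 * Real.log 2, Ka⟩ P df ν → h0s ≤ E.h → df P ≤ ηs * E.h → ν ≤ ηs * E.h →
        False)
    (hAx : ∀ (Ω : Type) [Fintype Ω] (E : Env Ω) (P0 : Law Ω), E.Supp P0 →
      E.Ax (parX lam β (2 * k) c N b' ct Ka) P0 (dfX c lam (2 * k) N β E) ((b' - β + η) * E.h * Real.log 2 + Ka))
    (hβ0 : 0 < β0) (hβ : β0 ≤ β) (hk : 2 * k ≤ ks) (hc : 100 ≤ c) (hKa : 0 ≤ Ka)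
    (hgain : β0 / 4 ≤ b' + N - 2 - 4 * (2 * k) - N * ct) (hη : 0 ≤ η) (_hηs : 0 < ηs) (hη3 : η ≤ ηs / 4) (hb' : b' ≤ β + η)
    (hpw : p ≤ w) (hL : a + w + q ≤ L) (hw1 : (h0s : ℝ) ≤ (w : ℝ) - p) (hw2 : Ka ≤ ηs / 2 * ((w : ℝ) - p))
    {z : ((γ × ℤ × (Fin 2 → ℤ) × ℤ) × Ry) × Cbx × (Fin 2 → ℤ) × (Fin 2 → ℤ) × ℤ} {B : Cbx}
    (hG : Good P p a q c1 l t C S z B) (hz : 0 < P.pr (k3 p a l t C S) z)
    (hdf : dfX c lam (2 * k) N β (ev p a l t (q - c1) (w - p) (L - a - p) B) (P.cond (k3 p a l t C S) z) ≤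
      ηs * ((w : ℝ) - p)) : False := by
  have hlog : 0 < Real.log 2 := Real.log_pos (by norm_num)
  have hlog1 : Real.log 2 ≤ 1 := by
    have := Real.log_two_lt_d9
    linarith
  have hwp : ((w - p : ℕ) : ℝ) = w - p := Nat.cast_sub hpw
  have hcond : ∀ ω, 0 < (P.cond (k3 p a l t C S) z).w ω → 0 < P.w ω ∧ k3 p a l t C S ω = z := fun ω hω =>
    ⟨JSB.cond_supp P _ z hω, JSB.cond_supp' P _ z hz hω⟩
  have hSupp : (ev p a l t (q - c1) (w - p) (L - a - p) B).Supp (P.cond (k3 p a l t C S) z) := by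
    refine ⟨fun ω _ => ⟨cp_ok p _, H416.wt_nonneg a (t ω), (H416.wt_lt a (t ω)).le⟩, hG.u2, hG.u1, hG.α, hG.κ, hG.p1, hG.v1,
      fun ω hω => hG.inn ω (hcond ω hω).1 (hcond ω hω).2, ?_⟩
    show (w - p) + (q - c1) ≤ L - a - p
    omega
  have hA := hAx Ω (ev p a l t (q - c1) (w - p) (L - a - p) B) (P.cond (k3 p a l t C S) z) hSupp
  have hA' := H864.ax_mono (p := parX lam β (2 * k) c N b' ct Ka)
    (p' := ⟨lam, β0, ks, 100, 1 + N, ct, β0 / 4 * Real.log 2, Ka⟩) rfl hβ hk hc le_rfl rfl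
    ⟨by show 0 < β0 / 4 * Real.log 2; positivity, mul_le_mul_of_nonneg_right hgain hlog.le⟩ ⟨hKa, le_rfl⟩ hA
  refine Hs (ev p a l t (q - c1) (w - p) (L - a - p) B) (P.cond (k3 p a l t C S) z) _ _ hSupp hA' ?_ ?_ ?_
  · show h0s ≤ w - p
    have : (h0s : ℝ) ≤ ((w - p : ℕ) : ℝ) := by rw [hwp]; exact hw1
    exact_mod_cast this
  · show _ ≤ ηs * ((w - p : ℕ) : ℝ)
    rw [hwp]
    exact hdf
  · show (b' - β + η) * ((w - p : ℕ) : ℝ) * Real.log 2 + Ka ≤ ηs * ((w - p : ℕ) : ℝ)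
    have g2 : (0 : ℝ) ≤ ((w - p : ℕ) : ℝ) := Nat.cast_nonneg _
    rw [← hwp] at hw2
    have g3 : (b' - β + η) * ((w - p : ℕ) : ℝ) ≤ 2 * η * ((w - p : ℕ) : ℝ) := mul_le_mul_of_nonneg_right (by linarith) g2
    have g4 : 0 ≤ 2 * η * ((w - p : ℕ) : ℝ) := by positivity
    have g5 := mul_le_mul_of_nonneg_right g3 hlog.le
    have g6 := mul_le_mul_of_nonneg_left hlog1 g4
    have g7 : 2 * η * ((w - p : ℕ) : ℝ) ≤ ηs / 2 * ((w - p : ℕ) : ℝ) := mul_le_mul_of_nonneg_right (by linarith) g2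
    linarith

/-- **[TAIL]** -/
theorem pTail_of (h7 : PEnd7) : PTail := by
  intro lam N β0 θ hl0 hl1 hlβ hβ2 hN hθ
  have hlog : 0 < Real.log 2 := Real.log_pos (by norm_num)
  have hlog1 : Real.log 2 ≤ 1 := by
    have := Real.log_two_lt_d9
    linarith
  have hβ0 : 0 < β0 := by linarith
  have hN0 : 0 < N := by linarith
  obtain ⟨ks, ct, ηs, η, hks0, hct0, hNct, hηs, hη0, hη1, hη2, hη3, hη4, H⟩ := exists_par h7 hl0 hlβ hβ2 hN hθ
  refine ⟨η, hη0, ?_⟩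
  intro k β b' c K0 hk hkη hβ hbb hb' hF hc hK0
  have hβ' : 0 ≤ β := by linarith
  have hb0 : 0 ≤ b' := by linarith
  obtain ⟨c', hc'⟩ : ∃ c' : ℝ, c' = max c 100 := ⟨_, rfl⟩
  have hcc : c ≤ c' := by rw [hc']; exact le_max_left _ _
  have hc100 : 100 ≤ c' := by rw [hc']; exact le_max_right _ _
  clear hc'
  have hc1 : 1 ≤ c' := by linarith
  have hc0 : 0 ≤ c' := by linarith
  obtain ⟨p, hp⟩ := pow_unbounded_of_one_lt (16 * c') (by norm_num : (1 : ℝ) < 2)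
  obtain ⟨c1, hc1'⟩ := pow_unbounded_of_one_lt (4 * (c' * 2 ^ p)) (by norm_num : (1 : ℝ) < 2)
  have hF2 : FIXA lam N (4 * (2 * k)) b' := by
    rw [show 4 * (2 * k) = 8 * k by ring]
    exact hF
  have hF4 : FIXA lam N (4 * k) b' := FIXA_mono hl0.le hl1.le (by linarith) (by linarith) hF
  have hgain : β0 / 4 ≤ b' + N - 2 - 4 * (2 * k) - N * ct := by
    rw [hNct]
    linarith
  obtain ⟨Ka, hKa, hAx⟩ := H864.ax_of (H404.pActX H513.pExtX H416.pWinX H416.pAbs) (ct := ct) hl0.le hl1.le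
    (by linarith : 0 < 2 * k) hN0.le hbb hb0 hF2 (by linarith) hc100 η hη0
  obtain ⟨h0s, Hs⟩ := H Ka hKa
  obtain ⟨K1, hK1⟩ := H416.pWinX lam N (4 * k) N b' hl0.le hl1.le (by linarith) hN0.le le_rfl hb0 hF4 c' hc1 η hη0
  rw [show 4 * k / 2 = 2 * k by ring] at hK1
  obtain ⟨K2, hK2⟩ := H416.pAbs c' lam (2 * k) N hc1 hl0.le hl1.le (by linarith) hN0.le
  rw [show 2 * k / 2 = k by ring] at hK2
  obtain ⟨K3, hK3, hcls⟩ := H513.cls_X (c := c') (c₁ := c) (lam := lam) hc1 (by linarith) hl0.le hl1.le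
  obtain ⟨KS, hKS⟩ : ∃ KS : ℝ, KS = kS c' K0 (2 * k) p c1 := ⟨_, rfl⟩
  obtain ⟨KT, hKT⟩ : ∃ KT : ℝ, KT = K1 + K2 + (1 + 0 + k) * K3 + N * Real.log 2 + KS := ⟨_, rfl⟩
  obtain ⟨h0, hh0⟩ := exists_nat_ge ((1 / θ) * (2 * p + h0s + 2 * Ka / ηs + 2 * |KT| / ηs + 1))
  refine ⟨h0, fun Ω _ γ P l t C L h q a W S hNE hh haθ hS hS1 hS2 hg => ?_⟩
  have hhθ : 2 * p + h0s + 2 * Ka / ηs + 2 * |KT| / ηs + 1 ≤ θ * h := by
    have h1 : (h0 : ℝ) ≤ h := by exact_mod_cast hh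
    have h2 := mul_le_mul_of_nonneg_left (hh0.trans h1) hθ.le
    have h3 : θ * (1 / θ * (2 * p + h0s + 2 * Ka / ηs + 2 * |KT| / ηs + 1)) =
        2 * p + h0s + 2 * Ka / ηs + 2 * |KT| / ηs + 1 := by field_simp
    linarith
  have hhn : (0 : ℝ) ≤ h := Nat.cast_nonneg h
  have hah : a ≤ h := by
    have : (a : ℝ) ≤ h := by nlinarith
    exact_mod_cast this
  obtain ⟨w, rfl⟩ := Nat.exists_eq_add_of_le hah
  have han : (0 : ℝ) ≤ a := Nat.cast_nonneg a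
  have hwn : (0 : ℝ) ≤ w := Nat.cast_nonneg w
  have hpn : (0 : ℝ) ≤ p := Nat.cast_nonneg p
  have hw : θ * ((a : ℝ) + w) ≤ w := by
    push_cast at haθ
    linarith
  rw [Nat.cast_add] at hhθ hS1 hS2
  obtain ⟨A1, A2, A3, A4⟩ := arith2 hηs hKa han hwn (Nat.cast_nonneg h0s) hη4 hhθ hw hpn
  have hpw : p ≤ w := by exact_mod_cast A4
  have hwp : ((w - p : ℕ) : ℝ) = w - p := Nat.cast_sub hpw
  have hLh := hNE.hL
  have hW' : ∀ ω, 0 < P.w ω → LbOk c' L (a + w) (W ω) (l ω) (t ω) ∧ (W ω).u2 = 1 ∧ (W ω).u1 = (1 / 2 : ℝ) ^ q :=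
    fun ω hω => ⟨H864.lbOk_mono hcc (hNE.lb ω hω).1, (hNE.lb ω hω).2⟩
  have hS' : ∀ ω, 0 < P.w ω → LbOk c' L a (S ω) (l ω) (t ω) ∧ (S ω).u2 = 1 ∧ (S ω).u1 = (1 / 2 : ℝ) ^ q :=
    fun ω hω => ⟨H864.lbOk_mono hcc (hS ω hω).1, (hS ω hω).2⟩
  rw [show a + w - a + q = w + q by omega] at hg
  -- the slabs
  have hgood := fun z => exists_good (P := P) (p := p) (a := a) (l := l) (t := t) (C := C) (S := S) (q := q) (c1 := c1)
    hc0 hp.le hc1'.le hS' z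
  have : Nonempty Cbx := ⟨H416.selfB ⟨0, 0, 0⟩⟩
  choose! B0 hB0 using hgood
  -- the average
  have hsum := df_sum (β := β) (q := q) (c1 := c1) ⟨hl0.le, hl1.le⟩ (by linarith : 0 ≤ 2 * k) hN0.le hc0 hK0 hpw (by omega)
    hNE.ok hW' hB0 hg
  have e1 := H875.XX_mono_k (c := c') (lam := lam) (k := 2 * k) (La := 0) (k' := 2 * k) (La' := N) (P := P) (l := l) (t := t)
    (C := C) (e := fun _ => (0, q)) (L := L) (a := a) hc0 (by omega) hl0.le hl1.le (by linarith) hN0.le le_rfl hN0.le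
  have e2 := hK1 Ω γ P l t C (fun _ => (0, q)) L 0 a (by omega) hNE.ok
  rw [zero_add] at e2
  have e3 := hK2 Ω γ P l t C (0, q) L 0 (Nat.zero_le _) hNE.ok
  have e4 := hcls Ω γ P l t C (fun _ => (0, q)) L 0 k 0 hk.le le_rfl (Nat.zero_le _)
  have e5 := hNE.ex
  have e6 := Dd_ge (C := C) hNE.ok 0
  rw [Nat.cast_add] at e5
  rw [hwp, ← hKS] at hsum
  have hV := arith1 (KS := KS) hlog hlog1 han hwn hpn hN0.le hη0.le hβ' hb' e1 e2 e3 e4 e5 e6 hS1 hS2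
  rw [← hKT] at hV
  obtain ⟨z, hz, hdf⟩ := exists_le_avg P (k3 p a l t C S) _ (hsum.trans (hV.trans A1))
  obtain ⟨ω0, hω0⟩ := H127.exists_supp (P.cond (k3 p a l t C S) z)
  have hG := hB0 z ⟨ω0, JSB.cond_supp P _ z hω0, JSB.cond_supp' P _ z hz hω0⟩
  exact one_state Hs hAx hβ0 hβ (by linarith) hc100 hKa hgain hη0.le hηs hη3 hb' hpw hLh A2 A3 hG hz hdf

end Vale.Agent.P106.U.H523
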