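import Vale.Agent.P106.U.H523.TailGeo
import Vale.Agent.P106.U.H864.Ax
import Vale.Agent.P106.U.H875.XX
import Vale.Agent.P106.U.H513.Ext
import Vale.Agent.P106.U.H523.Best

/-!
# P106 / U / H523 : the end of the path, the letters and the entropies

* `r2`, `k2`, `d2`, `k3`, `b2` : ray in the window and in the cap, letters, slab.
* `Good`, `exists_good` : the constant slab of a value of the letter `k3`.
* `dig` : digits of the state given the label.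
-/

set_option autoImplicit false
set_option linter.unusedSectionVars false

namespace Vale.Agent.P106.U.H523

open Vale.Agent.P127 Vale.Agent.P127.Stk Vale.Agent.P127.U Vale.Agent.P106.W Vale.Agent.P106.K Vale.Agent.P106.U
open Vale.Agent.P106.U.End7 Vale.Agent.P127.U.CellD
open Vale.Agent.P106.U.H416 (wR wt wo wh wC trB trR cM cM_le)
open Vale.Agent.P122.C2 (fn fw)

section sys

variable {Ω : Type} {γ : Type}

/-- the ray in the window and in the cap -/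
noncomputable def r2 (p a : ℕ) (l : Ω → Ry) (t : Ω → ℝ) (ω : Ω) : Ry := cp p (wR a (l ω) (t ω))

/-- the letter: window and cap -/
noncomputable def k2 (p a : ℕ) (l : Ω → Ry) (t : Ω → ℝ) (C : Ω → γ) (ω : Ω) : (γ × ℤ × (Fin 2 → ℤ) × ℤ) × Ry :=
  (wC a l t C ω, cc p (wR a (l ω) (t ω)))

/-- three digits of the ray in the cap -/
noncomputable def d2 (p a : ℕ) (l : Ω → Ry) (t : Ω → ℝ) (ω : Ω) : (Fin 2 → ℤ) × (Fin 2 → ℤ) × ℤ :=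
  (fl 3 (r2 p a l t ω).y, fl 3 (r2 p a l t ω).s, fl1 3 (r2 p a l t ω).z)

/-- the whole letter -/
noncomputable def k3 (p a : ℕ) (l : Ω → Ry) (t : Ω → ℝ) (C : Ω → γ) (S : Ω → Cbx) (ω : Ω) :
    ((γ × ℤ × (Fin 2 → ℤ) × ℤ) × Ry) × Cbx × (Fin 2 → ℤ) × (Fin 2 → ℤ) × ℤ :=
  (k2 p a l t C ω, S ω, d2 p a l t ω)

/-- the slab in the window and in the cap -/
noncomputable def b2 (p a : ℕ) (l : Ω → Ry) (t : Ω → ℝ) (S : Ω → Cbx) (ω : Ω) : Cbx :=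
  zmB p (cc p (wR a (l ω) (t ω))) (trB (fun k => (wo a (l ω) (t ω) k : ℝ)) (wh a (l ω) (t ω) : ℝ) (S ω))

variable {p a : ℕ} {l : Ω → Ry} {t : Ω → ℝ} {C : Ω → γ} {S : Ω → Cbx}

theorem gv_b2 (ω : Ω) (τ : ℝ) :
    gv (b2 p a l t S ω) (r2 p a l t ω) τ = 2 ^ p * gv (S ω) (bl a (l ω) (t ω)) τ := by
  have h1 : r2 p a l t ω = zm p (cc p (wR a (l ω) (t ω))) (wR a (l ω) (t ω)) := rfl
  have h2 : wR a (l ω) (t ω) = trR (fun k => (wo a (l ω) (t ω) k : ℝ)) (wh a (l ω) (t ω) : ℝ) (bl a (l ω) (t ω)) := rfl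
  unfold b2
  rw [h1, g_zoom]
  congr 1
  conv_lhs => rw [h2]
  exact g_tr _ _ _ _ _

/-- what the letter knows -/
theorem k3_fn {ω ω' : Ω} (h : k3 p a l t C S ω = k3 p a l t C S ω') : C ω = C ω' ∧ fl1 a (t ω) = fl1 a (t ω') ∧
    wo a (l ω) (t ω) = wo a (l ω') (t ω') ∧ wh a (l ω) (t ω) = wh a (l ω') (t ω') ∧
    cc p (wR a (l ω) (t ω)) = cc p (wR a (l ω') (t ω')) ∧ S ω = S ω' ∧ d2 p a l t ω = d2 p a l t ω' ∧
    b2 p a l t S ω = b2 p a l t S ω' := by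
  simp only [k3, k2, wC, Prod.mk.injEq] at h
  obtain ⟨⟨⟨h1, h2, h3, h4⟩, h5⟩, h6, h7⟩ := h
  refine ⟨h1, h2, h3, h4, h5, h6, h7, ?_⟩
  unfold b2
  rw [h3, h4, h5, h6]

/-- rays with the same three digits -/
theorem d2_near {ω ω' : Ω} (h : d2 p a l t ω = d2 p a l t ω') :
    (∀ k, |(r2 p a l t ω).y k - (r2 p a l t ω').y k| ≤ 1 / 8) ∧ (∀ k, |(r2 p a l t ω).s k - (r2 p a l t ω').s k| ≤ 1 / 8) ∧
      |(r2 p a l t ω).z - (r2 p a l t ω').z| ≤ 1 / 8 := by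
  simp only [d2, Prod.mk.injEq] at h
  obtain ⟨h1, h2, h3⟩ := h
  have e : (1 / 2 : ℝ) ^ 3 = 1 / 8 := by norm_num
  exact ⟨fun k => by rw [← e]; exact Apx.fl_close h1 k, fun k => by rw [← e]; exact Apx.fl_close h2 k,
    by rw [← e]; exact Apx.fl1_close h3⟩

theorem cp_z (p : ℕ) (l : Ry) : |(cp p l).z| ≤ 1 := by
  have h2 : (0 : ℝ) < 2 ^ (2 * p) := by positivity
  have h1 := Int.floor_le ((2 : ℝ) ^ (2 * p) * (l.z + ∑ k, (fl p l.y k : ℝ) / 2 ^ p * (l.s k - (fl p l.s k : ℝ) / 2 ^ p)))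
  have h3 := Int.lt_floor_add_one ((2 : ℝ) ^ (2 * p) * (l.z + ∑ k, (fl p l.y k : ℝ) / 2 ^ p * (l.s k - (fl p l.s k : ℝ) / 2 ^ p)))
  have e : (cp p l).z = (2 : ℝ) ^ (2 * p) * (l.z + ∑ k, (fl p l.y k : ℝ) / 2 ^ p * (l.s k - (fl p l.s k : ℝ) / 2 ^ p)) -
      (⌊(2 : ℝ) ^ (2 * p) * (l.z + ∑ k, (fl p l.y k : ℝ) / 2 ^ p * (l.s k - (fl p l.s k : ℝ) / 2 ^ p))⌋ : ℝ) := by
    show 2 ^ (2 * p) * (l.z + ∑ k, (fl p l.y k : ℝ) / 2 ^ p * (l.s k - (fl p l.s k : ℝ) / 2 ^ p) -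
      (fl1 (2 * p) (l.z + ∑ k, (fl p l.y k : ℝ) / 2 ^ p * (l.s k - (fl p l.s k : ℝ) / 2 ^ p)) : ℝ) / 2 ^ (2 * p)) = _
    rw [mul_sub, mul_div_cancel₀ _ h2.ne']
    rfl
  rw [e, abs_le]
  constructor <;> linarith

theorem cc_s {p : ℕ} {l : Ry} (h : ∀ k, |l.s k| ≤ 1) (k : Fin 2) : |(cc p l).s k| ≤ 1 := by
  have h2 : (0 : ℝ) < 2 ^ p := by positivity
  obtain ⟨h3, h4⟩ := abs_le.1 (h k)
  show |((⌊(2 : ℝ) ^ p * l.s k⌋ : ℤ) : ℝ) / 2 ^ p| ≤ 1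
  rw [abs_div, abs_of_pos h2, div_le_one h2, abs_le]
  constructor
  · have : (-(2 : ℤ) ^ p) ≤ ⌊(2 : ℝ) ^ p * l.s k⌋ := by
      rw [Int.le_floor]
      push_cast
      nlinarith
    have h5 : ((-(2 : ℤ) ^ p : ℤ) : ℝ) ≤ (⌊(2 : ℝ) ^ p * l.s k⌋ : ℝ) := by exact_mod_cast this
    push_cast at h5
    exact h5
  · have := Int.floor_le ((2 : ℝ) ^ p * l.s k)
    nlinarith

variable [Fintype Ω] {P : Law Ω} {c : ℝ} {L q c1 : ℕ}

/-- a constant slab for the value `z` of the letter -/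
structure Good (P : Law Ω) (p a q c1 : ℕ) (l : Ω → Ry) (t : Ω → ℝ) (C : Ω → γ) (S : Ω → Cbx)
    (z : ((γ × ℤ × (Fin 2 → ℤ) × ℤ) × Ry) × Cbx × (Fin 2 → ℤ) × (Fin 2 → ℤ) × ℤ) (B : Cbx) : Prop where
  u2 : B.u2 = 1
  u1 : B.u1 = (1 / 2 : ℝ) ^ (q - c1)
  α : |B.α| ≤ 1 / 8
  κ : |B.κ| ≤ 1 / 8
  p1 : ∀ k, |B.p k| ≤ 1
  v1 : ∀ k, |B.v k| ≤ 1
  inn : ∀ ω, 0 < P.w ω → k3 p a l t C S ω = z → B.In 0 (r2 p a l t ω).y (r2 p a l t ω).s (r2 p a l t ω).z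
  gd : ∀ ω ω', 0 < P.w ω → 0 < P.w ω' → k3 p a l t C S ω = z → k3 p a l t C S ω' = z → ∀ τ : ℝ,
    2 ^ (q - c1) * |gv B (r2 p a l t ω) τ - gv B (r2 p a l t ω') τ| ≤
      2 * 2 ^ q * |gv (b2 p a l t S ω) (r2 p a l t ω) τ - gv (b2 p a l t S ω') (r2 p a l t ω') τ| +
        |((r2 p a l t ω).y 1 + τ * (r2 p a l t ω).s 1) - ((r2 p a l t ω').y 1 + τ * (r2 p a l t ω').s 1)|

/-- size of the functional -/
theorem b2_size (hS : ∀ ω, 0 < P.w ω → LbOk c L a (S ω) (l ω) (t ω) ∧ (S ω).u2 = 1 ∧ (S ω).u1 = (1 / 2 : ℝ) ^ q)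
    {ω : Ω} (hω : 0 < P.w ω) :
    |(b2 p a l t S ω).g0 (r2 p a l t ω).y (r2 p a l t ω).s (r2 p a l t ω).z| ≤ c * 2 ^ p * (1 / 2) ^ q ∧
    |(b2 p a l t S ω).g1 (r2 p a l t ω).y (r2 p a l t ω).s (r2 p a l t ω).z| ≤ c * 2 ^ p * (1 / 2) ^ q := by
  obtain ⟨h1, -, h3⟩ := hS ω hω
  have i := h1.inn
  have a0 : |(S ω).g0 (bl a (l ω) (t ω)).y (bl a (l ω) (t ω)).s (bl a (l ω) (t ω)).z| ≤ c * (1 / 2) ^ q := by
    rw [← h3]
    exact i.2.2.2.1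
  have a1 : |(S ω).g1 (bl a (l ω) (t ω)).y (bl a (l ω) (t ω)).s (bl a (l ω) (t ω)).z| ≤ c * (1 / 2) ^ q := by
    rw [← h3]
    exact i.2.2.2.2
  have g0 := gv_b2 (p := p) (a := a) (l := l) (t := t) (S := S) ω 0
  have g1 := gv_b2 (p := p) (a := a) (l := l) (t := t) (S := S) ω 1
  unfold gv at g0 g1
  rw [zero_mul, zero_mul, add_zero, add_zero] at g0
  rw [one_mul, one_mul] at g1
  have g2 : (b2 p a l t S ω).g1 (r2 p a l t ω).y (r2 p a l t ω).s (r2 p a l t ω).z =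
      2 ^ p * (S ω).g1 (bl a (l ω) (t ω)).y (bl a (l ω) (t ω)).s (bl a (l ω) (t ω)).z := by linarith
  have hp : (0 : ℝ) < 2 ^ p := by positivity
  rw [g0, g2, abs_mul, abs_mul, abs_of_pos hp]
  constructor
  · have := mul_le_mul_of_nonneg_left a0 hp.le
    linarith
  · have := mul_le_mul_of_nonneg_left a1 hp.le
    linarith

theorem exists_good (hc : 0 ≤ c) (hp : 16 * c ≤ 2 ^ p) (hc1 : 4 * (c * 2 ^ p) ≤ 2 ^ c1)
    (hS : ∀ ω, 0 < P.w ω → LbOk c L a (S ω) (l ω) (t ω) ∧ (S ω).u2 = 1 ∧ (S ω).u1 = (1 / 2 : ℝ) ^ q)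
    (z : ((γ × ℤ × (Fin 2 → ℤ) × ℤ) × Ry) × Cbx × (Fin 2 → ℤ) × (Fin 2 → ℤ) × ℤ)
    (hz : ∃ ω, 0 < P.w ω ∧ k3 p a l t C S ω = z) : ∃ B, Good P p a q c1 l t C S z B := by
  obtain ⟨ω0, h0, hz0⟩ := hz
  obtain ⟨hL, hu2, hu1⟩ := hS ω0 h0
  have hpp : (0 : ℝ) < 2 ^ p := by positivity
  have hκ : |(b2 p a l t S ω0).κ| ≤ 1 / 16 := by
    show |(S ω0).κ / 2 ^ p| ≤ 1 / 16
    have := hL.κ2
    rw [hu2, mul_one] at this
    rw [abs_div, abs_of_pos hpp, div_le_iff₀ hpp]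
    linarith
  have hα : |(b2 p a l t S ω0).α| ≤ 1 / 16 := by
    show |(S ω0).α / 2 ^ p| ≤ 1 / 16
    have := hL.α2
    rw [hu2, mul_one] at this
    rw [abs_div, abs_of_pos hpp, div_le_iff₀ hpp]
    linarith
  obtain ⟨s0, s1⟩ := b2_size (p := p) hS h0
  obtain ⟨B, e1, e2, e3, e4, e5, e6, e7, e8⟩ := slab_exists (E := c * 2 ^ p) (c1 := c1) (q := q) hc1 (by positivity)
    (B := b2 p a l t S ω0) (ρ := r2 p a l t ω0) hκ hα s0 s1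
  have hok := cp_ok p (wR a (l ω0) (t ω0))
  refine ⟨B, e1, e2, e3, e4, fun k => by rw [e5]; exact hok.1 k, fun k => by rw [e6]; exact hok.2.1 k, ?_, ?_⟩
  · intro ω hω hz
    have hk := k3_fn (hz.trans hz0.symm)
    have hb := hk.2.2.2.2.2.2.2
    obtain ⟨n1, n2, n3⟩ := d2_near hk.2.2.2.2.2.2.1
    have hs := b2_size (p := p) hS hω
    rw [hb] at hs
    exact e7 (r2 p a l t ω) n1 n2 n3 (cp_ok p (wR a (l ω) (t ω))).1 hs.1 hs.2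
  · intro ω ω' hω hω' hz hz' τ
    have hb := (k3_fn (hz.trans hz0.symm)).2.2.2.2.2.2.2
    have hb' := (k3_fn (hz'.trans hz0.symm)).2.2.2.2.2.2.2
    rw [hb, hb']
    exact e8 (r2 p a l t ω) (r2 p a l t ω') τ

/-- the data of END7 for the value `z` -/
noncomputable def ev (p a : ℕ) (l : Ω → Ry) (t : Ω → ℝ) (q1 h2 L2 : ℕ) (B : Cbx) : Env Ω where
  l := r2 p a l t
  t := fun ω => wt a (t ω)
  B0 := B
  q := q1
  h := h2
  L := L2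

theorem ev_X2 (q1 h2 L2 : ℕ) (B : Cbx) (ω : Ω) (τ : ℝ) :
    (ev p a l t q1 h2 L2 B).X ω 2 + τ * (ev p a l t q1 h2 L2 B).Q ω 2 = 2 ^ q1 * gv B (r2 p a l t ω) τ := by
  show 2 ^ q1 * B.g0 (r2 p a l t ω).y (r2 p a l t ω).s (r2 p a l t ω).z +
    τ * (2 ^ q1 * B.g1 (r2 p a l t ω).y (r2 p a l t ω).s (r2 p a l t ω).z) = _
  unfold gv
  ring

theorem ev_X1 (q1 h2 L2 : ℕ) (B : Cbx) (ω : Ω) (τ : ℝ) :
    (ev p a l t q1 h2 L2 B).X ω 1 + τ * (ev p a l t q1 h2 L2 B).Q ω 1 = (r2 p a l t ω).hgt τ := by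
  show (r2 p a l t ω).hgt 0 + τ * ((∑ k, (r2 p a l t ω).s k ^ 2) / 2) = _
  unfold Ry.hgt
  ring

theorem ev_X0 (q1 h2 L2 : ℕ) (B : Cbx) (ω ω' : Ω) (τ : ℝ) :
    ((ev p a l t q1 h2 L2 B).X ω 0 + τ * (ev p a l t q1 h2 L2 B).Q ω 0) -
      ((ev p a l t q1 h2 L2 B).X ω' 0 + τ * (ev p a l t q1 h2 L2 B).Q ω' 0) =
      (Real.cos B.θ * (((r2 p a l t ω).y 0 + τ * (r2 p a l t ω).s 0) - ((r2 p a l t ω').y 0 + τ * (r2 p a l t ω').s 0)) +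
        Real.sin B.θ * (((r2 p a l t ω).y 1 + τ * (r2 p a l t ω).s 1) -
          ((r2 p a l t ω').y 1 + τ * (r2 p a l t ω').s 1))) / 2 := by
  show (fw B.θ (r2 p a l t ω).y / 2 + τ * (fw B.θ (r2 p a l t ω).s / 2)) -
    (fw B.θ (r2 p a l t ω').y / 2 + τ * (fw B.θ (r2 p a l t ω').s / 2)) = _
  simp only [fw]
  ring

theorem ev_Q (q1 h2 L2 : ℕ) {B : Cbx} {ω : Ω} (hu : B.u1 = (1 / 2 : ℝ) ^ q1)
    (hin : B.In 0 (r2 p a l t ω).y (r2 p a l t ω).s (r2 p a l t ω).z) (k : Fin 3) :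
    |(ev p a l t q1 h2 L2 B).Q ω k| ≤ 1 := by
  have hs := (cp_ok p (wR a (l ω) (t ω))).2.1
  have hs0 : |(r2 p a l t ω).s 0| ≤ 1 := hs 0
  have hs1 : |(r2 p a l t ω).s 1| ≤ 1 := hs 1
  have hcos := Real.abs_cos_le_one B.θ
  have hsin := Real.abs_sin_le_one B.θ
  have hp : ∀ x y : ℝ, |x| ≤ 1 → |y| ≤ 1 → |x * y| ≤ 1 := fun x y hx hy => by
    rw [abs_mul]
    exact mul_le_one₀ hx (abs_nonneg _) hy
  fin_cases k
  · show |(Real.cos B.θ * (r2 p a l t ω).s 0 + Real.sin B.θ * (r2 p a l t ω).s 1) / 2| ≤ 1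
    have a0 := abs_le.1 (hp _ _ hcos hs0)
    have a1 := abs_le.1 (hp _ _ hsin hs1)
    rw [abs_le]
    constructor <;> linarith
  · show |(∑ k, (r2 p a l t ω).s k ^ 2) / 2| ≤ 1
    rw [Fin.sum_univ_two]
    have a0 : (r2 p a l t ω).s 0 ^ 2 ≤ 1 := by rw [← sq_abs]; exact pow_le_one₀ (abs_nonneg _) hs0
    have a1 : (r2 p a l t ω).s 1 ^ 2 ≤ 1 := by rw [← sq_abs]; exact pow_le_one₀ (abs_nonneg _) hs1
    rw [abs_of_nonneg (by positivity)]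
    linarith
  · show |2 ^ q1 * B.g1 _ _ _| ≤ 1
    have h1 := ((B.in_iff 0 _ _ _).1 hin).2.2.2.2
    rw [hu] at h1
    rw [abs_mul, abs_of_pos (by positivity : (0 : ℝ) < 2 ^ q1)]
    have h2 := mul_le_mul_of_nonneg_left h1 (by positivity : (0 : ℝ) ≤ 2 ^ q1)
    rw [← mul_pow] at h2
    norm_num at h2
    exact h2

/-- the constant of `dig` -/
noncomputable def cD (c K0 : ℝ) (p : ℕ) : ℕ := ⌈2 ^ (2 * p) * 3 * cM c + 2 * (2 ^ p * K0) + 4⌉₊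

/-- **digits of the state given the label** -/
theorem dig (hc : 0 ≤ c) {K0 : ℝ} (hK0 : 0 ≤ K0) {w h2 L2 : ℕ} (hh : h2 ≤ w) {B W : Cbx} {ω ω' : Ω}
    (hsy : SyOk P l t) (hω : 0 < P.w ω) (hω' : 0 < P.w ω') (hu : W.u2 = 1)
    (hW : Bin c W 0 (bl (a + w) (l ω) (t ω))) (hW' : Bin c W 0 (bl (a + w) (l ω') (t ω')))
    (ht : fl1 (a + w) (t ω) = fl1 (a + w) (t ω')) {z : ((γ × ℤ × (Fin 2 → ℤ) × ℤ) × Ry) × Cbx × (Fin 2 → ℤ) × (Fin 2 → ℤ) × ℤ}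
    (hz : k3 p a l t C S ω = z) (hz' : k3 p a l t C S ω' = z) (hB : Good P p a q c1 l t C S z B)
    (hg : |gS (S ω) (l ω) (t ω) a (a + w) - gS (S ω) (l ω') (t ω') a (a + w)| ≤ K0 * (1 / 2 : ℝ) ^ (w + q)) (k : Fin 3) :
    |((ev p a l t (q - c1) h2 L2 B).X ω k + rd h2 (wt a (t ω)) * (ev p a l t (q - c1) h2 L2 B).Q ω k) -
      ((ev p a l t (q - c1) h2 L2 B).X ω' k + rd h2 (wt a (t ω')) * (ev p a l t (q - c1) h2 L2 B).Q ω' k)| ≤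
      cD c K0 p * (1 / 2 : ℝ) ^ h2 := by
  obtain ⟨-, kt, ko, kh, kc, kS, -, -⟩ := k3_fn (hz.trans hz'.symm)
  have hq : qa w (wt a (t ω)) = qa w (wt a (t ω')) := by
    rw [H416.qa_wt, H416.qa_wt, Apx.qa_congr ht, Apx.qa_congr kt]
  have hr : rd h2 (wt a (t ω)) = rd h2 (wt a (t ω')) := by
    have e : fl1 w (wt a (t ω)) = fl1 w (wt a (t ω')) := by
      rw [H416.fl1_wt, H416.fl1_wt, ht, kt]
    unfold rd
    rw [Apx.fl1_of_fl1 hh e]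
  obtain ⟨ok, -, -⟩ := hsy ω hω
  obtain ⟨ok', -, -⟩ := hsy ω' hω'
  have n1 := near (a := a) (w := w) hc ok.2.1 ok'.2.1 (by rw [hu]; norm_num) (by rw [hu]) hW hW' ht ko kh
  have hsw : ∀ k, |(wR a (l ω) (t ω)).s k| ≤ 1 := ok.2.1
  have n2 := near_cap (l₀ := cc p (wR a (l ω) (t ω))) (Nat.cast_nonneg (cM c)) (by positivity) p (cc_s hsw) n1.1 n1.2
  set τ := qa w (wt a (t ω)) with hτ
  have r1 : zm p (cc p (wR a (l ω) (t ω))) (wR a (l ω) (t ω)) = r2 p a l t ω := rfl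
  have r2' : zm p (cc p (wR a (l ω) (t ω))) (wR a (l ω') (t ω')) = r2 p a l t ω' := by rw [kc]; rfl
  rw [r1, r2'] at n2
  set A : ℝ := 2 ^ (2 * p) * 3 * cM c with hA
  have hA0 : 0 ≤ A := by positivity
  have hd0 : (0 : ℝ) < (1 / 2) ^ w := by positivity
  -- the functional
  have gτ : 2 ^ a * (qa (a + w) (t ω) - qa a (t ω)) = τ := by rw [hτ, H416.qa_wt]
  have gτ' : 2 ^ a * (qa (a + w) (t ω') - qa a (t ω')) = τ := by rw [hq, H416.qa_wt]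
  have hg1 : |gv (S ω) (bl a (l ω) (t ω)) τ - gv (S ω) (bl a (l ω') (t ω')) τ| ≤ K0 * (1 / 2 : ℝ) ^ (w + q) := by
    unfold gS at hg
    rw [gτ, gτ'] at hg
    exact hg
  have hg2 : 2 ^ (q - c1) * |gv B (r2 p a l t ω) τ - gv B (r2 p a l t ω') τ| ≤ (2 * (2 ^ p * K0) + A) * (1 / 2) ^ w := by
    have h1 := hB.gd ω ω' hω hω' hz hz' τ
    rw [gv_b2, gv_b2, ← kS, ← mul_sub, abs_mul, abs_of_pos (by positivity : (0 : ℝ) < 2 ^ p)] at h1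
    have h3 : 2 * 2 ^ q * (2 ^ p * |gv (S ω) (bl a (l ω) (t ω)) τ - gv (S ω) (bl a (l ω') (t ω')) τ|) ≤
        2 * 2 ^ q * (2 ^ p * (K0 * (1 / 2 : ℝ) ^ (w + q))) := by gcongr
    have h4 : 2 * 2 ^ q * (2 ^ p * (K0 * (1 / 2 : ℝ) ^ (w + q))) = 2 * (2 ^ p * K0) * (1 / 2) ^ w := by
      have : (2 : ℝ) ^ q * (1 / 2) ^ q = 1 := by rw [← mul_pow]; norm_num
      rw [pow_add]
      linear_combination (2 * 2 ^ p * K0 * (1 / 2 : ℝ) ^ w) * this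
    have h5 := n2.1 1
    linarith
  -- the three coordinates at the time `τ`
  have hQ := ev_Q (p := p) (a := a) (l := l) (t := t) (q - c1) h2 L2 hB.u1 (hB.inn ω hω hz)
  have hQ' := ev_Q (p := p) (a := a) (l := l) (t := t) (q - c1) h2 L2 hB.u1 (hB.inn ω' hω' hz')
  have key : |((ev p a l t (q - c1) h2 L2 B).X ω k + τ * (ev p a l t (q - c1) h2 L2 B).Q ω k) -
      ((ev p a l t (q - c1) h2 L2 B).X ω' k + τ * (ev p a l t (q - c1) h2 L2 B).Q ω' k)| ≤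
      (2 * (2 ^ p * K0) + A) * (1 / 2) ^ w := by
    have hK : 0 ≤ 2 * (2 ^ p * K0) * (1 / 2 : ℝ) ^ w := by positivity
    fin_cases k
    · show |((ev p a l t (q - c1) h2 L2 B).X ω 0 + τ * (ev p a l t (q - c1) h2 L2 B).Q ω 0) -
        ((ev p a l t (q - c1) h2 L2 B).X ω' 0 + τ * (ev p a l t (q - c1) h2 L2 B).Q ω' 0)| ≤ _
      rw [ev_X0]
      have hcos := Real.abs_cos_le_one B.θ
      have hsin := Real.abs_sin_le_one B.θ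
      have m : ∀ (x y : ℝ), |x| ≤ 1 → |y| ≤ A * (1 / 2) ^ w → |x * y| ≤ A * (1 / 2) ^ w := fun x y hx hy => by
        rw [abs_mul]
        have := mul_le_mul hx hy (abs_nonneg _) (by norm_num : (0 : ℝ) ≤ 1)
        linarith
      have a0 := abs_le.1 (m _ _ hcos (n2.1 0))
      have a1 := abs_le.1 (m _ _ hsin (n2.1 1))
      rw [abs_le]
      constructor <;> linarith
    · show |((ev p a l t (q - c1) h2 L2 B).X ω 1 + τ * (ev p a l t (q - c1) h2 L2 B).Q ω 1) -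
        ((ev p a l t (q - c1) h2 L2 B).X ω' 1 + τ * (ev p a l t (q - c1) h2 L2 B).Q ω' 1)| ≤ _
      rw [ev_X1, ev_X1]
      have := n2.2
      linarith
    · show |((ev p a l t (q - c1) h2 L2 B).X ω 2 + τ * (ev p a l t (q - c1) h2 L2 B).Q ω 2) -
        ((ev p a l t (q - c1) h2 L2 B).X ω' 2 + τ * (ev p a l t (q - c1) h2 L2 B).Q ω' 2)| ≤ _
      rw [ev_X2, ev_X2, ← mul_sub, abs_mul, abs_of_pos (by positivity : (0 : ℝ) < 2 ^ (q - c1))]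
      exact hg2
  have h5 := time_change hh (x := wt a (t ω)) (by positivity : 0 ≤ 2 * (2 ^ p * K0) + A) (hQ k) (hQ' k) key
  rw [← hr]
  refine h5.trans (mul_le_mul_of_nonneg_right ?_ (by positivity))
  have h6 := Nat.le_ceil (2 ^ (2 * p) * 3 * (cM c : ℝ) + 2 * (2 ^ p * K0) + 4)
  unfold cD
  linarith

/-! ### counting -/

theorem fl_le (p : ℕ) {x : ℝ} (h : |x| ≤ 1) : |((⌊(2 : ℝ) ^ p * x⌋ : ℤ) : ℝ) / 2 ^ p| ≤ 1 := by
  have h2 : (0 : ℝ) < 2 ^ p := by positivity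
  obtain ⟨h3, h4⟩ := abs_le.1 h
  rw [abs_div, abs_of_pos h2, div_le_one h2, abs_le]
  constructor
  · have : (-(2 : ℤ) ^ p) ≤ ⌊(2 : ℝ) ^ p * x⌋ := by
      rw [Int.le_floor]
      push_cast
      nlinarith
    have h5 : ((-(2 : ℤ) ^ p : ℤ) : ℝ) ≤ (⌊(2 : ℝ) ^ p * x⌋ : ℝ) := by exact_mod_cast this
    push_cast at h5
    exact h5
  · have := Int.floor_le ((2 : ℝ) ^ p * x)
    nlinarith

theorem bd_fl {ι β : Type} [Fintype ι] (s : ℕ) (v : Ω → ι → ℝ) (Y : Ω → β) {D : ℕ}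
    (h : ∀ ω, 0 < P.w ω → ∀ i, |v ω i| ≤ D) :
    Stk.hc P (fun ω => fl s (v ω)) Y ≤ Fintype.card ι * Real.log (2 * (2 * D * 2 ^ s : ℕ) + 3) := by
  refine Apx.hc_fl_apx P s (2 * D * 2 ^ s) v Y fun ω ω' hω hω' _ i => ?_
  have h1 := abs_le.1 (h ω hω i)
  have h2 := abs_le.1 (h ω' hω' i)
  have h3 : ((2 * D * 2 ^ s : ℕ) : ℝ) * (1 / 2) ^ s = 2 * D := by
    push_cast
    have : (2 : ℝ) ^ s * (1 / 2) ^ s = 1 := by rw [← mul_pow]; norm_num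
    linear_combination (2 * (D : ℝ)) * this
  rw [h3, abs_le]
  constructor <;> linarith

theorem bd_fl1 {β : Type} (s : ℕ) (v : Ω → ℝ) (Y : Ω → β) {D : ℕ} (h : ∀ ω, 0 < P.w ω → |v ω| ≤ D) :
    Stk.hc P (fun ω => fl1 s (v ω)) Y ≤ Real.log (2 * (2 * D * 2 ^ s : ℕ) + 3) := by
  refine Apx.hc_fl1_apx P s (2 * D * 2 ^ s) v Y fun ω ω' hω hω' _ => ?_
  have h1 := abs_le.1 (h ω hω)
  have h2 := abs_le.1 (h ω' hω')
  have h3 : ((2 * D * 2 ^ s : ℕ) : ℝ) * (1 / 2) ^ s = 2 * D := by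
    push_cast
    have : (2 : ℝ) ^ s * (1 / 2) ^ s = 1 := by rw [← mul_pow]; norm_num
    linear_combination (2 * (D : ℝ)) * this
  rw [h3, abs_le]
  constructor <;> linarith

/-- the constant of the cap -/
noncomputable def kC (p : ℕ) : ℝ :=
  2 * Real.log (2 * (2 * 1 * 2 ^ p : ℕ) + 3) + 2 * Real.log (2 * (2 * 1 * 2 ^ p : ℕ) + 3) +
    Real.log (2 * (2 * 6 * 2 ^ (2 * p) : ℕ) + 3)

/-- the number of caps is bounded -/
theorem hc_cap {β : Type} (p : ℕ) (r : Ω → Ry) (hr : ∀ ω, 0 < P.w ω → RyOk (r ω)) (Y : Ω → β) :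
    Stk.hc P (fun ω => cc p (r ω)) Y ≤ kC p := by
  set H : Ω → ℝ := fun ω => (r ω).z + ∑ k, (fl p (r ω).y k : ℝ) / 2 ^ p * ((r ω).s k - (fl p (r ω).s k : ℝ) / 2 ^ p)
    with hH
  have a1 := bd_fl (P := P) p (fun ω => (r ω).s) Y (D := 1) (fun ω hω i => by
    rw [Nat.cast_one]; exact (hr ω hω).2.1 i)
  have a2 := bd_fl (P := P) p (fun ω => (r ω).y) Y (D := 1) (fun ω hω i => by
    rw [Nat.cast_one]; exact (hr ω hω).1 i)
  have a3 := bd_fl1 (P := P) (2 * p) H Y (D := 6) (fun ω hω => by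
    obtain ⟨h1, h2, h3⟩ := hr ω hω
    have e1 : ∀ k, |(fl p (r ω).y k : ℝ) / 2 ^ p * ((r ω).s k - (fl p (r ω).s k : ℝ) / 2 ^ p)| ≤ 1 := fun k => by
      rw [abs_mul]
      refine mul_le_one₀ (fl_le p (h1 k)) (abs_nonneg _) ?_
      exact (H127.round_close p ((r ω).s k)).trans (pow_le_one₀ (by norm_num) (by norm_num))
    have g0 := abs_le.1 (e1 0)
    have g1 := abs_le.1 (e1 1)
    have g2 := abs_le.1 h3
    simp only [hH]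
    rw [Fin.sum_univ_two, abs_le]
    push_cast
    constructor <;> linarith)
  rw [Fintype.card_fin] at a1 a2
  have b1 : Stk.hc P (fun ω => cc p (r ω)) Y ≤
      Stk.hc P (fun ω => (fl p (r ω).s, (fl p (r ω).y, fl1 (2 * p) (H ω)))) Y := by
    refine Stk.hc_mono_left P fun ω ω' _ _ e => ?_
    simp only [Prod.mk.injEq] at e
    obtain ⟨⟨e1, e2, e3⟩, -⟩ := e
    refine Ry.ext' (fun k => ?_) (fun k => ?_) ?_
    · show (fl p (r ω).y k : ℝ) / 2 ^ p = (fl p (r ω').y k : ℝ) / 2 ^ p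
      rw [e2]
    · show (fl p (r ω).s k : ℝ) / 2 ^ p = (fl p (r ω').s k : ℝ) / 2 ^ p
      rw [e1]
    · show (fl1 (2 * p) (H ω) : ℝ) / 2 ^ (2 * p) = (fl1 (2 * p) (H ω') : ℝ) / 2 ^ (2 * p)
      rw [e3]
  have b2 := Apx.hc_pair_le P (fun ω => fl p (r ω).s) (fun ω => (fl p (r ω).y, fl1 (2 * p) (H ω))) Y
  have b3 := Apx.hc_pair_le P (fun ω => fl p (r ω).y) (fun ω => fl1 (2 * p) (H ω)) Y
  push_cast at a1 a2 a3
  unfold kC
  push_cast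
  linarith

/-- the constant of the three digits -/
noncomputable def kD : ℝ := 5 * Real.log (2 * (2 * 1 * 2 ^ 3 : ℕ) + 3)

theorem hc_d2 {β : Type} (Y : Ω → β) : Stk.hc P (fun ω => d2 p a l t ω) Y ≤ kD := by
  have a1 := bd_fl (P := P) 3 (fun ω => (r2 p a l t ω).s) Y (D := 1) (fun ω _ i => by
    rw [Nat.cast_one]; exact (cp_ok p (wR a (l ω) (t ω))).2.1 i)
  have a2 := bd_fl (P := P) 3 (fun ω => (r2 p a l t ω).y) Y (D := 1) (fun ω _ i => by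
    rw [Nat.cast_one]; exact (cp_ok p (wR a (l ω) (t ω))).1 i)
  have a3 := bd_fl1 (P := P) 3 (fun ω => (r2 p a l t ω).z) Y (D := 1) (fun ω _ => by
    rw [Nat.cast_one]; exact cp_z p (wR a (l ω) (t ω)))
  rw [Fintype.card_fin] at a1 a2
  have b1 : Stk.hc P (fun ω => d2 p a l t ω) Y =
      Stk.hc P (fun ω => (fl 3 (r2 p a l t ω).y, (fl 3 (r2 p a l t ω).s, fl1 3 (r2 p a l t ω).z))) Y := rfl
  have b2 := Apx.hc_pair_le P (fun ω => fl 3 (r2 p a l t ω).y)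
    (fun ω => (fl 3 (r2 p a l t ω).s, fl1 3 (r2 p a l t ω).z)) Y
  have b3 := Apx.hc_pair_le P (fun ω => fl 3 (r2 p a l t ω).s) (fun ω => fl1 3 (r2 p a l t ω).z) Y
  push_cast at a1 a2 a3
  unfold kD
  push_cast
  linarith

variable {W : Ω → Cbx} {w : ℕ}

/-- the letter costs a constant and the entropy of the slab -/
theorem hc_k3 (hc : 0 ≤ c) (hsy : SyOk P l t) (hW : ∀ ω, 0 < P.w ω → LbOk c L (a + w) (W ω) (l ω) (t ω)) :
    Stk.hc P (fun ω => k3 p a l t C S ω) (fun ω => (W ω, fl1 (a + w) (t ω), C ω)) ≤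
      Stk.hc P S (fun ω => (W ω, fl1 (a + w) (t ω), C ω)) + (3 * Real.log (2 * cM c + 3) + kC p + kD) := by
  set Y : Ω → Cbx × ℤ × γ := fun ω => (W ω, fl1 (a + w) (t ω), C ω) with hY
  have h1 := H416.hc_cell (P := P) (l := l) (t := t) (L := L) (a := a) (w := w) (W := W) hc
    (fun ω hω => (hsy ω hω).1.2.1) hW Y (fun _ _ _ _ e => congrArg Prod.fst e)
    (fun _ _ _ _ e => congrArg (fun z => z.2.1) e)
  have h2 := hc_cap (P := P) p (fun ω => wR a (l ω) (t ω)) (fun ω hω => H416.ryOk_wR (hsy ω hω).1.2.1) Y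
  have h3 := hc_d2 (P := P) (p := p) (a := a) (l := l) (t := t) Y
  have b1 : Stk.hc P (fun ω => k3 p a l t C S ω) Y ≤
      Stk.hc P (fun ω => (((wo a (l ω) (t ω), wh a (l ω) (t ω)), cc p (wR a (l ω) (t ω))), (S ω, d2 p a l t ω))) Y := by
    refine Stk.hc_mono_left P fun ω ω' _ _ e => ?_
    simp only [Prod.mk.injEq, hY] at e
    obtain ⟨⟨⟨⟨e1, e2⟩, e3⟩, e4, e5⟩, e6, e7, e8⟩ := e
    simp only [k3, k2, wC, Prod.mk.injEq]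
    exact ⟨⟨⟨e8, Apx.fl1_of_fl1 (Nat.le_add_right a w) e7, e1, e2⟩, e3⟩, e4, e5⟩
  have b2 := Apx.hc_pair_le P (fun ω => ((wo a (l ω) (t ω), wh a (l ω) (t ω)), cc p (wR a (l ω) (t ω))))
    (fun ω => (S ω, d2 p a l t ω)) Y
  have b3 := Apx.hc_pair_le P (fun ω => (wo a (l ω) (t ω), wh a (l ω) (t ω))) (fun ω => cc p (wR a (l ω) (t ω))) Y
  have b4 := Apx.hc_pair_le P S (fun ω => d2 p a l t ω) Y
  linarith

/-- the state costs a constant -/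
theorem hc_st (hc : 0 ≤ c) {K0 : ℝ} (hK0 : 0 ≤ K0) {h2 L2 : ℕ} (hh : h2 ≤ w) (hsy : SyOk P l t)
    (hW : ∀ ω, 0 < P.w ω → LbOk c L (a + w) (W ω) (l ω) (t ω) ∧ (W ω).u2 = 1)
    {B0 : ((γ × ℤ × (Fin 2 → ℤ) × ℤ) × Ry) × Cbx × (Fin 2 → ℤ) × (Fin 2 → ℤ) × ℤ → Cbx}
    (hB : ∀ z, (∃ ω, 0 < P.w ω ∧ k3 p a l t C S ω = z) → Good P p a q c1 l t C S z (B0 z))
    (hg : ∀ ω ω', 0 < P.w ω → 0 < P.w ω' → W ω = W ω' → fl1 (a + w) (t ω) = fl1 (a + w) (t ω') → C ω = C ω' → S ω = S ω' →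
      |gS (S ω) (l ω) (t ω) a (a + w) - gS (S ω) (l ω') (t ω') a (a + w)| ≤ K0 * (1 / 2 : ℝ) ^ (w + q)) :
    Stk.hc P (fun ω => (ev p a l t (q - c1) h2 L2 (B0 (k3 p a l t C S ω))).Zh h2 ω)
      (fun ω => (k3 p a l t C S ω, (W ω, fl1 (a + w) (t ω), C ω))) ≤ 3 * Real.log (2 * cD c K0 p + 3) := by
  set Y : Ω → _ := fun ω => (k3 p a l t C S ω, ((W ω, fl1 (a + w) (t ω), C ω) : Cbx × ℤ × γ)) with hY
  set v : Ω → Fin 3 → ℝ := fun ω k => (ev p a l t (q - c1) h2 L2 (B0 (k3 p a l t C S ω))).X ω k +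
    rd h2 (wt a (t ω)) * (ev p a l t (q - c1) h2 L2 (B0 (k3 p a l t C S ω))).Q ω k with hv
  have h1 : Stk.hc P (fun ω => (ev p a l t (q - c1) h2 L2 (B0 (k3 p a l t C S ω))).Zh h2 ω) Y ≤
      Stk.hc P (fun ω => fl h2 (v ω)) Y := by
    refine Stk.hc_mono_left P fun ω ω' _ _ e => ?_
    simp only [Prod.mk.injEq, hY] at e
    obtain ⟨e1, e2, e3, e4, e5⟩ := e
    obtain ⟨-, kt, -⟩ := k3_fn e2
    have e6 : fl1 w (wt a (t ω)) = fl1 w (wt a (t ω')) := by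
      rw [H416.fl1_wt, H416.fl1_wt, e4, kt]
    exact Prod.ext (Apx.fl1_of_fl1 hh e6) e1
  have h2 := Apx.hc_fl_apx P h2 (cD c K0 p) v Y (fun ω ω' hω hω' e i => by
    simp only [Prod.mk.injEq, hY] at e
    obtain ⟨e2, e3, e4, e5⟩ := e
    have kS := (k3_fn e2).2.2.2.2.2.1
    have hBz := hB (k3 p a l t C S ω) ⟨ω, hω, rfl⟩
    have hWω' := (hW ω' hω').1.inn
    rw [← e3] at hWω'
    have := dig (L2 := L2) hc hK0 hh hsy hω hω' (hW ω hω).2 (hW ω hω).1.inn hWω' e4 rfl e2.symm hBz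
      (hg ω ω' hω hω' e3 e4 e5 kS) i
    simp only [hv]
    rw [← e2]
    exact this)
  rw [Fintype.card_fin] at h2
  push_cast at h2
  exact h1.trans h2

end sys

end Vale.Agent.P106.U.H523
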