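import Vale.Agent.P106.U.H523.TailDefs
import Vale.Agent.P106.U.H127.NEx
import Vale.Agent.P106.U.H416.WinX
import Vale.Agent.P106.U.H459.End7Defs

/-!
# P106 / U / H523 : the end of the path, geometry

* `slab_exists` : a thin slab with small frame, recentred at one of its rays (normal of length `1`), thickness `2^-(q - c1)`.
* `g_tr`, `g_zoom` : the functional of a box in the coordinates of a cell and of a cap.
* `dig` : time, position and value of the functional at the time `t_h` are known up to `M 2^-h` given the label.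
-/

set_option autoImplicit false

namespace Vale.Agent.P106.U.H523

open Vale.Agent.P127 Vale.Agent.P127.Stk Vale.Agent.P127.U Vale.Agent.P106.W Vale.Agent.P106.K Vale.Agent.P106.U
open Vale.Agent.P106.U.End7 Vale.Agent.P127.U.CellD
open Vale.Agent.P122.C2 (fn fw)

/-- recentring, exact -/
theorem rec_g {B : Cbx} {p' v' : Fin 2 → ℝ} {L θ' : ℝ} (hL : L ≠ 0) (n0 : B.nn p' v' 0 = -(L * Real.sin θ'))
    (n1 : B.nn p' v' 1 = L * Real.cos θ') (ω' u1 u2 : ℝ) (y s : Fin 2 → ℝ) (z : ℝ) :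
    L * (Cbx.mk θ' u1 u2 (B.κ / L) (B.α / L) p' v' ω').g0 y s z = B.g0 y s z - B.g0 p' v' ω' ∧
      L * (Cbx.mk θ' u1 u2 (B.κ / L) (B.α / L) p' v' ω').g1 y s z = B.g1 y s z - B.g1 p' v' ω' := by
  constructor
  · rw [B.g0_rec p' v' y s ω' z]
    unfold Cbx.g0
    simp only [Fin.sum_univ_two, n0, n1, fn, Pi.sub_apply]
    field_simp
    ring
  · rw [B.g1_rec p' v' y s ω' z]
    unfold Cbx.g1
    simp only [Fin.sum_univ_two, n0, n1, fn, Pi.sub_apply]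
    field_simp
    ring

/-- the length of the new normal -/
theorem rec_len {B : Cbx} {p' v' : Fin 2 → ℝ} {ω' : ℝ} (h0 : |B.κ * B.g1 p' v' ω'| ≤ 1 / 8)
    (h1 : |B.α * B.g0 p' v' ω'| ≤ 1 / 8) :
    ∃ L θ' : ℝ, 1 / 2 ≤ L ∧ L ≤ 2 ∧ B.nn p' v' 0 = -(L * Real.sin θ') ∧ B.nn p' v' 1 = L * Real.cos θ' := by
  have h := B.nn_sq p' v' ω'
  set X := B.nn p' v' 0 ^ 2 + B.nn p' v' 1 ^ 2 with hX
  have a0 := abs_le.1 h0
  have a1 := abs_le.1 h1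
  have hX1 : 1 / 4 ≤ X := by
    rw [h]
    linarith
  have hX2 : X ≤ 4 := by
    rw [h]
    linarith
  have hL : Real.sqrt X ^ 2 = X := Real.sq_sqrt (by linarith)
  have hL0 : 1 / 2 ≤ Real.sqrt X := Real.le_sqrt_of_sq_le (by linarith)
  have hL1 : Real.sqrt X ≤ 2 := Real.sqrt_le_iff.2 ⟨by norm_num, by linarith⟩
  set L := Real.sqrt X with hLd
  have hLne : L ≠ 0 := by linarith [hL0] |> fun h : (0 : ℝ) < L => h.ne'
  obtain ⟨θ', c1, c2⟩ := exists_angle (x := B.nn p' v' 1 / L) (y := -B.nn p' v' 0 / L) (by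
    have : B.nn p' v' 1 ^ 2 + B.nn p' v' 0 ^ 2 = L ^ 2 := by rw [hL, hX]; ring
    field_simp
    linarith)
  refine ⟨L, θ', hL0, hL1, ?_, ?_⟩
  · rw [c2]
    field_simp
  · rw [c1]
    field_simp

theorem half_sub {q c1 : ℕ} (h : c1 ≤ q) : (1 / 2 : ℝ) ^ (q - c1) = 2 ^ c1 * (1 / 2 : ℝ) ^ q := by
  obtain ⟨x, rfl⟩ := Nat.exists_eq_add_of_le h
  rw [Nat.add_sub_cancel_left, pow_add, ← mul_assoc, ← mul_pow]
  norm_num

theorem two_sub_le (q c1 : ℕ) : (2 : ℝ) ^ (q - c1) ≤ 2 ^ q :=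
  pow_le_pow_right₀ (by norm_num) (Nat.sub_le _ _)

/-- the constant slab around the ray `ρ` -/
theorem slab_exists {E : ℝ} {c1 q : ℕ} (hE : 4 * E ≤ 2 ^ c1) (hE0 : 0 ≤ E) {B : Cbx} {ρ : Ry} (hκ : |B.κ| ≤ 1 / 16)
    (hα : |B.α| ≤ 1 / 16) (hρ0 : |B.g0 ρ.y ρ.s ρ.z| ≤ E * (1 / 2) ^ q) (hρ1 : |B.g1 ρ.y ρ.s ρ.z| ≤ E * (1 / 2) ^ q) :
    ∃ B0 : Cbx, B0.u2 = 1 ∧ B0.u1 = (1 / 2 : ℝ) ^ (q - c1) ∧ |B0.α| ≤ 1 / 8 ∧ |B0.κ| ≤ 1 / 8 ∧ B0.p = ρ.y ∧ B0.v = ρ.s ∧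
      (∀ l : Ry, (∀ k, |l.y k - ρ.y k| ≤ 1 / 8) → (∀ k, |l.s k - ρ.s k| ≤ 1 / 8) → |l.z - ρ.z| ≤ 1 / 8 →
        (∀ k, |l.y k| ≤ 1) → |B.g0 l.y l.s l.z| ≤ E * (1 / 2) ^ q → |B.g1 l.y l.s l.z| ≤ E * (1 / 2) ^ q →
        B0.In 0 l.y l.s l.z) ∧
      ∀ (l l' : Ry) (τ : ℝ), 2 ^ (q - c1) * |(B0.g0 l.y l.s l.z + τ * B0.g1 l.y l.s l.z) -
          (B0.g0 l'.y l'.s l'.z + τ * B0.g1 l'.y l'.s l'.z)| ≤
        2 * 2 ^ q * |(B.g0 l.y l.s l.z + τ * B.g1 l.y l.s l.z) - (B.g0 l'.y l'.s l'.z + τ * B.g1 l'.y l'.s l'.z)| +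
          |(l.y 1 + τ * l.s 1) - (l'.y 1 + τ * l'.s 1)| := by
  rcases Nat.lt_or_ge q c1 with hq | hq
  · have e0 : q - c1 = 0 := by omega
    rw [e0]
    refine ⟨⟨0, 1, 1, 0, 0, ρ.y, ρ.s, ρ.z⟩, rfl, by norm_num, by norm_num, by norm_num, rfl, rfl, ?_, ?_⟩
    · intro l hy hs hz hy1 _ _
      rw [Cbx.in_iff]
      refine ⟨fun k => (hy k).trans (by norm_num), fun k => (hs k).trans (by norm_num), ?_, ?_, ?_⟩
      · show |l.z + ∑ k, l.y k * (l.s k - ρ.s k) - ρ.z| ≤ max ((1 : ℝ) ^ 2) 0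
        have e1 : ∀ k, |l.y k * (l.s k - ρ.s k)| ≤ 1 / 8 := fun k => by
          rw [abs_mul]
          have := mul_le_mul (hy1 k) (hs k) (abs_nonneg _) (by norm_num : (0 : ℝ) ≤ 1)
          linarith
        have e2 := abs_le.1 (e1 0)
        have e3 := abs_le.1 (e1 1)
        have e4 := abs_le.1 hz
        have e5 : max ((1 : ℝ) ^ 2) 0 = 1 := by norm_num
        rw [e5, Fin.sum_univ_two, abs_le]
        constructor <;> linarith
      · have e1 : (⟨0, 1, 1, 0, 0, ρ.y, ρ.s, ρ.z⟩ : Cbx).g0 l.y l.s l.z = l.y 1 - ρ.y 1 := by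
          simp [Cbx.g0, fn]
        rw [e1]
        exact (hy 1).trans (by norm_num)
      · have e1 : (⟨0, 1, 1, 0, 0, ρ.y, ρ.s, ρ.z⟩ : Cbx).g1 l.y l.s l.z = l.s 1 - ρ.s 1 := by
          simp [Cbx.g1, fn]
        rw [e1]
        exact (hs 1).trans (by norm_num)
    · intro l l' τ
      have e1 : ∀ m : Ry, (⟨0, 1, 1, 0, 0, ρ.y, ρ.s, ρ.z⟩ : Cbx).g0 m.y m.s m.z = m.y 1 - ρ.y 1 := fun m => by
        simp [Cbx.g0, fn]
      have e2 : ∀ m : Ry, (⟨0, 1, 1, 0, 0, ρ.y, ρ.s, ρ.z⟩ : Cbx).g1 m.y m.s m.z = m.s 1 - ρ.s 1 := fun m => by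
        simp [Cbx.g1, fn]
      rw [e1, e1, e2, e2]
      have e3 : (l.y 1 - ρ.y 1 + τ * (l.s 1 - ρ.s 1)) - (l'.y 1 - ρ.y 1 + τ * (l'.s 1 - ρ.s 1)) =
          (l.y 1 + τ * l.s 1) - (l'.y 1 + τ * l'.s 1) := by ring
      rw [e3, pow_zero, one_mul]
      have := abs_nonneg ((B.g0 l.y l.s l.z + τ * B.g1 l.y l.s l.z) - (B.g0 l'.y l'.s l'.z + τ * B.g1 l'.y l'.s l'.z))
      have h2 : (0 : ℝ) ≤ 2 * 2 ^ q := by positivity
      nlinarith
  · have hEq : E * (1 / 2) ^ q ≤ 1 / 4 := by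
      have h1 := half_sub hq
      have h2 : (1 / 2 : ℝ) ^ (q - c1) ≤ 1 := pow_le_one₀ (by norm_num) (by norm_num)
      have h3 : (0 : ℝ) ≤ (1 / 2) ^ q := by positivity
      nlinarith
    have hE1 : 0 ≤ E * (1 / 2 : ℝ) ^ q := by positivity
    obtain ⟨L, θ', hL0, hL1, n0, n1⟩ := rec_len (B := B) (p' := ρ.y) (v' := ρ.s) (ω' := ρ.z) (by
      rw [abs_mul]
      have := mul_le_mul hκ (hρ1.trans hEq) (abs_nonneg _) (by norm_num : (0 : ℝ) ≤ 1 / 16)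
      linarith) (by
      rw [abs_mul]
      have := mul_le_mul hα (hρ0.trans hEq) (abs_nonneg _) (by norm_num : (0 : ℝ) ≤ 1 / 16)
      linarith)
    have hLp : 0 < L := by linarith
    set B0 : Cbx := ⟨θ', (1 / 2) ^ (q - c1), 1, B.κ / L, B.α / L, ρ.y, ρ.s, ρ.z⟩ with hB0
    have rg := fun l : Ry => rec_g hLp.ne' n0 n1 ρ.z ((1 / 2) ^ (q - c1)) 1 l.y l.s l.z
    have hg0 : ∀ l : Ry, B0.g0 l.y l.s l.z = (B.g0 l.y l.s l.z - B.g0 ρ.y ρ.s ρ.z) / L := fun l => by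
      rw [eq_div_iff hLp.ne', mul_comm]
      exact (rg l).1
    have hg1 : ∀ l : Ry, B0.g1 l.y l.s l.z = (B.g1 l.y l.s l.z - B.g1 ρ.y ρ.s ρ.z) / L := fun l => by
      rw [eq_div_iff hLp.ne', mul_comm]
      exact (rg l).2
    have hdiv : ∀ x : ℝ, |x / L| ≤ 2 * |x| := fun x => by
      rw [abs_div, abs_of_pos hLp, div_le_iff₀ hLp]
      nlinarith [abs_nonneg x]
    refine ⟨B0, rfl, rfl, ?_, ?_, rfl, rfl, ?_, ?_⟩
    · exact (hdiv _).trans (by linarith)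
    · exact (hdiv _).trans (by linarith)
    · intro l hy hs hz hy1 hl0 hl1
      rw [Cbx.in_iff]
      refine ⟨fun k => (hy k).trans (by norm_num), fun k => (hs k).trans (by norm_num), ?_, ?_, ?_⟩
      · show |l.z + ∑ k, l.y k * (l.s k - ρ.s k) - ρ.z| ≤ max ((1 : ℝ) ^ 2) 0
        have e1 : ∀ k, |l.y k * (l.s k - ρ.s k)| ≤ 1 / 8 := fun k => by
          rw [abs_mul]
          have := mul_le_mul (hy1 k) (hs k) (abs_nonneg _) (by norm_num : (0 : ℝ) ≤ 1)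
          linarith
        have e2 := abs_le.1 (e1 0)
        have e3 := abs_le.1 (e1 1)
        have e4 := abs_le.1 hz
        have e5 : max ((1 : ℝ) ^ 2) 0 = 1 := by norm_num
        rw [e5, Fin.sum_univ_two, abs_le]
        constructor <;> linarith
      · rw [hg0]
        refine (hdiv _).trans ?_
        show _ ≤ (1 / 2 : ℝ) ^ (q - c1)
        rw [half_sub hq]
        have h1 := abs_sub (B.g0 l.y l.s l.z) (B.g0 ρ.y ρ.s ρ.z)
        have h3 : (0 : ℝ) ≤ (1 / 2) ^ q := by positivity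
        nlinarith
      · rw [hg1]
        refine (hdiv _).trans ?_
        show _ ≤ (1 / 2 : ℝ) ^ (q - c1)
        rw [half_sub hq]
        have h1 := abs_sub (B.g1 l.y l.s l.z) (B.g1 ρ.y ρ.s ρ.z)
        have h3 : (0 : ℝ) ≤ (1 / 2) ^ q := by positivity
        nlinarith
    · intro l l' τ
      rw [hg0, hg0, hg1, hg1]
      have e : (B.g0 l.y l.s l.z - B.g0 ρ.y ρ.s ρ.z) / L + τ * ((B.g1 l.y l.s l.z - B.g1 ρ.y ρ.s ρ.z) / L) -
          ((B.g0 l'.y l'.s l'.z - B.g0 ρ.y ρ.s ρ.z) / L + τ * ((B.g1 l'.y l'.s l'.z - B.g1 ρ.y ρ.s ρ.z) / L)) =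
          ((B.g0 l.y l.s l.z + τ * B.g1 l.y l.s l.z) - (B.g0 l'.y l'.s l'.z + τ * B.g1 l'.y l'.s l'.z)) / L := by
        field_simp
        ring
      rw [e]
      have h1 := hdiv ((B.g0 l.y l.s l.z + τ * B.g1 l.y l.s l.z) - (B.g0 l'.y l'.s l'.z + τ * B.g1 l'.y l'.s l'.z))
      have h2 := two_sub_le q c1
      have h3 := mul_le_mul h2 h1 (abs_nonneg _) (by positivity)
      have h4 := abs_nonneg ((l.y 1 + τ * l.s 1) - (l'.y 1 + τ * l'.s 1))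
      linarith

/-! ### the functional in the coordinates of a cell and of a cap -/

/-- value of the functional of a box on a ray at the time `τ` -/
noncomputable def gv (B : Cbx) (l : Ry) (τ : ℝ) : ℝ := B.g0 l.y l.s l.z + τ * B.g1 l.y l.s l.z

theorem g_tr (o : Fin 2 → ℝ) (o0 : ℝ) (B : Cbx) (l : Ry) (τ : ℝ) :
    gv (H416.trB o o0 B) (H416.trR o o0 l) τ = gv B l τ := by
  unfold gv Cbx.g0 Cbx.g1 H416.trB H416.trR
  simp only [Fin.sum_univ_two, fn, Pi.sub_apply]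
  ring

theorem g_zoom (p : ℕ) (l₀ l : Ry) (B : Cbx) (τ : ℝ) : gv (zmB p l₀ B) (zm p l₀ l) τ = 2 ^ p * gv B l τ := by
  have h0 : (zmB p l₀ B).g0 (zm p l₀ l).y (zm p l₀ l).s (zm p l₀ l).z = 2 ^ p * B.g0 l.y l.s l.z := g0_zm p l₀ l B
  have h1 : (zmB p l₀ B).g1 (zm p l₀ l).y (zm p l₀ l).s (zm p l₀ l).z = 2 ^ p * B.g1 l.y l.s l.z := g1_zm p l₀ l B
  unfold gv
  rw [h0, h1]
  ring

/-- the height of a ray in a cap -/
theorem hgt_zm (p : ℕ) (l₀ l : Ry) (τ : ℝ) : (zm p l₀ l).hgt τ =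
    2 ^ (2 * p) * (l.hgt τ - ∑ k, (l.y k + τ * l.s k) * l₀.s k - l₀.z + τ * (∑ k, l₀.s k ^ 2) / 2) := by
  unfold Ry.hgt
  simp only [zm_y, zm_s, zm_z, Fin.sum_univ_two, pp]
  ring

theorem pos_zm (p : ℕ) (l₀ l : Ry) (τ : ℝ) (k : Fin 2) : (zm p l₀ l).y k + τ * (zm p l₀ l).s k =
    2 ^ p * ((l.y k + τ * l.s k) - (l₀.y k + τ * l₀.s k)) := by
  simp only [zm_y, zm_s]
  ring

/-- the height at the beginning of a block -/
theorem hgt_bl (w : ℕ) (l : Ry) (t : ℝ) :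
    (bl w l t).z + ∑ k, (bl w l t).y k * (bl w l t).s k = 2 ^ w * l.hgt (qa w t) := by
  unfold bl Ry.hgt Ry.pos
  simp only [Fin.sum_univ_two]
  ring

theorem hgt_tr (o : Fin 2 → ℝ) (o0 : ℝ) (l : Ry) :
    (H416.trR o o0 l).z + ∑ k, (H416.trR o o0 l).y k * (H416.trR o o0 l).s k = (l.z + ∑ k, l.y k * l.s k) - o0 := by
  unfold H416.trR
  simp only [Fin.sum_univ_two]
  ring

section near

variable {a w : ℕ} {l l' : Ry} {t t' : ℝ}

open Vale.Agent.P106.U.H416 (wR wt wo wh cM cM_le cell_near bl_wR)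

theorem win_pos (ho : wo a l t = wo a l' t') (ht : fl1 (a + w) t = fl1 (a + w) t') (k : Fin 2) :
    2 ^ w * (((wR a l t).y k + qa w (wt a t) * (wR a l t).s k) - ((wR a l' t').y k + qa w (wt a t) * (wR a l' t').s k)) =
      (bl (a + w) l t).y k - (bl (a + w) l' t').y k := by
  have hq : qa w (wt a t) = qa w (wt a t') := by
    rw [H416.qa_wt, H416.qa_wt, Apx.qa_congr ht, Apx.qa_congr (Apx.fl1_of_fl1 (Nat.le_add_right a w) ht)]
  have e1 : (bl w (wR a l t) (wt a t)).y k = 2 ^ w * ((wR a l t).y k + qa w (wt a t) * (wR a l t).s k) := rfl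
  have e2 : (bl w (wR a l' t') (wt a t')).y k = 2 ^ w * ((wR a l' t').y k + qa w (wt a t') * (wR a l' t').s k) := rfl
  have e3 : (bl w (wR a l t) (wt a t)).y k = (bl (a + w) l t).y k - 2 ^ w * (wo a l t k : ℝ) := by
    rw [bl_wR]; rfl
  have e4 : (bl w (wR a l' t') (wt a t')).y k = (bl (a + w) l' t').y k - 2 ^ w * (wo a l' t' k : ℝ) := by
    rw [bl_wR]; rfl
  rw [mul_sub, ← e1, hq, ← e2, e3, e4, ho]
  ring

theorem win_hgt (hh : wh a l t = wh a l' t') (ht : fl1 (a + w) t = fl1 (a + w) t') :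
    2 ^ w * ((wR a l t).hgt (qa w (wt a t)) - (wR a l' t').hgt (qa w (wt a t))) =
      ((bl (a + w) l t).z + ∑ k, (bl (a + w) l t).y k * (bl (a + w) l t).s k) -
        ((bl (a + w) l' t').z + ∑ k, (bl (a + w) l' t').y k * (bl (a + w) l' t').s k) := by
  have hq : qa w (wt a t) = qa w (wt a t') := by
    rw [H416.qa_wt, H416.qa_wt, Apx.qa_congr ht, Apx.qa_congr (Apx.fl1_of_fl1 (Nat.le_add_right a w) ht)]
  rw [mul_sub, ← hgt_bl, hq, ← hgt_bl, bl_wR, bl_wR, hgt_tr, hgt_tr, hh]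
  ring

/-- the position and the height in the window at the time `t_(a+w)` are known up to `cM 2^-w` -/
theorem near {c : ℝ} (hc : 0 ≤ c) {B : Cbx} (hs : ∀ k, |l.s k| ≤ 1) (hs' : ∀ k, |l'.s k| ≤ 1) (hu0 : 0 ≤ B.u2)
    (hu : B.u2 ≤ 1) (h : Bin c B 0 (bl (a + w) l t)) (h' : Bin c B 0 (bl (a + w) l' t'))
    (ht : fl1 (a + w) t = fl1 (a + w) t') (ho : wo a l t = wo a l' t') (hh : wh a l t = wh a l' t') :
    (∀ k, |((wR a l t).y k + qa w (wt a t) * (wR a l t).s k) - ((wR a l' t').y k + qa w (wt a t) * (wR a l' t').s k)| ≤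
      cM c * (1 / 2 : ℝ) ^ w) ∧
    |(wR a l t).hgt (qa w (wt a t)) - (wR a l' t').hgt (qa w (wt a t))| ≤ cM c * (1 / 2 : ℝ) ^ w := by
  have hn := cell_near (a := a + w) (w := 0) hc hs hs' hu0 hu h h' ht
  have hM := cM_le hc
  have h2 : (0 : ℝ) < 2 ^ w := by positivity
  have h3 : (1 / 2 : ℝ) ^ w = (2 ^ w)⁻¹ := by rw [one_div, inv_pow]
  have key : ∀ x y : ℝ, 2 ^ w * x = y → |y| ≤ cM c → |x| ≤ cM c * (1 / 2 : ℝ) ^ w := by
    intro x y e hy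
    rw [h3, ← div_eq_mul_inv, le_div_iff₀ h2, mul_comm, ← abs_of_pos h2, ← abs_mul, e]
    exact hy
  exact ⟨fun k => key _ _ (win_pos ho ht k) ((hn.1 k).trans hM.1), key _ _ (win_hgt hh ht) (hn.2.trans hM.2)⟩

/-- the same in the cap -/
theorem near_cap {M : ℝ} (hM : 0 ≤ M) {l l' l₀ : Ry} {τ δ : ℝ} (hδ : 0 ≤ δ) (p : ℕ) (hs : ∀ k, |l₀.s k| ≤ 1)
    (h1 : ∀ k, |(l.y k + τ * l.s k) - (l'.y k + τ * l'.s k)| ≤ M * δ) (h2 : |l.hgt τ - l'.hgt τ| ≤ M * δ) :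
    (∀ k, |((zm p l₀ l).y k + τ * (zm p l₀ l).s k) - ((zm p l₀ l').y k + τ * (zm p l₀ l').s k)| ≤ 2 ^ (2 * p) * 3 * M * δ) ∧
    |(zm p l₀ l).hgt τ - (zm p l₀ l').hgt τ| ≤ 2 ^ (2 * p) * 3 * M * δ := by
  have hp : (1 : ℝ) ≤ 2 ^ p := one_le_pow₀ (by norm_num)
  have hMδ : 0 ≤ M * δ := mul_nonneg hM hδ
  constructor
  · intro k
    rw [pos_zm, pos_zm]
    have e : 2 ^ p * ((l.y k + τ * l.s k) - (l₀.y k + τ * l₀.s k)) - 2 ^ p * ((l'.y k + τ * l'.s k) - (l₀.y k + τ * l₀.s k)) =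
        2 ^ p * ((l.y k + τ * l.s k) - (l'.y k + τ * l'.s k)) := by ring
    rw [e, abs_mul, abs_of_pos (by positivity : (0 : ℝ) < 2 ^ p), pp]
    have h3 := mul_le_mul_of_nonneg_left (h1 k) (by positivity : (0 : ℝ) ≤ 2 ^ p)
    have h4 : (2 : ℝ) ^ p * (M * δ) ≤ 2 ^ p * 2 ^ p * (M * δ) := by
      refine mul_le_mul_of_nonneg_right ?_ hMδ
      nlinarith
    have h5 : 0 ≤ (2 : ℝ) ^ p * 2 ^ p * (M * δ) := by positivity
    nlinarith
  · rw [hgt_zm, hgt_zm]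
    have e : 2 ^ (2 * p) * (l.hgt τ - ∑ k, (l.y k + τ * l.s k) * l₀.s k - l₀.z + τ * (∑ k, l₀.s k ^ 2) / 2) -
        2 ^ (2 * p) * (l'.hgt τ - ∑ k, (l'.y k + τ * l'.s k) * l₀.s k - l₀.z + τ * (∑ k, l₀.s k ^ 2) / 2) =
        2 ^ (2 * p) * ((l.hgt τ - l'.hgt τ) - ∑ k, ((l.y k + τ * l.s k) - (l'.y k + τ * l'.s k)) * l₀.s k) := by
      simp only [Fin.sum_univ_two]
      ring
    rw [e, abs_mul, abs_of_pos (by positivity : (0 : ℝ) < 2 ^ (2 * p))]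
    have h3 : ∀ k, |((l.y k + τ * l.s k) - (l'.y k + τ * l'.s k)) * l₀.s k| ≤ M * δ := fun k => by
      rw [abs_mul]
      have := mul_le_mul (h1 k) (hs k) (abs_nonneg _) hMδ
      linarith
    have h4 : |(l.hgt τ - l'.hgt τ) - ∑ k, ((l.y k + τ * l.s k) - (l'.y k + τ * l'.s k)) * l₀.s k| ≤ 3 * (M * δ) := by
      rw [Fin.sum_univ_two]
      have a1 := abs_le.1 (h3 0)
      have a2 := abs_le.1 (h3 1)
      have a3 := abs_le.1 h2
      rw [abs_le]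
      constructor <;> linarith
    calc 2 ^ (2 * p) * |(l.hgt τ - l'.hgt τ) - ∑ k, ((l.y k + τ * l.s k) - (l'.y k + τ * l'.s k)) * l₀.s k| ≤
          2 ^ (2 * p) * (3 * (M * δ)) := mul_le_mul_of_nonneg_left h4 (by positivity)
      _ = _ := by ring

end near

theorem rd_near {h2 w : ℕ} (h : h2 ≤ w) (x : ℝ) : |qa w x - rd h2 x| ≤ 2 * (1 / 2 : ℝ) ^ h2 := by
  have h1 := H127.round_close w x
  have h3 := H127.round_close h2 x
  have h4 : (1 / 2 : ℝ) ^ w ≤ (1 / 2 : ℝ) ^ h2 := pow_le_pow_of_le_one (by norm_num) (by norm_num) h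
  have a1 := abs_le.1 h1
  have a3 := abs_le.1 h3
  unfold qa rd
  rw [abs_le]
  constructor <;> linarith

/-- change of the time -/
theorem time_change {h2 w : ℕ} (h : h2 ≤ w) {x t v t' v' A : ℝ} (hA : 0 ≤ A) (hv : |v| ≤ 1) (hv' : |v'| ≤ 1)
    (h1 : |(t + qa w x * v) - (t' + qa w x * v')| ≤ A * (1 / 2 : ℝ) ^ w) :
    |(t + rd h2 x * v) - (t' + rd h2 x * v')| ≤ (A + 4) * (1 / 2 : ℝ) ^ h2 := by
  have h3 := rd_near h x
  have h4 : (1 / 2 : ℝ) ^ w ≤ (1 / 2 : ℝ) ^ h2 := pow_le_pow_of_le_one (by norm_num) (by norm_num) h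
  have e : (t + rd h2 x * v) - (t' + rd h2 x * v') =
      ((t + qa w x * v) - (t' + qa w x * v')) - (qa w x - rd h2 x) * (v - v') := by ring
  rw [e]
  have h5 : |(qa w x - rd h2 x) * (v - v')| ≤ 2 * (1 / 2 : ℝ) ^ h2 * 2 := by
    rw [abs_mul]
    refine mul_le_mul h3 ?_ (abs_nonneg _) (by positivity)
    have a1 := abs_le.1 hv
    have a2 := abs_le.1 hv'
    rw [abs_le]
    constructor <;> linarith
  have h6 := abs_sub ((t + qa w x * v) - (t' + qa w x * v')) ((qa w x - rd h2 x) * (v - v'))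
  have h7 := mul_le_mul_of_nonneg_left h4 hA
  linarith

end Vale.Agent.P106.U.H523
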