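import Vale.Agent.P106.U.H523.TailEnt

/-!
# P106 / U / H523 : the end of the path, averages of the defect
-/

set_option autoImplicit false
set_option linter.unusedSectionVars false

namespace Vale.Agent.P106.U.H523

open Finset Vale.Agent.P127 Vale.Agent.P127.Stk Vale.Agent.P127.U Vale.Agent.P106.W Vale.Agent.P106.K Vale.Agent.P106.U
open Vale.Agent.P106.U.End7 Vale.Agent.P127.U.CellD
open Vale.Agent.P106.U.H416 (wR wt wo wh wC trB trR cM cM_le)

section sys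

variable {Ω : Type} [Fintype Ω] {γ : Type} {p a : ℕ} {l : Ω → Ry} {t : Ω → ℝ} {C : Ω → γ} {S W : Ω → Cbx}
  {P : Law Ω} {c : ℝ} {L q c1 w h2 L2 : ℕ}

theorem sum_pr {V : Type*} (P : Law Ω) (Z : Ω → V) : ∑ z ∈ img Z, P.pr Z z = 1 := by
  have h := H127.ex_cond_sum P (fun _ => (1 : ℝ)) Z
  have e : ∀ z, (P.cond Z z).ex (fun _ => (1 : ℝ)) = 1 := fun z => (P.cond Z z).ex_const 1
  simp only [e, mul_one] at h
  rw [h, P.ex_const]

/-- the ray is known given the ray in the cap and the letter -/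
theorem l_fn {ω ω' : Ω} (h1 : r2 p a l t ω = r2 p a l t ω') (h2 : k2 p a l t C ω = k2 p a l t C ω') : l ω = l ω' := by
  simp only [k2, wC, Prod.mk.injEq] at h2
  obtain ⟨⟨-, h3, h4, h5⟩, h6⟩ := h2
  exact H416.wR_inj h3 h4 h5 (H127.cc_congr h6 h1)

/-- **entropy of the ray given the label, by the states** -/
theorem hc_sum (hc : 0 ≤ c) {K0 : ℝ} (hK0 : 0 ≤ K0) (hh : h2 ≤ w) (hsy : SyOk P l t)
    (hW : ∀ ω, 0 < P.w ω → LbOk c L (a + w) (W ω) (l ω) (t ω) ∧ (W ω).u2 = 1)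
    {B0 : ((γ × ℤ × (Fin 2 → ℤ) × ℤ) × Ry) × Cbx × (Fin 2 → ℤ) × (Fin 2 → ℤ) × ℤ → Cbx}
    (hB : ∀ z, (∃ ω, 0 < P.w ω ∧ k3 p a l t C S ω = z) → Good P p a q c1 l t C S z (B0 z))
    (hg : ∀ ω ω', 0 < P.w ω → 0 < P.w ω' → W ω = W ω' → fl1 (a + w) (t ω) = fl1 (a + w) (t ω') → C ω = C ω' → S ω = S ω' →
      |gS (S ω) (l ω) (t ω) a (a + w) - gS (S ω) (l ω') (t ω') a (a + w)| ≤ K0 * (1 / 2 : ℝ) ^ (w + q)) :
    Stk.hc P l (fun ω => (W ω, fl1 (a + w) (t ω), C ω)) ≤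
      ∑ z ∈ img (k3 p a l t C S), P.pr (k3 p a l t C S) z *
        Stk.hc (P.cond (k3 p a l t C S) z) (r2 p a l t) ((ev p a l t (q - c1) h2 L2 (B0 z)).Zh h2) +
      (Stk.hc P S (fun ω => (W ω, fl1 (a + w) (t ω), C ω)) + (3 * Real.log (2 * cM c + 3) + kC p + kD) +
        3 * Real.log (2 * cD c K0 p + 3)) := by
  set Y : Ω → Cbx × ℤ × γ := fun ω => (W ω, fl1 (a + w) (t ω), C ω) with hY
  set K3 := k3 p a l t C S with hK3
  set Zs : Ω → ℤ × (Fin 3 → ℤ) := fun ω => (ev p a l t (q - c1) h2 L2 (B0 (K3 ω))).Zh h2 ω with hZs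
  have a1 := Stk.hc_le_add' P l K3 Y
  have a2 := Stk.hc_le_add' P l Zs (fun ω => (K3 ω, Y ω))
  have a3 : Stk.hc P l (fun ω => (Zs ω, (K3 ω, Y ω))) ≤ Stk.hc P (r2 p a l t) (fun ω => (Zs ω, K3 ω)) := by
    refine (Stk.hc_mono_left P (X' := r2 p a l t) ?_).trans (Stk.hc_mono_right P _ ?_)
    · intro ω ω' _ _ e
      simp only [Prod.mk.injEq] at e
      exact l_fn e.1 (congrArg Prod.fst e.2.2.1)
    · intro ω ω' _ _ e
      simp only [Prod.mk.injEq] at e ⊢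
      exact ⟨e.1, e.2.1⟩
  have a4 : Stk.hc P K3 Y ≤ _ := hc_k3 (S := S) (C := C) (p := p) hc hsy fun ω hω => (hW ω hω).1
  have a5 : Stk.hc P Zs (fun ω => (K3 ω, Y ω)) ≤ _ := hc_st (L2 := L2) hc hK0 hh hsy hW hB hg
  have a6 := JSB.hc_cond_sum P (r2 p a l t) Zs K3
  have a7 : ∀ z ∈ img K3, P.pr K3 z * Stk.hc (P.cond K3 z) (r2 p a l t) Zs =
      P.pr K3 z * Stk.hc (P.cond K3 z) (r2 p a l t) ((ev p a l t (q - c1) h2 L2 (B0 z)).Zh h2) := by
    intro z _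
    rcases (P.pr_nonneg K3 z).eq_or_lt with h0 | h0
    · rw [← h0, zero_mul, zero_mul]
    · congr 1
      have e1 : ∀ ω, 0 < (P.cond K3 z).w ω → Zs ω = (ev p a l t (q - c1) h2 L2 (B0 z)).Zh h2 ω := fun ω hω => by
        simp only [hZs]
        rw [JSB.cond_supp' P K3 z h0 hω]
      refine Stk.hc_congr _ (fun _ _ _ _ e => congrArg Prod.fst e) (fun _ _ _ _ e => congrArg Prod.fst e) ?_ ?_
      · intro ω ω' h1 h2 e
        rw [e1 ω h1, e1 ω' h2]
        exact e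
      · intro ω ω' h1 h2 e
        rw [← e1 ω h1, ← e1 ω' h2]
        exact e
  rw [a6, Finset.sum_congr rfl a7] at a3
  linarith

/-- **the functional of the states** -/
theorem XX_sum {lam k : ℝ} (hl : 0 ≤ lam ∧ lam ≤ 1) (hk : 0 ≤ k) (hc : 0 ≤ c) (hL : a + p ≤ L) :
    ∑ z ∈ img (k3 p a l t C S), P.pr (k3 p a l t C S) z *
      XX c lam k 0 (P.cond (k3 p a l t C S) z) (r2 p a l t) (fun ω => wt a (t ω)) (fun _ => ()) (fun _ => (0, q - c1))
        (L - a - p) 0 + 3 * a * Real.log 2 ≤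
      XX c lam k 0 P l t C (fun _ => (0, q)) L a + k * (c1 + 2 * p) * Real.log 2 := by
  have hl2 : 0 < Real.log 2 := Real.log_pos (by norm_num)
  have h1 := H875.XX_mix (P := P) (l := r2 p a l t) (t := fun ω => wt a (t ω)) (C := fun _ => ())
    (e := fun _ => (0, q - c1)) (L := L - a - p) (a := 0) (k := k) (La := 0) hc (Nat.zero_le _) hl.1 hl.2 hk le_rfl
    (k3 p a l t C S)
  have h2 := H875.XX_mono_C (P := P) (l := r2 p a l t) (t := fun ω => wt a (t ω)) (C := k2 p a l t C)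
    (C' := fun ω => ((), k3 p a l t C S ω))
    (e := fun _ => (0, q - c1)) (L := L - a - p) (a := 0) (k := k) (La := 0) hc (Nat.zero_le _) hl.1 hl.2 hk le_rfl
    (fun ω ω' _ _ e => congrArg (fun z => z.2.1) e)
  have h3 := H875.XX_le_target (P := P) (l := r2 p a l t) (t := fun ω => wt a (t ω)) (C := k2 p a l t C)
    (e := fun _ => (0, q - c1)) (e' := fun _ => (0, q + p - p)) (L := L - a - p) (a := 0) (k := k) (La := 0) hc
    (Nat.zero_le _) hl.1 hl.2 hk le_rfl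
  have h4 := H127.XX_cap (P := P) (l := fun ω => wR a (l ω) (t ω)) (t := fun ω => wt a (t ω)) (C := wC a l t C)
    (c := c) (lam := lam) (k := k) (L := L - a) (a := 0) (p := p) (R := q + p) hc hl hk (Nat.le_add_left p q) (by omega)
  have h5 := H875.XX_le_target (P := P) (l := fun ω => wR a (l ω) (t ω)) (t := fun ω => wt a (t ω)) (C := wC a l t C)
    (e := fun _ => (p, q + p)) (e' := fun _ => (0, q)) (L := L - a) (a := 0) (k := k) (La := 0) hc
    (Nat.zero_le _) hl.1 hl.2 hk le_rfl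
  have h6 := H416.XX_win (P := P) (l := l) (t := t) (C := C) (e := fun _ => (0, q)) (k := k) (La := 0) (L := L) (a := a)
    hl hk le_rfl hc (by omega)
  rw [P.ex_const] at h3 h5
  have e1 : |(((0 : ℕ) : ℝ)) - (0 : ℕ)| = 0 := by simp
  have e2 : |((q - c1 : ℕ) : ℝ) - ((q + p - p : ℕ) : ℝ)| ≤ c1 := by
    rw [Nat.add_sub_cancel]
    have g1 : ((q - c1 : ℕ) : ℝ) ≤ q := by exact_mod_cast Nat.sub_le q c1
    have g2 : (q : ℝ) ≤ (q - c1 : ℕ) + (c1 : ℝ) := by exact_mod_cast (by omega : q ≤ (q - c1) + c1)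
    rw [abs_le]
    constructor <;> linarith
  have e3 : |((p : ℕ) : ℝ) - ((0 : ℕ) : ℝ)| = p := by simp
  have e4 : |((q + p : ℕ) : ℝ) - ((q : ℕ) : ℝ)| = p := by push_cast; simp
  have f3 : k * ((|(((0 : ℕ) : ℝ)) - (0 : ℕ)| + |((q - c1 : ℕ) : ℝ) - ((q + p - p : ℕ) : ℝ)|) * Real.log 2) ≤
      k * c1 * Real.log 2 := by
    rw [e1, zero_add, mul_assoc]
    exact mul_le_mul_of_nonneg_left (mul_le_mul_of_nonneg_right e2 hl2.le) hk
  have f5 : k * ((|((p : ℕ) : ℝ) - ((0 : ℕ) : ℝ)| + |((q + p : ℕ) : ℝ) - ((q : ℕ) : ℝ)|) * Real.log 2) =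
      k * (2 * p) * Real.log 2 := by
    rw [e3, e4]
    ring
  have f6 : (0 : ℝ) ≤ 4 * p * Real.log 2 := by positivity
  rw [h1] at h2
  have h3' : XX c lam k 0 P (r2 p a l t) (fun ω => wt a (t ω)) (k2 p a l t C) (fun _ => (0, q - c1)) (L - a - p) 0 ≤
      XX c lam k 0 P (r2 p a l t) (fun ω => wt a (t ω)) (k2 p a l t C) (fun _ => (0, q + p - p)) (L - a - p) 0 +
        k * c1 * Real.log 2 := h3.trans (add_le_add le_rfl f3)
  have h4' : XX c lam k 0 P (r2 p a l t) (fun ω => wt a (t ω)) (k2 p a l t C) (fun _ => (0, q + p - p)) (L - a - p) 0 +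
      4 * p * Real.log 2 ≤ XX c lam k 0 P (fun ω => wR a (l ω) (t ω)) (fun ω => wt a (t ω)) (wC a l t C)
        (fun _ => (p, q + p)) (L - a) 0 := h4
  have h5' : XX c lam k 0 P (fun ω => wR a (l ω) (t ω)) (fun ω => wt a (t ω)) (wC a l t C)
        (fun _ => (p, q + p)) (L - a) 0 ≤ XX c lam k 0 P (fun ω => wR a (l ω) (t ω)) (fun ω => wt a (t ω)) (wC a l t C)
        (fun _ => (0, q)) (L - a) 0 + k * (2 * p) * Real.log 2 := h5.trans (le_of_eq (by rw [f5]))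
  linarith

/-- **the deficit of the time of the states** -/
theorem Dd_sum (hh : h2 ≤ w) :
    ∑ z ∈ img (k3 p a l t C S), P.pr (k3 p a l t C S) z *
      Dd (P.cond (k3 p a l t C S) z) (r2 p a l t) (fun ω => wt a (t ω)) (fun _ => ()) h2 ≤
      Dd P l t C (a + w) - Dd P l t C a + Stk.hc P S (fun ω => (l ω, fl1 a (t ω), C ω)) := by
  set K3 := k3 p a l t C S with hK3
  set T : Ω → ℤ := fun ω => fl1 h2 (wt a (t ω)) with hT
  have h1 := JSB.hc_cond_sum P T (fun ω => (r2 p a l t ω, ())) K3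
  have h3 : ∑ z ∈ img K3, P.pr K3 z * Dd (P.cond K3 z) (r2 p a l t) (fun ω => wt a (t ω)) (fun _ => ()) h2 =
      h2 * Real.log 2 - ∑ z ∈ img K3, P.pr K3 z * Stk.hc (P.cond K3 z) T (fun ω => (r2 p a l t ω, ())) := by
    have e : ∀ z, P.pr K3 z * Dd (P.cond K3 z) (r2 p a l t) (fun ω => wt a (t ω)) (fun _ => ()) h2 =
        P.pr K3 z * (h2 * Real.log 2) - P.pr K3 z * Stk.hc (P.cond K3 z) T (fun ω => (r2 p a l t ω, ())) := fun z => by
      unfold Dd
      ring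
    simp only [e]
    rw [Finset.sum_sub_distrib, ← Finset.sum_mul, sum_pr, one_mul]
  rw [h3, ← h1]
  have h4 := Stk.hc_le_add' P T S (fun ω => (r2 p a l t ω, k2 p a l t C ω))
  have h5 : Stk.hc P T (fun ω => (S ω, (r2 p a l t ω, k2 p a l t C ω))) ≤
      Stk.hc P T (fun ω => ((r2 p a l t ω, ()), K3 ω)) := by
    refine Stk.hc_mono_right P T fun ω ω' _ _ e => ?_
    simp only [Prod.mk.injEq, hK3, k3] at e ⊢
    obtain ⟨e1, e2, e3⟩ := e
    refine ⟨⟨e2, trivial⟩, e3, e1, ?_⟩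
    unfold d2
    rw [e2]
  have h6 : Stk.hc P S (fun ω => (r2 p a l t ω, k2 p a l t C ω)) ≤ Stk.hc P S (fun ω => (l ω, fl1 a (t ω), C ω)) := by
    refine Stk.hc_mono_right P S fun ω ω' _ _ e => ?_
    simp only [Prod.mk.injEq] at e ⊢
    refine ⟨l_fn e.1 e.2, ?_, ?_⟩
    · have := congrArg (fun z => z.1.2.1) e.2
      exact this
    · have := congrArg (fun z => z.1.1) e.2
      exact this
  have h7 := H127.Dd_cap (P := P) (l := fun ω => wR a (l ω) (t ω)) (t := fun ω => wt a (t ω)) (C := wC a l t C)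
    (p := p) (h := h2)
  have h8 := H864.Dd_mono P (fun ω => wR a (l ω) (t ω)) (fun ω => wt a (t ω)) (wC a l t C) hh
  have h9 := H416.Dd_win (P := P) (l := l) (t := t) (C := C) (a := a) (w := w)
  have h10 : Dd P (fun ω => cp p (wR a (l ω) (t ω))) (fun ω => wt a (t ω)) (fun ω => (wC a l t C ω, cc p (wR a (l ω) (t ω)))) h2 =
      h2 * Real.log 2 - Stk.hc P T (fun ω => (r2 p a l t ω, k2 p a l t C ω)) := rfl
  linarith

end sys

end Vale.Agent.P106.U.H523
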