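import Vale.Agent.P127.U.CellD

/-!
# P106 / U / H523 : the weighted total cost (helper523)

* **`wgt`** : finitely many nonnegative costs `f i` with targets `t i > 0`, averages `≤ N a i`, `(Cψ + 1) Σ a i / t i ≤ 1`: the one
  cost `ψ := (Cψ + 1) Σ f i / t i` is nonnegative, of average `≤ N`, and `ψ ≤ Cψ` gives `f i ≤ t i` for every `i`.
* `sum_q2_8`, `sum_q2_c` : `Σ_(m ≤ μ ≤ B) q2 (μ / c) ≤ 2 c q2 (m / c)`; `sum_inv_sq` : `Σ_(d < D) 1 / (d + 1)² ≤ 2`;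
  `sum_inv_two` : `Σ_(j < J) 1 / 2^j ≤ 2`, with a start `j0`.
* `dya` : `∃ j, K' ≤ 2^j ≤ 2 K'`.
* `q2_small`, `lin_q2_small` : `(m + μ + 1)^k q2 (μ / c)`-type terms are small for `μ ≥ m ≥ m0`.
-/

set_option autoImplicit false

namespace Vale.Agent.P106.U.H523.Wgt

open Finset Vale.Agent.P127
open Vale.Agent.P127.U.CellD (q2)

section wgt

variable {Ω ι α : Type*} {Ω' : Type} [Fintype Ω']

/-- the total cost -/
noncomputable def psi (S : Finset ι) (Cψ : ℝ) (f : ι → ℕ → ℕ → α → ℝ) (t : ι → ℝ) (b0 kk : ℕ) (e : α) : ℝ :=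
  (Cψ + 1) * ∑ i ∈ S, f i b0 kk e / t i

theorem wgt (S : Finset ι) (Q : Law Ω') (Z : ℕ → ℕ → Ω' → α) (n Tc : ℕ) (N Cψ : ℝ) (hC : 0 ≤ Cψ)
    (f : ι → ℕ → ℕ → α → ℝ) (t a : ι → ℝ) (ht : ∀ i ∈ S, 0 < t i)
    (hf : ∀ i ∈ S, ∀ b0 kk e, 0 < Q.pr (Z b0 kk) e → 0 ≤ f i b0 kk e) (hN : 0 ≤ N)
    (ha : ∀ i ∈ S, ∑ b0 ∈ range n, ∑ kk ∈ range Tc, Q.ex (fun ω => f i b0 kk (Z b0 kk ω)) ≤ N * a i)
    (hs : (Cψ + 1) * ∑ i ∈ S, a i / t i ≤ 1) :
    (∀ b0 kk e, 0 < Q.pr (Z b0 kk) e → 0 ≤ psi S Cψ f t b0 kk e) ∧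
    (∑ b0 ∈ range n, ∑ kk ∈ range Tc, Q.ex (fun ω => psi S Cψ f t b0 kk (Z b0 kk ω)) ≤ N) ∧
    ∀ b0 kk e, 0 < Q.pr (Z b0 kk) e → psi S Cψ f t b0 kk e ≤ Cψ → ∀ i ∈ S, f i b0 kk e ≤ t i := by
  classical
  have hp : ∀ b0 kk e, 0 < Q.pr (Z b0 kk) e → ∀ i ∈ S, 0 ≤ f i b0 kk e / t i := fun b0 kk e he i hi =>
    div_nonneg (hf i hi b0 kk e he) (ht i hi).le
  refine ⟨fun b0 kk e he => mul_nonneg (by linarith) (Finset.sum_nonneg (hp b0 kk e he)), ?_, ?_⟩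
  · have e1 : ∀ b0 kk, Q.ex (fun ω => psi S Cψ f t b0 kk (Z b0 kk ω)) =
        (Cψ + 1) * ∑ i ∈ S, Q.ex (fun ω => f i b0 kk (Z b0 kk ω)) / t i := by
      intro b0 kk
      have : Q.ex (fun ω => psi S Cψ f t b0 kk (Z b0 kk ω)) =
          (Cψ + 1) * Q.ex (fun ω => ∑ i ∈ S, f i b0 kk (Z b0 kk ω) / t i) := by
        rw [← Q.ex_const_mul]; rfl
      rw [this]
      congr 1
      simp only [Law.ex, Finset.mul_sum, Finset.sum_div]
      rw [Finset.sum_comm]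
      refine Finset.sum_congr rfl fun i _ => Finset.sum_congr rfl fun ω _ => by ring
    have e2 : ∑ b0 ∈ range n, ∑ kk ∈ range Tc, Q.ex (fun ω => psi S Cψ f t b0 kk (Z b0 kk ω)) =
        (Cψ + 1) * ∑ i ∈ S, (∑ b0 ∈ range n, ∑ kk ∈ range Tc, Q.ex (fun ω => f i b0 kk (Z b0 kk ω))) / t i := by
      simp only [e1, ← Finset.mul_sum]
      congr 1
      simp only [Finset.sum_div]
      rw [Finset.sum_congr rfl fun b0 _ => Finset.sum_comm, Finset.sum_comm]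
    rw [e2]
    have e3 : ∑ i ∈ S, (∑ b0 ∈ range n, ∑ kk ∈ range Tc, Q.ex (fun ω => f i b0 kk (Z b0 kk ω))) / t i ≤
        N * ∑ i ∈ S, a i / t i := by
      rw [Finset.mul_sum]
      refine Finset.sum_le_sum fun i hi => ?_
      have := ht i hi
      calc _ ≤ N * a i / t i := by gcongr; exact ha i hi
        _ = N * (a i / t i) := by ring
    calc _ ≤ (Cψ + 1) * (N * ∑ i ∈ S, a i / t i) := mul_le_mul_of_nonneg_left e3 (by linarith)
      _ = N * ((Cψ + 1) * ∑ i ∈ S, a i / t i) := by ring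
      _ ≤ N * 1 := mul_le_mul_of_nonneg_left hs hN
      _ = N := mul_one N
  · intro b0 kk e he hψ i hi
    by_contra hc
    push Not at hc
    have h1 : 1 < f i b0 kk e / t i := (one_lt_div (ht i hi)).2 hc
    have h2 : f i b0 kk e / t i ≤ ∑ i ∈ S, f i b0 kk e / t i :=
      Finset.single_le_sum (f := fun i => f i b0 kk e / t i) (hp b0 kk e he) hi
    have h3 : (Cψ + 1) * 1 < psi S Cψ f t b0 kk e := by
      unfold psi
      exact mul_lt_mul_of_pos_left (h1.trans_le h2) (by linarith)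
    linarith

end wgt

section num

theorem q2_nn (p : ℕ) : 0 ≤ q2 p := by unfold q2; positivity

theorem q2_pos (p : ℕ) : 0 < q2 p := by unfold q2; positivity

theorem q2_le {p q : ℕ} (h : p ≤ q) : q2 q ≤ q2 p := pow_le_pow_of_le_one (by norm_num) (by norm_num) h

/-- a geometric sum with the exponent `μ / c` -/
theorem sum_q2_c (c : ℕ) (hc : 0 < c) (m B : ℕ) : ∑ μ ∈ Icc m B, q2 (μ / c) ≤ 2 * c * q2 (m / c) := by
  classical
  -- group by the quotient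
  have hmap : ∀ μ ∈ Icc m B, μ / c ∈ Icc (m / c) (B / c) := fun μ hμ => by
    rw [mem_Icc] at hμ ⊢
    exact ⟨Nat.div_le_div_right hμ.1, Nat.div_le_div_right hμ.2⟩
  rw [← Finset.sum_fiberwise_of_maps_to hmap]
  have h1 : ∀ q ∈ Icc (m / c) (B / c), ∑ μ ∈ (Icc m B).filter (fun μ => μ / c = q), q2 (μ / c) ≤ c * q2 q := by
    intro q _
    have e : ∑ μ ∈ (Icc m B).filter (fun μ => μ / c = q), q2 (μ / c) =
        ∑ μ ∈ (Icc m B).filter (fun μ => μ / c = q), q2 q :=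
      Finset.sum_congr rfl fun μ hμ => by rw [(mem_filter.1 hμ).2]
    rw [e, Finset.sum_const, nsmul_eq_mul]
    refine mul_le_mul_of_nonneg_right ?_ (q2_nn q)
    have : (Icc m B).filter (fun μ => μ / c = q) ⊆ Ico (q * c) (q * c + c) := by
      intro μ hμ
      rw [mem_filter] at hμ
      rw [mem_Ico]
      have h2 := Nat.div_add_mod μ c
      have h3 := Nat.mod_lt μ hc
      rw [hμ.2] at h2
      have h5 := Nat.mul_comm c q
      rw [h5] at h2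
      constructor <;> omega
    have h4 := card_le_card this
    simp only [Nat.card_Ico, Nat.add_sub_cancel_left] at h4
    exact_mod_cast h4
  refine (Finset.sum_le_sum h1).trans ?_
  rw [← Finset.mul_sum]
  have h5 : ∀ (a b : ℕ), ∑ q ∈ Icc a b, q2 q ≤ 2 * q2 a := by
    intro a b
    by_cases hab : a ≤ b
    · have : ∀ k : ℕ, ∑ q ∈ Icc a (a + k), q2 q = 2 * q2 a - q2 (a + k) := by
        intro k
        induction k with
        | zero => simp; ring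
        | succ k ih =>
          rw [← add_assoc, ← Finset.insert_Icc_right_eq_Icc_add_one (by omega : a ≤ a + k + 1),
            Finset.sum_insert (by simp), ih]
          have : q2 (a + k + 1) = q2 (a + k) / 2 := by unfold q2; rw [pow_succ]; ring
          rw [this]; ring
      obtain ⟨k, rfl⟩ := Nat.exists_eq_add_of_le hab
      rw [this k]
      linarith [q2_nn (a + k)]
    · rw [Finset.Icc_eq_empty (by omega)]
      simp [q2_nn]
  calc (c : ℝ) * ∑ q ∈ Icc (m / c) (B / c), q2 q ≤ c * (2 * q2 (m / c)) :=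
        mul_le_mul_of_nonneg_left (h5 _ _) (Nat.cast_nonneg c)
    _ = 2 * c * q2 (m / c) := by ring

theorem sum_q2_8 (m B : ℕ) : ∑ μ ∈ Icc m B, q2 (μ / 8) ≤ 16 * q2 (m / 8) := by
  have := sum_q2_c 8 (by norm_num) m B
  norm_num at this
  exact this

theorem sum_inv_sq (D : ℕ) : ∑ d ∈ range D, 1 / ((d : ℝ) + 1) ^ 2 ≤ 2 := by
  have h : ∀ D : ℕ, ∑ d ∈ range D, 1 / ((d : ℝ) + 1) ^ 2 ≤ 2 - 1 / (D : ℝ) := by
    intro D
    induction D with
    | zero => norm_num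
    | succ D ih =>
      rw [sum_range_succ]
      rcases Nat.eq_zero_or_pos D with h0 | h0
      · subst h0; norm_num
      have h3 : (0 : ℝ) < D := by exact_mod_cast h0
      have : 1 / ((D : ℝ) + 1) ^ 2 ≤ 1 / D - 1 / (D + 1) := by
        rw [div_sub_div _ _ h3.ne' (by positivity), div_le_div_iff₀ (by positivity) (by positivity)]
        nlinarith
      push_cast
      linarith
  have h2 : (0 : ℝ) ≤ 1 / (D : ℝ) := by positivity
  linarith [h D]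

theorem sum_inv_sq' (B : ℕ) : ∑ d ∈ range (B + 1), 1 / ((d : ℝ) + 1) ^ 2 ≤ 2 := sum_inv_sq (B + 1)

/-- dyadic constants from `2^j0` on -/
theorem sum_inv_two (j0 J : ℕ) : ∑ j ∈ Icc j0 J, 1 / (2 : ℝ) ^ j ≤ 2 / 2 ^ j0 := by
  have := sum_q2_c 1 one_pos j0 J
  simp only [Nat.div_one, Nat.cast_one, mul_one] at this
  have e : ∀ j : ℕ, q2 j = 1 / (2 : ℝ) ^ j := fun j => by unfold q2; rw [div_pow, one_pow]
  simp only [e] at this
  rw [div_eq_mul_one_div]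
  exact this

/-- a dyadic number above `K'` -/
theorem dya (K' : ℝ) (h : 1 ≤ K') : ∃ j : ℕ, K' ≤ 2 ^ j ∧ (2 : ℝ) ^ j ≤ 2 * K' := by
  obtain ⟨n, h1, h2⟩ := exists_nat_pow_near h (one_lt_two)
  refine ⟨n + 1, h2.le, ?_⟩
  rw [pow_succ]; linarith

/-- `q2 (μ / c)` kills a power of `μ + 1`, from `m0` on -/
theorem lin_q2_small (c k : ℕ) (hc : 0 < c) (ε : ℝ) (hε : 0 < ε) :
    ∃ m0 : ℕ, ∀ μ : ℕ, m0 ≤ μ → ((μ : ℝ) + 1) ^ k * q2 (μ / c) ≤ ε := by
  -- (μ + 1)^k (1/2)^(μ/c) <= (c (q + 1))^k (1/2)^q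
  have h1 : Filter.Tendsto (fun n : ℕ => (n : ℝ) ^ k * (1 / 2 : ℝ) ^ n) Filter.atTop (nhds 0) :=
    tendsto_pow_const_mul_const_pow_of_lt_one k (by norm_num) (by norm_num)
  have h2 := h1.eventually (gt_mem_nhds (show (0 : ℝ) < ε / (2 * (c : ℝ) ^ k) by positivity))
  obtain ⟨q0, hq0⟩ := Filter.eventually_atTop.1 h2
  refine ⟨c * q0, fun μ hμ => ?_⟩
  have h3 : q0 ≤ μ / c := (Nat.le_div_iff_mul_le hc).2 (by rw [Nat.mul_comm]; exact hμ)
  have h4 : (μ : ℝ) + 1 ≤ c * ((μ / c : ℕ) + 1 : ℝ) := by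
    have := Nat.div_add_mod μ c
    have h5 := Nat.mod_lt μ hc
    have : μ + 1 ≤ c * (μ / c + 1) := by rw [Nat.mul_add, Nat.mul_one]; omega
    exact_mod_cast this
  have h6 := (hq0 (μ / c + 1) (by omega)).le
  have h7 : q2 (μ / c) = 2 * (1 / 2 : ℝ) ^ (μ / c + 1) := by unfold q2; rw [pow_succ]; ring
  calc ((μ : ℝ) + 1) ^ k * q2 (μ / c) ≤ (c * ((μ / c : ℕ) + 1 : ℝ)) ^ k * q2 (μ / c) := by
        gcongr
        exact q2_nn _
    _ = (c : ℝ) ^ k * 2 * ((((μ / c + 1 : ℕ) : ℝ)) ^ k * (1 / 2 : ℝ) ^ (μ / c + 1)) := by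
        rw [h7, mul_pow]; push_cast; ring
    _ ≤ (c : ℝ) ^ k * 2 * (ε / (2 * (c : ℝ) ^ k)) := by gcongr
    _ = ε := by field_simp

end num

end Vale.Agent.P106.U.H523.Wgt
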