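import Vale.Agent.P106.U.H523.Wgt

/-!
# P106 / U / H523 : the sum of the targets over margins and constants (helper523)

* **`sum_target`** : `Σ_(μ, j) (1 / (B + 1)³ + q2 (μ / 16) q2 (j / 4)) ≤ ε` for `m ≥ m0 ε`, `B ≥ B0 ε`, over `m ≤ μ ≤ B` and
  any set of at most `B + 1` numbers `j`.
* `card_dya` : the numbers `j` with `2^j ≤ 2 B` are in `range (B + 1)` (`1 ≤ B`).
-/

set_option autoImplicit false

namespace Vale.Agent.P106.U.H523.Wgt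

open Finset Vale.Agent.P127
open Vale.Agent.P127.U.CellD (q2)

theorem sum_q2_range (c : ℕ) (hc : 0 < c) (T : Finset ℕ) : ∑ j ∈ T, q2 (j / c) ≤ 2 * c := by
  classical
  have h1 : T ⊆ Icc 0 (T.sup id) := fun j hj => mem_Icc.2 ⟨Nat.zero_le _, Finset.le_sup (f := id) hj⟩
  refine (Finset.sum_le_sum_of_subset_of_nonneg h1 fun j _ _ => q2_nn _).trans ?_
  refine (sum_q2_c c hc 0 _).trans ?_
  rw [Nat.zero_div]
  have : q2 0 = 1 := by unfold q2; norm_num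
  rw [this, mul_one]

theorem card_dya {B j : ℕ} (h : (2 : ℝ) ^ j ≤ 2 * B) : j ∈ range (B + 1) := by
  rw [mem_range]
  by_contra hc
  have h1 : B + 1 ≤ j := by omega
  have h2 : (2 : ℝ) ^ (B + 1) ≤ 2 ^ j := pow_le_pow_right₀ (by norm_num) h1
  have h3 : (B : ℝ) + 1 ≤ 2 ^ B := by
    have : B + 1 ≤ 2 ^ B := Nat.lt_two_pow_self
    exact_mod_cast this
  rw [pow_succ] at h2
  linarith

theorem sum_target (ε : ℝ) (hε : 0 < ε) : ∃ m0 B0 : ℕ, ∀ m B : ℕ, m0 ≤ m → B0 ≤ B → ∀ T : Finset ℕ, T ⊆ range (B + 1) →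
    ∑ μ ∈ Icc m B, ∑ j ∈ T, (1 / ((B : ℝ) + 1) ^ 3 + q2 (μ / 16) * q2 (j / 4)) ≤ ε := by
  classical
  obtain ⟨m0, hm0⟩ := lin_q2_small 16 0 (by norm_num) (ε / 512) (by positivity)
  obtain ⟨B0, hB0⟩ := exists_nat_gt (2 / ε)
  refine ⟨m0, B0, fun m B hm hB T hT => ?_⟩
  have h1 := hm0 m hm
  rw [pow_zero, one_mul] at h1
  have hBp : (0 : ℝ) < (B : ℝ) + 1 := by positivity
  have hcT : (T.card : ℝ) ≤ (B : ℝ) + 1 := by
    have := card_le_card hT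
    rw [card_range] at this
    exact_mod_cast this
  have hcI : ((Icc m B).card : ℝ) ≤ (B : ℝ) + 1 := by
    have : (Icc m B).card ≤ B + 1 := by rw [Nat.card_Icc]; omega
    exact_mod_cast this
  have e1 : ∑ μ ∈ Icc m B, ∑ j ∈ T, (1 / ((B : ℝ) + 1) ^ 3 + q2 (μ / 16) * q2 (j / 4)) =
      ((Icc m B).card : ℝ) * (T.card * (1 / ((B : ℝ) + 1) ^ 3)) + (∑ μ ∈ Icc m B, q2 (μ / 16)) * ∑ j ∈ T, q2 (j / 4) := by
    simp only [Finset.sum_add_distrib, Finset.sum_const, nsmul_eq_mul, ← Finset.mul_sum, ← Finset.sum_mul]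
  rw [e1]
  have a1 : ((Icc m B).card : ℝ) * (T.card * (1 / ((B : ℝ) + 1) ^ 3)) ≤ ((B : ℝ) + 1) * (((B : ℝ) + 1) * (1 / ((B : ℝ) + 1) ^ 3)) := by
    gcongr
  have a2 : ((B : ℝ) + 1) * (((B : ℝ) + 1) * (1 / ((B : ℝ) + 1) ^ 3)) = 1 / ((B : ℝ) + 1) := by
    field_simp
  have a3 : 1 / ((B : ℝ) + 1) ≤ ε / 2 := by
    rw [div_le_iff₀ hBp]
    have b1 : (B0 : ℝ) ≤ B := by exact_mod_cast hB
    have b2 : 2 / ε < (B : ℝ) + 1 := by linarith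
    rw [div_lt_iff₀ hε] at b2
    linarith
  have a4 : (∑ μ ∈ Icc m B, q2 (μ / 16)) * ∑ j ∈ T, q2 (j / 4) ≤ (2 * 16 * q2 (m / 16)) * (2 * 4) := by
    have c1 := sum_q2_c 16 (by norm_num) m B
    have c2 := sum_q2_range 4 (by norm_num) T
    push_cast at c1 c2
    have c3 : 0 ≤ ∑ j ∈ T, q2 (j / 4) := Finset.sum_nonneg fun j _ => q2_nn _
    have c4 : 0 ≤ 2 * 16 * q2 (m / 16) := by have := q2_nn (m / 16); positivity
    exact mul_le_mul c1 c2 c3 c4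
  linarith

end Vale.Agent.P106.U.H523.Wgt
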